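import Vale.Agent.P300.TOR.Lift

/-!
P300, block TOR: the charts are star-shaped, `U_S` is connected for transitive `S`.
-/

open Set Topology Filter

namespace Vale.Agent.P300.TOR

/-- A real point of a chamber. -/
noncomputable def Ch.mid (i : Fin 3) : ℝ := match i with
  | 0 => -2
  | 1 => 1 / 2
  | 2 => 3

/-- A real point of a chamber. -/
noncomputable def Ch.rx (C : Ch) : ℝ :=
  Ch.mid C.X + (if C.X = C.L then (if C.s then 1 / 4 else -1 / 4) else 0)

theorem Ch.mid_pc (i : Fin 3) (t : ℝ) (ht : |t| ≤ 1 / 4) : pc i (Ch.mid i + t) := by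
  rw [abs_le] at ht
  fin_cases i <;> simp [pc, Ch.mid] <;> (try constructor) <;> linarith [ht.1, ht.2]

theorem Ch.rx_pc (C : Ch) : pc C.X C.rx := by
  unfold Ch.rx
  refine Ch.mid_pc _ _ ?_
  split_ifs <;> norm_num [abs_le]

theorem Ch.rl_pc (C : Ch) : pc C.L (Ch.mid C.L) := by
  simpa using Ch.mid_pc C.L 0 (by norm_num)

theorem Ch.r_sd (C : Ch) : sd C.s (C.rx - Ch.mid C.L) := by
  obtain ⟨L, X, s, h1, h2⟩ := C
  fin_cases L <;> fin_cases X <;> simp at h1 h2 <;> (try subst h1) <;> (try subst h2) <;>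
    (try cases s) <;> simp [sd, Ch.rx, Ch.mid] <;> norm_num

/-- The real base point of a chamber. -/
noncomputable def Ch.ctr (C : Ch) : ℂ × ℂ := ((C.rx : ℂ), ((Ch.mid C.L : ℝ) : ℂ))

theorem pc_combo {i : Fin 3} {x y a b : ℝ} (hx : pc i x) (hy : pc i y) (ha : 0 ≤ a) (hb : 0 ≤ b)
    (hab : a + b = 1) : pc i (a * x + b * y) := by
  have hc : Convex ℝ {t : ℝ | pc i t} := by
    fin_cases i
    · exact convex_Iio 0
    · exact convex_Ioo 0 1
    · exact convex_Ioi 1
  have := hc hx hy ha hb hab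
  simpa using this

theorem sd_combo {s : Bool} {x y a b : ℝ} (hx : sd s x) (hy : sd s y) (ha : 0 ≤ a) (hb : 0 ≤ b)
    (hab : a + b = 1) : sd s (a * x + b * y) := by
  have hc : Convex ℝ {t : ℝ | sd s t} := by
    cases s
    · have : {t : ℝ | sd false t} = Iio 0 := by ext t; simp [sd]
      rw [this]; exact convex_Iio 0
    · have : {t : ℝ | sd true t} = Ioi 0 := by ext t; simp [sd]
      rw [this]; exact convex_Ioi 0
  have := hc hx hy ha hb hab
  simpa using this

theorem Ch.starConvex (C : Ch) : StarConvex ℝ C.ctr C.A := by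
  rintro z ⟨h1, h2, h3⟩ a b ha hb hab
  rcases eq_or_lt_of_le hb with hb0 | hb0
  · have ha1 : a = 1 := by linarith
    subst hb0
    subst ha1
    refine ⟨fun _ => ?_, fun _ => ?_, fun _ => ?_⟩
    · simpa [Ch.ctr] using C.rx_pc
    · simpa [Ch.ctr] using C.rl_pc
    · simpa [Ch.ctr] using C.r_sd
  · refine ⟨fun h => ?_, fun h => ?_, fun h => ?_⟩
    · have h0 : z.1.im = 0 := by
        have : b * z.1.im = 0 := by simpa [Ch.ctr] using h
        exact (mul_eq_zero.1 this).resolve_left hb0.ne'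
      have := pc_combo C.rx_pc (h1 h0) ha hb hab
      simpa [Ch.ctr] using this
    · have h0 : z.2.im = 0 := by
        have : b * z.2.im = 0 := by simpa [Ch.ctr] using h
        exact (mul_eq_zero.1 this).resolve_left hb0.ne'
      have := pc_combo C.rl_pc (h2 h0) ha hb hab
      simpa [Ch.ctr] using this
    · have h0 : z.1.im = z.2.im := by
        have : b * z.1.im = b * z.2.im := by simpa [Ch.ctr] using h
        exact mul_left_cancel₀ hb0.ne' this
      have := sd_combo C.r_sd (h3 h0) ha hb hab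
      have e : a * (C.rx - Ch.mid C.L) + b * (z.1.re - z.2.re) =
          (a * C.rx + b * z.1.re) - (a * Ch.mid C.L + b * z.2.re) := by ring
      rw [e] at this
      simpa [Ch.ctr] using this

theorem Ch.ctr_mem (C : Ch) : C.ctr ∈ C.A := by
  refine ⟨fun _ => ?_, fun _ => ?_, fun _ => ?_⟩
  · simpa [Ch.ctr] using C.rx_pc
  · simpa [Ch.ctr] using C.rl_pc
  · simpa [Ch.ctr] using C.r_sd

theorem Ch.isPathConnected_A (C : Ch) : IsPathConnected C.A :=
  C.starConvex.isPathConnected C.ctr_mem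

/-- A point in the open cone of the frame `n` lies in every chart. -/
theorem generic_mem (C : Ch) {z : ℂ × ℂ} (h1 : z.1.im ≠ 0) (h2 : z.2.im ≠ 0)
    (h3 : z.1.im ≠ z.2.im) : z ∈ C.A :=
  ⟨fun h => absurd h h1, fun h => absurd h h2, fun h => absurd h h3⟩

/-- A generic point in each cone. -/
noncomputable def gen (n : Fin 6) : ℂ × ℂ := match n with
  | 0 => (2 * Complex.I, Complex.I)
  | 1 => (Complex.I, 2 * Complex.I)
  | 2 => (-Complex.I, Complex.I)
  | 3 => (Complex.I, -Complex.I)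
  | 4 => (-Complex.I, -2 * Complex.I)
  | 5 => (-2 * Complex.I, -Complex.I)

theorem gen_cone (n : Fin 6) : cone n (gen n).1.im (gen n).2.im := by
  fin_cases n <;> simp [cone, gen]

theorem gen_mem (C : Ch) (n : Fin 6) : gen n ∈ C.A := by
  fin_cases n <;> refine generic_mem C ?_ ?_ ?_ <;> simp [gen] <;>
    norm_num

/-- The generic point as a point of the base. -/
noncomputable def genU (n : Fin 6) : Arr.UT :=
  ⟨gen n, (⟨1, 1, true, by simp, by simp⟩ : Ch).A_subset (gen_mem _ n)⟩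

variable {G : Type*} [Group G] (r : Arr G)

namespace Arr

variable {S : Type*} [MulAction G S] [TopologicalSpace S] [DiscreteTopology S]

/-- The shp over the chart `C` with coordinate `s`. -/
def shp (C : Ch) (s : S) : Set (r.Tot S) :=
  {p | ((r.pr p : UT) : ℂ × ℂ) ∈ C.A ∧ r.crd C p = s}

theorem isPathConnected_shp (C : Ch) (s : S) : IsPathConnected (r.shp C s) := by
  have h1 : IsPathConnected {z : UT | (z : ℂ × ℂ) ∈ C.A} := by
    have h2 : IsPathConnected ((Subtype.val : UT → ℂ × ℂ) '' {z : UT | (z : ℂ × ℂ) ∈ C.A}) := by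
      have : (Subtype.val : UT → ℂ × ℂ) '' {z : UT | (z : ℂ × ℂ) ∈ C.A} = C.A := by
        ext z
        constructor
        · rintro ⟨w, hw, rfl⟩
          exact hw
        · intro hz
          exact ⟨⟨z, C.A_subset hz⟩, hz, rfl⟩
      rw [this]
      exact C.isPathConnected_A
    exact Topology.IsInducing.subtypeVal.isPathConnected_iff.2 h2
  have h2 := h1.image' (r.continuousOn_pt C s)
  have h3 : (fun z : UT => r.pt C z s) '' {z : UT | (z : ℂ × ℂ) ∈ C.A} = r.shp C s := by
    ext p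
    constructor
    · rintro ⟨z, hz, rfl⟩
      exact ⟨by rw [r.pr_pt hz]; exact hz, r.crd_pt hz s⟩
    · rintro ⟨hp, hs⟩
      refine ⟨r.pr p, hp, ?_⟩
      simp only
      rw [← hs, r.pt_crd hp]
  rwa [h3] at h2

/-- The union of the sheets which have the coordinate `v` in the frame `0`. -/
def star (v : S) : Set (r.Tot S) := ⋃ C : Ch, r.shp C v

theorem pt_mem_shp (C : Ch) {z : UT} (hz : (z : ℂ × ℂ) ∈ C.A) (s : S) : r.pt C z s ∈ r.shp C s :=
  ⟨by rw [r.pr_pt hz]; exact hz, r.crd_pt hz s⟩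

theorem pt_gen_mem_shp (C C' : Ch) (n : Fin 6) (s : S) :
    r.pt C (genU n) s ∈ r.shp C' ((r.k C' n * (r.k C n)⁻¹) • s) := by
  have h := gen_mem C n
  have h' := gen_mem C' n
  have hz : ((r.pr (r.pt C (genU n) s) : UT) : ℂ × ℂ) = gen n := by rw [r.pr_pt h]; rfl
  refine ⟨by rw [hz]; exact h', ?_⟩
  rw [r.crd_change_frame (C := C) (n := n) (by rw [hz]; exact h) (by rw [hz]; exact h')
    (by rw [hz]; exact gen_cone n), r.crd_pt h]

/-- The chamber `0 < x < l < 1`, used as a base. -/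
def C₁ : Ch := ⟨1, 1, true, by simp, by simp⟩

theorem isPathConnected_star (v : S) : IsPathConnected (r.star v) := by
  refine ⟨r.pt C₁ (genU 0) v, mem_iUnion.2 ⟨C₁, ?_⟩, ?_⟩
  · exact r.pt_mem_shp _ (gen_mem _ _) _
  · intro p hp
    obtain ⟨C, hC⟩ := mem_iUnion.1 hp
    have h1 : r.pt C₁ (genU 0) v ∈ r.shp C v := by
      have := r.pt_gen_mem_shp C₁ C 0 v
      simpa [k_zero] using this
    have h2 := (r.isPathConnected_shp C v).joinedIn _ h1 _ hC
    exact h2.mono (subset_iUnion (fun C => r.shp C v) C)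

theorem star_meet (C C' : Ch) (n : Fin 6) (v : S) :
    (r.star v ∩ r.star ((r.k C' n * (r.k C n)⁻¹) • v)).Nonempty :=
  ⟨r.pt C (genU n) v, mem_iUnion.2 ⟨C, r.pt_mem_shp _ (gen_mem _ _) _⟩,
    mem_iUnion.2 ⟨C', r.pt_gen_mem_shp C C' n v⟩⟩

/-- The set of the five generators. -/
def gens : Set G := {r.c1, r.c2, r.c3, r.T0, r.T1}

theorem joined_star {v w : S} (p q : r.Tot S) (hp : p ∈ r.star v) (hq : q ∈ r.star w)
    (h : (r.star v ∩ r.star w).Nonempty) : Joined p q := by
  obtain ⟨x, h1, h2⟩ := h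
  have a := ((r.isPathConnected_star v).joinedIn _ hp _ h1).joined
  have b := ((r.isPathConnected_star w).joinedIn _ h2 _ hq).joined
  exact a.trans b

theorem mem_star_self (v : S) : r.pt C₁ (genU 0) v ∈ r.star v :=
  mem_iUnion.2 ⟨C₁, r.pt_mem_shp _ (gen_mem _ _) _⟩

/-- Points of the base fibre in the same orbit of the group generated by the five elements are
joined in `U_S`. -/
theorem joined_of_closure {g : G} (hg : g ∈ Subgroup.closure r.gens) (v : S) :
    Joined (r.pt C₁ (genU 0) v) (r.pt C₁ (genU 0) (g • v)) := by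
  revert v
  refine Subgroup.closure_induction (p := fun g _ => ∀ v : S,
    Joined (r.pt C₁ (genU 0) v) (r.pt C₁ (genU 0) (g • v))) ?_ ?_ ?_ ?_ hg
  · intro g hg v
    have key : ∀ (C C' : Ch) (n : Fin 6) (u : S), Joined (r.pt C₁ (genU 0) u)
        (r.pt C₁ (genU 0) ((r.k C' n * (r.k C n)⁻¹) • u)) := fun C C' n u =>
      r.joined_star _ _ (r.mem_star_self _) (r.mem_star_self _) (r.star_meet C C' n u)
    have hL0 : r.k ⟨0, 0, true, by simp, by simp⟩ 3 = r.T0⁻¹ := rfl
    have hL1 : r.k ⟨1, 1, true, by simp, by simp⟩ 3 = 1 := rfl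
    have hL2 : r.k ⟨2, 2, true, by simp, by simp⟩ 3 = r.T1 := rfl
    have hs0 : r.k ⟨1, 1, false, by simp, by simp⟩ 1 = 1 := rfl
    have hs1 : r.k ⟨1, 1, true, by simp, by simp⟩ 1 = r.c2⁻¹ := rfl
    have hX0 : r.k ⟨1, 0, false, by simp, by simp⟩ 4 = r.c1 := by simp [k, e03, e34]
    have hX1 : r.k ⟨1, 1, false, by simp, by simp⟩ 4 = 1 := by simp [k, e03, e34]
    have hX2 : r.k ⟨1, 2, true, by simp, by simp⟩ 4 = r.c3⁻¹ := by simp [k, e03, e34]
    simp only [gens, mem_insert_iff, mem_singleton_iff] at hg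
    rcases hg with rfl | rfl | rfl | rfl | rfl
    · have := key ⟨1, 1, false, by simp, by simp⟩ ⟨1, 0, false, by simp, by simp⟩ 4 v
      rw [hX0, hX1, inv_one, mul_one] at this
      exact this
    · have := key ⟨1, 1, true, by simp, by simp⟩ ⟨1, 1, false, by simp, by simp⟩ 1 v
      rw [hs0, hs1, inv_inv, one_mul] at this
      exact this
    · have := key ⟨1, 2, true, by simp, by simp⟩ ⟨1, 1, false, by simp, by simp⟩ 4 v
      rw [hX1, hX2, inv_inv, one_mul] at this
      exact this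
    · have := key ⟨0, 0, true, by simp, by simp⟩ ⟨1, 1, true, by simp, by simp⟩ 3 v
      rw [hL0, hL1, inv_inv, one_mul] at this
      exact this
    · have := key ⟨1, 1, true, by simp, by simp⟩ ⟨2, 2, true, by simp, by simp⟩ 3 v
      rw [hL1, hL2, inv_one, mul_one] at this
      exact this
  · intro v
    rw [one_smul]
  · intro g h _ _ ihg ihh v
    rw [mul_smul]
    exact (ihh v).trans (ihg _)
  · intro g _ ih v
    have := ih (g⁻¹ • v)
    rw [smul_inv_smul] at this
    exact this.symm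

/-- Every point of `U_S` is joined to the base fibre. -/
theorem exists_joined (p : r.Tot S) : ∃ v : S, Joined p (r.pt C₁ (genU 0) v) := by
  obtain ⟨C, hC⟩ := exists_ch (r.pr p).2
  refine ⟨r.crd C p, r.joined_star p _ (v := r.crd C p) (w := r.crd C p)
    (mem_iUnion.2 ⟨C, hC, rfl⟩) (r.mem_star_self _) ?_⟩
  exact ⟨p, mem_iUnion.2 ⟨C, hC, rfl⟩, mem_iUnion.2 ⟨C, hC, rfl⟩⟩

/-- `U_S` is path connected if the five elements generate a group transitive on `S`. -/
theorem pathConnectedSpace_tot [Nonempty S]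
    (h : ∀ s t : S, ∃ g ∈ Subgroup.closure r.gens, g • s = t) : PathConnectedSpace (r.Tot S) := by
  refine ⟨⟨r.pt C₁ (genU 0) (Classical.arbitrary S)⟩, fun p q => ?_⟩
  obtain ⟨v, hv⟩ := r.exists_joined p
  obtain ⟨w, hw⟩ := r.exists_joined q
  obtain ⟨g, hg, rfl⟩ := h v w
  exact hv.trans ((r.joined_of_closure hg v).trans hw.symm)

end Arr

end Vale.Agent.P300.TOR
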