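import Vale.Agent.P300.TOR.Data

/-!
P300, block NODE: the 32 loops, and the value of `Spec.NodeSpec`.
-/

set_option linter.all false

open Set Topology Filter Complex

namespace Vale.Agent.P300.TOR

open Spec (kapE cham)

variable {G : Type} [Group G] (r : Arr G)

theorem turnU_of {ν : Fin 16} {a : G} (ℓ : Loop) (h : ℓ.Ok) (hC : cham ν = ℓ.C)
    (hx : ∀ t : ℂ, kapE ν (t, ((1 / 4 : ℝ) : ℂ)) = (ℓ.x t, ℓ.l t)) (hw : Loop.word r ℓ = a) :
    TurnU r ν a := by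
  intro S _ _ _ f hf hp
  have := Loop.turn r h hf (fun θ => by rw [hp, hx])
  rw [hC, this, hw]

theorem turnV_of {ν : Fin 16} {b : G} (ℓ : Loop) (h : ℓ.Ok) (hC : cham ν = ℓ.C)
    (hx : ∀ t : ℂ, kapE ν (((1 / 4 : ℝ) : ℂ), t) = (ℓ.x t, ℓ.l t)) (hw : Loop.word r ℓ = b) :
    TurnV r ν b := by
  intro S _ _ _ f hf hp
  have := Loop.turn r h hf (fun θ => by rw [hp, hx])
  rw [hC, this, hw]



/-- the loop around `u = 0` of the chart 0 -/
noncomputable def lu0 : Loop :=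
  ⟨(-1 / 4), 1, 0, (3 / 4), 1, 0, 0, 1,
    ⟨1, 2, true, by decide, by decide⟩, ⟨0, 2, true, by decide, by decide⟩, 2, 3⟩

/-- the loop around `u = 0` of the chart 1 -/
noncomputable def lu1 : Loop :=
  ⟨0, 1, 0, (1 / 4), 1, 0, 0, 1,
    ⟨1, 2, true, by decide, by decide⟩, ⟨0, 2, true, by decide, by decide⟩, 2, 4⟩

/-- the loop around `u = 0` of the chart 2 -/
noncomputable def lu2 : Loop :=
  ⟨0, 1, 0, (1 / 4), (-1), 1, (-1 / 4), 1,
    ⟨1, 2, true, by decide, by decide⟩, ⟨2, 2, true, by decide, by decide⟩, 4, 2⟩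

/-- the loop around `u = 0` of the chart 3 -/
noncomputable def lu3 : Loop :=
  ⟨(-1 / 4), 1, 0, (3 / 4), (-1 / 4), 1, 0, 1,
    ⟨1, 2, true, by decide, by decide⟩, ⟨2, 2, true, by decide, by decide⟩, 5, 0⟩

/-- the loop around `u = 0` of the chart 4 -/
noncomputable def lu4 : Loop :=
  ⟨0, 1, (-1 / 4), 1, 0, (3 / 4), (-1 / 4), 1,
    ⟨1, 2, true, by decide, by decide⟩, ⟨1, 1, true, by decide, by decide⟩, 0, 5⟩

/-- the loop around `u = 0` of the chart 5 -/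
noncomputable def lu5 : Loop :=
  ⟨0, (1 / 4), 0, 1, (1 / 4), 0, 0, 1,
    ⟨1, 1, true, by decide, by decide⟩, ⟨0, 1, true, by decide, by decide⟩, 2, 4⟩

/-- the loop around `u = 0` of the chart 6 -/
noncomputable def lu6 : Loop :=
  ⟨0, (1 / 4), 0, 1, (-1 / 4), (1 / 4), (-1 / 4), 1,
    ⟨1, 1, true, by decide, by decide⟩, ⟨1, 1, false, by decide, by decide⟩, 4, 2⟩

/-- the loop around `u = 0` of the chart 7 -/
noncomputable def lu7 : Loop :=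
  ⟨0, (3 / 4), (-1 / 4), 1, 0, (3 / 4), 0, 1,
    ⟨1, 1, true, by decide, by decide⟩, ⟨1, 1, false, by decide, by decide⟩, 3, 5⟩

/-- the loop around `u = 0` of the chart 8 -/
noncomputable def lu8 : Loop :=
  ⟨(3 / 4), 0, (-1 / 4), 1, 0, (3 / 4), (-1 / 4), 1,
    ⟨1, 1, false, by decide, by decide⟩, ⟨1, 0, false, by decide, by decide⟩, 0, 5⟩

/-- the loop around `u = 0` of the chart 9 -/
noncomputable def lu9 : Loop :=
  ⟨(1 / 4), 0, 0, 1, 0, (1 / 4), 0, 1,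
    ⟨1, 1, false, by decide, by decide⟩, ⟨1, 0, false, by decide, by decide⟩, 3, 5⟩

/-- the loop around `u = 0` of the chart 10 -/
noncomputable def lu10 : Loop :=
  ⟨(-1 / 4), 1, (-1 / 4), (1 / 4), 0, 1, 0, (1 / 4),
    ⟨2, 2, true, by decide, by decide⟩, ⟨2, 2, false, by decide, by decide⟩, 3, 2⟩

/-- the loop around `u = 0` of the chart 11 -/
noncomputable def lu11 : Loop :=
  ⟨0, 1, (1 / 4), 0, 0, 1, 0, (1 / 4),
    ⟨2, 2, true, by decide, by decide⟩, ⟨2, 0, false, by decide, by decide⟩, 2, 3⟩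

/-- the loop around `u = 0` of the chart 12 -/
noncomputable def lu12 : Loop :=
  ⟨0, 1, 0, (1 / 4), 0, 1, (1 / 4), 0,
    ⟨2, 2, false, by decide, by decide⟩, ⟨0, 2, true, by decide, by decide⟩, 4, 2⟩

/-- the loop around `u = 0` of the chart 13 -/
noncomputable def lu13 : Loop :=
  ⟨(-1 / 4), 1, (-1), 1, (-1 / 4), 1, (-1 / 4), (1 / 4),
    ⟨2, 2, false, by decide, by decide⟩, ⟨2, 1, false, by decide, by decide⟩, 1, 4⟩

/-- the loop around `u = 0` of the chart 14 -/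
noncomputable def lu14 : Loop :=
  ⟨1, 0, 0, 1, 0, 1, 0, (1 / 4),
    ⟨2, 1, false, by decide, by decide⟩, ⟨2, 0, false, by decide, by decide⟩, 3, 2⟩

/-- the loop around `u = 0` of the chart 15 -/
noncomputable def lu15 : Loop :=
  ⟨0, (3 / 4), (-1 / 4), 1, (3 / 4), 0, (-1 / 4), 1,
    ⟨1, 1, true, by decide, by decide⟩, ⟨0, 1, true, by decide, by decide⟩, 1, 4⟩

/-- the loop around `v = 0` of the chart 0 -/
noncomputable def lv0 : Loop :=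
  ⟨(-1 / 4), 1, (-1), 1, 0, (1 / 4), 0, 1,
    ⟨1, 2, true, by decide, by decide⟩, ⟨1, 1, true, by decide, by decide⟩, 3, 5⟩

/-- the loop around `v = 0` of the chart 1 -/
noncomputable def lv1 : Loop :=
  ⟨0, 1, 1, 0, 0, (1 / 4), 0, 1,
    ⟨1, 2, true, by decide, by decide⟩, ⟨1, 0, false, by decide, by decide⟩, 5, 3⟩

/-- the loop around `v = 0` of the chart 2 -/
noncomputable def lv2 : Loop :=
  ⟨0, 1, 1, 0, 0, (3 / 4), (-1 / 4), 1,
    ⟨1, 2, true, by decide, by decide⟩, ⟨1, 0, false, by decide, by decide⟩, 2, 3⟩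

/-- the loop around `v = 0` of the chart 3 -/
noncomputable def lv3 : Loop :=
  ⟨(-1 / 4), 1, (-1), 1, (-1 / 4), 1, 0, 1,
    ⟨1, 2, true, by decide, by decide⟩, ⟨2, 1, false, by decide, by decide⟩, 3, 2⟩

/-- the loop around `v = 0` of the chart 4 -/
noncomputable def lv4 : Loop :=
  ⟨0, 1, (-1 / 4), 1, (-1), 1, (-1 / 4), 1,
    ⟨1, 2, true, by decide, by decide⟩, ⟨2, 1, false, by decide, by decide⟩, 3, 2⟩

/-- the loop around `v = 0` of the chart 5 -/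
noncomputable def lv5 : Loop :=
  ⟨1, 0, 0, 1, (1 / 4), 0, 0, 1,
    ⟨1, 1, true, by decide, by decide⟩, ⟨0, 0, false, by decide, by decide⟩, 0, 5⟩

/-- the loop around `v = 0` of the chart 6 -/
noncomputable def lv6 : Loop :=
  ⟨1, 0, 0, 1, (3 / 4), 0, (-1 / 4), 1,
    ⟨1, 1, true, by decide, by decide⟩, ⟨0, 0, false, by decide, by decide⟩, 0, 5⟩

/-- the loop around `v = 0` of the chart 7 -/
noncomputable def lv7 : Loop :=
  ⟨(-1), 1, (-1 / 4), 1, (-1), 1, 0, 1,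
    ⟨1, 1, true, by decide, by decide⟩, ⟨2, 2, false, by decide, by decide⟩, 4, 1⟩

/-- the loop around `v = 0` of the chart 8 -/
noncomputable def lv8 : Loop :=
  ⟨(-1 / 4), (1 / 4), (-1 / 4), 1, (-1), 1, (-1 / 4), 1,
    ⟨1, 1, false, by decide, by decide⟩, ⟨2, 1, false, by decide, by decide⟩, 4, 1⟩

/-- the loop around `v = 0` of the chart 9 -/
noncomputable def lv9 : Loop :=
  ⟨(1 / 4), 0, 0, 1, 1, 0, 0, 1,
    ⟨1, 1, false, by decide, by decide⟩, ⟨0, 0, true, by decide, by decide⟩, 1, 4⟩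

/-- the loop around `v = 0` of the chart 10 -/
noncomputable def lv10 : Loop :=
  ⟨(-1 / 4), 1, (3 / 4), 0, 0, 1, 1, 0,
    ⟨2, 2, true, by decide, by decide⟩, ⟨0, 0, false, by decide, by decide⟩, 5, 0⟩

/-- the loop around `v = 0` of the chart 11 -/
noncomputable def lv11 : Loop :=
  ⟨0, 1, (1 / 4), 0, 0, 1, 1, 0,
    ⟨2, 2, true, by decide, by decide⟩, ⟨0, 0, false, by decide, by decide⟩, 5, 0⟩

/-- the loop around `v = 0` of the chart 12 -/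
noncomputable def lv12 : Loop :=
  ⟨0, 1, 1, 0, 0, 1, (1 / 4), 0,
    ⟨2, 2, false, by decide, by decide⟩, ⟨0, 0, true, by decide, by decide⟩, 4, 1⟩

/-- the loop around `v = 0` of the chart 13 -/
noncomputable def lv13 : Loop :=
  ⟨(-1 / 4), 1, 0, (3 / 4), (-1 / 4), 1, (3 / 4), 0,
    ⟨2, 2, false, by decide, by decide⟩, ⟨0, 2, true, by decide, by decide⟩, 4, 1⟩

/-- the loop around `v = 0` of the chart 14 -/
noncomputable def lv14 : Loop :=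
  ⟨0, (1 / 4), 0, 1, 0, 1, 1, 0,
    ⟨2, 1, false, by decide, by decide⟩, ⟨0, 1, true, by decide, by decide⟩, 4, 2⟩

/-- the loop around `v = 0` of the chart 15 -/
noncomputable def lv15 : Loop :=
  ⟨(-1), 1, (-1 / 4), 1, (-1 / 4), (1 / 4), (-1 / 4), 1,
    ⟨1, 1, true, by decide, by decide⟩, ⟨1, 2, true, by decide, by decide⟩, 5, 0⟩


theorem oku0 : lu0.Ok := by
  constructor <;> norm_num [lu0, Loop.D, Loop.D', Loop.E1, Loop.E2, Loop.xr, Loop.lr, Loop.coneS,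
    pc, sd]

theorem okv0 : lv0.Ok := by
  constructor <;> norm_num [lv0, Loop.D, Loop.D', Loop.E1, Loop.E2, Loop.xr, Loop.lr, Loop.coneS,
    pc, sd]

theorem oku1 : lu1.Ok := by
  constructor <;> norm_num [lu1, Loop.D, Loop.D', Loop.E1, Loop.E2, Loop.xr, Loop.lr, Loop.coneS,
    pc, sd]

theorem okv1 : lv1.Ok := by
  constructor <;> norm_num [lv1, Loop.D, Loop.D', Loop.E1, Loop.E2, Loop.xr, Loop.lr, Loop.coneS,
    pc, sd]

theorem oku2 : lu2.Ok := by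
  constructor <;> norm_num [lu2, Loop.D, Loop.D', Loop.E1, Loop.E2, Loop.xr, Loop.lr, Loop.coneS,
    pc, sd]

theorem okv2 : lv2.Ok := by
  constructor <;> norm_num [lv2, Loop.D, Loop.D', Loop.E1, Loop.E2, Loop.xr, Loop.lr, Loop.coneS,
    pc, sd]

theorem oku3 : lu3.Ok := by
  constructor <;> norm_num [lu3, Loop.D, Loop.D', Loop.E1, Loop.E2, Loop.xr, Loop.lr, Loop.coneS,
    pc, sd]

theorem okv3 : lv3.Ok := by
  constructor <;> norm_num [lv3, Loop.D, Loop.D', Loop.E1, Loop.E2, Loop.xr, Loop.lr, Loop.coneS,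
    pc, sd]

theorem oku4 : lu4.Ok := by
  constructor <;> norm_num [lu4, Loop.D, Loop.D', Loop.E1, Loop.E2, Loop.xr, Loop.lr, Loop.coneS,
    pc, sd]

theorem okv4 : lv4.Ok := by
  constructor <;> norm_num [lv4, Loop.D, Loop.D', Loop.E1, Loop.E2, Loop.xr, Loop.lr, Loop.coneS,
    pc, sd]

theorem oku5 : lu5.Ok := by
  constructor <;> norm_num [lu5, Loop.D, Loop.D', Loop.E1, Loop.E2, Loop.xr, Loop.lr, Loop.coneS,
    pc, sd]

theorem okv5 : lv5.Ok := by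
  constructor <;> norm_num [lv5, Loop.D, Loop.D', Loop.E1, Loop.E2, Loop.xr, Loop.lr, Loop.coneS,
    pc, sd]

theorem oku6 : lu6.Ok := by
  constructor <;> norm_num [lu6, Loop.D, Loop.D', Loop.E1, Loop.E2, Loop.xr, Loop.lr, Loop.coneS,
    pc, sd]

theorem okv6 : lv6.Ok := by
  constructor <;> norm_num [lv6, Loop.D, Loop.D', Loop.E1, Loop.E2, Loop.xr, Loop.lr, Loop.coneS,
    pc, sd]

theorem oku7 : lu7.Ok := by
  constructor <;> norm_num [lu7, Loop.D, Loop.D', Loop.E1, Loop.E2, Loop.xr, Loop.lr, Loop.coneS,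
    pc, sd]

theorem okv7 : lv7.Ok := by
  constructor <;> norm_num [lv7, Loop.D, Loop.D', Loop.E1, Loop.E2, Loop.xr, Loop.lr, Loop.coneS,
    pc, sd]

theorem oku8 : lu8.Ok := by
  constructor <;> norm_num [lu8, Loop.D, Loop.D', Loop.E1, Loop.E2, Loop.xr, Loop.lr, Loop.coneS,
    pc, sd]

theorem okv8 : lv8.Ok := by
  constructor <;> norm_num [lv8, Loop.D, Loop.D', Loop.E1, Loop.E2, Loop.xr, Loop.lr, Loop.coneS,
    pc, sd]

theorem oku9 : lu9.Ok := by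
  constructor <;> norm_num [lu9, Loop.D, Loop.D', Loop.E1, Loop.E2, Loop.xr, Loop.lr, Loop.coneS,
    pc, sd]

theorem okv9 : lv9.Ok := by
  constructor <;> norm_num [lv9, Loop.D, Loop.D', Loop.E1, Loop.E2, Loop.xr, Loop.lr, Loop.coneS,
    pc, sd]

theorem oku10 : lu10.Ok := by
  constructor <;> norm_num [lu10, Loop.D, Loop.D', Loop.E1, Loop.E2, Loop.xr, Loop.lr, Loop.coneS,
    pc, sd]

theorem okv10 : lv10.Ok := by
  constructor <;> norm_num [lv10, Loop.D, Loop.D', Loop.E1, Loop.E2, Loop.xr, Loop.lr, Loop.coneS,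
    pc, sd]

theorem oku11 : lu11.Ok := by
  constructor <;> norm_num [lu11, Loop.D, Loop.D', Loop.E1, Loop.E2, Loop.xr, Loop.lr, Loop.coneS,
    pc, sd]

theorem okv11 : lv11.Ok := by
  constructor <;> norm_num [lv11, Loop.D, Loop.D', Loop.E1, Loop.E2, Loop.xr, Loop.lr, Loop.coneS,
    pc, sd]

theorem oku12 : lu12.Ok := by
  constructor <;> norm_num [lu12, Loop.D, Loop.D', Loop.E1, Loop.E2, Loop.xr, Loop.lr, Loop.coneS,
    pc, sd]

theorem okv12 : lv12.Ok := by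
  constructor <;> norm_num [lv12, Loop.D, Loop.D', Loop.E1, Loop.E2, Loop.xr, Loop.lr, Loop.coneS,
    pc, sd]

theorem oku13 : lu13.Ok := by
  constructor <;> norm_num [lu13, Loop.D, Loop.D', Loop.E1, Loop.E2, Loop.xr, Loop.lr, Loop.coneS,
    pc, sd]

theorem okv13 : lv13.Ok := by
  constructor <;> norm_num [lv13, Loop.D, Loop.D', Loop.E1, Loop.E2, Loop.xr, Loop.lr, Loop.coneS,
    pc, sd]

theorem oku14 : lu14.Ok := by
  constructor <;> norm_num [lu14, Loop.D, Loop.D', Loop.E1, Loop.E2, Loop.xr, Loop.lr, Loop.coneS,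
    pc, sd]

theorem okv14 : lv14.Ok := by
  constructor <;> norm_num [lv14, Loop.D, Loop.D', Loop.E1, Loop.E2, Loop.xr, Loop.lr, Loop.coneS,
    pc, sd]

theorem oku15 : lu15.Ok := by
  constructor <;> norm_num [lu15, Loop.D, Loop.D', Loop.E1, Loop.E2, Loop.xr, Loop.lr, Loop.coneS,
    pc, sd]

theorem okv15 : lv15.Ok := by
  constructor <;> norm_num [lv15, Loop.D, Loop.D', Loop.E1, Loop.E2, Loop.xr, Loop.lr, Loop.coneS,
    pc, sd]

theorem xu0 : ∀ t : ℂ, kapE 0 (t, ((1 / 4 : ℝ) : ℂ)) = (lu0.x t, lu0.l t) := by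
  intro t
  refine Prod.ext ?_ ?_ <;>
  norm_num [kapE, H142.kap, H142.kapX, lu0, Loop.x, Loop.l, mob] <;> ring_nf

theorem xv0 : ∀ t : ℂ, kapE 0 (((1 / 4 : ℝ) : ℂ), t) = (lv0.x t, lv0.l t) := by
  intro t
  refine Prod.ext ?_ ?_ <;>
  norm_num [kapE, H142.kap, H142.kapX, lv0, Loop.x, Loop.l, mob] <;> ring_nf

theorem xu1 : ∀ t : ℂ, kapE 1 (t, ((1 / 4 : ℝ) : ℂ)) = (lu1.x t, lu1.l t) := by
  intro t
  refine Prod.ext ?_ ?_ <;>
  norm_num [kapE, H142.kap, H142.kapX, lu1, Loop.x, Loop.l, mob] <;> ring_nf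

theorem xv1 : ∀ t : ℂ, kapE 1 (((1 / 4 : ℝ) : ℂ), t) = (lv1.x t, lv1.l t) := by
  intro t
  refine Prod.ext ?_ ?_ <;>
  norm_num [kapE, H142.kap, H142.kapX, lv1, Loop.x, Loop.l, mob] <;> ring_nf

theorem xu2 : ∀ t : ℂ, kapE 2 (t, ((1 / 4 : ℝ) : ℂ)) = (lu2.x t, lu2.l t) := by
  intro t
  refine Prod.ext ?_ ?_ <;>
  norm_num [kapE, H142.kap, H142.kapX, lu2, Loop.x, Loop.l, mob] <;> ring_nf

theorem xv2 : ∀ t : ℂ, kapE 2 (((1 / 4 : ℝ) : ℂ), t) = (lv2.x t, lv2.l t) := by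
  intro t
  refine Prod.ext ?_ ?_ <;>
  norm_num [kapE, H142.kap, H142.kapX, lv2, Loop.x, Loop.l, mob] <;> ring_nf

theorem xu3 : ∀ t : ℂ, kapE 3 (t, ((1 / 4 : ℝ) : ℂ)) = (lu3.x t, lu3.l t) := by
  intro t
  refine Prod.ext ?_ ?_ <;>
  norm_num [kapE, H142.kap, H142.kapX, lu3, Loop.x, Loop.l, mob] <;> ring_nf

theorem xv3 : ∀ t : ℂ, kapE 3 (((1 / 4 : ℝ) : ℂ), t) = (lv3.x t, lv3.l t) := by
  intro t
  refine Prod.ext ?_ ?_ <;>
  norm_num [kapE, H142.kap, H142.kapX, lv3, Loop.x, Loop.l, mob] <;> ring_nf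

theorem xu4 : ∀ t : ℂ, kapE 4 (t, ((1 / 4 : ℝ) : ℂ)) = (lu4.x t, lu4.l t) := by
  intro t
  refine Prod.ext ?_ ?_ <;>
  norm_num [kapE, H142.kap, H142.kapX, lu4, Loop.x, Loop.l, mob] <;> ring_nf

theorem xv4 : ∀ t : ℂ, kapE 4 (((1 / 4 : ℝ) : ℂ), t) = (lv4.x t, lv4.l t) := by
  intro t
  refine Prod.ext ?_ ?_ <;>
  norm_num [kapE, H142.kap, H142.kapX, lv4, Loop.x, Loop.l, mob] <;> ring_nf

theorem xu5 : ∀ t : ℂ, kapE 5 (t, ((1 / 4 : ℝ) : ℂ)) = (lu5.x t, lu5.l t) := by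
  intro t
  refine Prod.ext ?_ ?_ <;>
  norm_num [kapE, H142.kap, H142.kapX, lu5, Loop.x, Loop.l, mob] <;> ring_nf

theorem xv5 : ∀ t : ℂ, kapE 5 (((1 / 4 : ℝ) : ℂ), t) = (lv5.x t, lv5.l t) := by
  intro t
  refine Prod.ext ?_ ?_ <;>
  norm_num [kapE, H142.kap, H142.kapX, lv5, Loop.x, Loop.l, mob] <;> ring_nf

theorem xu6 : ∀ t : ℂ, kapE 6 (t, ((1 / 4 : ℝ) : ℂ)) = (lu6.x t, lu6.l t) := by
  intro t
  refine Prod.ext ?_ ?_ <;>
  norm_num [kapE, H142.kap, H142.kapX, lu6, Loop.x, Loop.l, mob] <;> ring_nf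

theorem xv6 : ∀ t : ℂ, kapE 6 (((1 / 4 : ℝ) : ℂ), t) = (lv6.x t, lv6.l t) := by
  intro t
  refine Prod.ext ?_ ?_ <;>
  norm_num [kapE, H142.kap, H142.kapX, lv6, Loop.x, Loop.l, mob] <;> ring_nf

theorem xu7 : ∀ t : ℂ, kapE 7 (t, ((1 / 4 : ℝ) : ℂ)) = (lu7.x t, lu7.l t) := by
  intro t
  refine Prod.ext ?_ ?_ <;>
  norm_num [kapE, H142.kap, H142.kapX, lu7, Loop.x, Loop.l, mob] <;> ring_nf

theorem xv7 : ∀ t : ℂ, kapE 7 (((1 / 4 : ℝ) : ℂ), t) = (lv7.x t, lv7.l t) := by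
  intro t
  refine Prod.ext ?_ ?_ <;>
  norm_num [kapE, H142.kap, H142.kapX, lv7, Loop.x, Loop.l, mob] <;> ring_nf

theorem xu8 : ∀ t : ℂ, kapE 8 (t, ((1 / 4 : ℝ) : ℂ)) = (lu8.x t, lu8.l t) := by
  intro t
  refine Prod.ext ?_ ?_ <;>
  norm_num [kapE, H142.kap, H142.kapX, lu8, Loop.x, Loop.l, mob] <;> ring_nf

theorem xv8 : ∀ t : ℂ, kapE 8 (((1 / 4 : ℝ) : ℂ), t) = (lv8.x t, lv8.l t) := by
  intro t
  refine Prod.ext ?_ ?_ <;>
  norm_num [kapE, H142.kap, H142.kapX, lv8, Loop.x, Loop.l, mob] <;> ring_nf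

theorem xu9 : ∀ t : ℂ, kapE 9 (t, ((1 / 4 : ℝ) : ℂ)) = (lu9.x t, lu9.l t) := by
  intro t
  refine Prod.ext ?_ ?_ <;>
  norm_num [kapE, H142.kap, H142.kapX, lu9, Loop.x, Loop.l, mob] <;> ring_nf

theorem xv9 : ∀ t : ℂ, kapE 9 (((1 / 4 : ℝ) : ℂ), t) = (lv9.x t, lv9.l t) := by
  intro t
  refine Prod.ext ?_ ?_ <;>
  norm_num [kapE, H142.kap, H142.kapX, lv9, Loop.x, Loop.l, mob] <;> ring_nf

theorem xu10 : ∀ t : ℂ, kapE 10 (t, ((1 / 4 : ℝ) : ℂ)) = (lu10.x t, lu10.l t) := by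
  intro t
  refine Prod.ext ?_ ?_ <;>
  norm_num [kapE, H142.kap, H142.kapX, lu10, Loop.x, Loop.l, mob] <;> ring_nf

theorem xv10 : ∀ t : ℂ, kapE 10 (((1 / 4 : ℝ) : ℂ), t) = (lv10.x t, lv10.l t) := by
  intro t
  refine Prod.ext ?_ ?_ <;>
  norm_num [kapE, H142.kap, H142.kapX, lv10, Loop.x, Loop.l, mob] <;> ring_nf

theorem xu11 : ∀ t : ℂ, kapE 11 (t, ((1 / 4 : ℝ) : ℂ)) = (lu11.x t, lu11.l t) := by
  intro t
  refine Prod.ext ?_ ?_ <;>
  norm_num [kapE, H142.kap, H142.kapX, lu11, Loop.x, Loop.l, mob] <;> ring_nf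

theorem xv11 : ∀ t : ℂ, kapE 11 (((1 / 4 : ℝ) : ℂ), t) = (lv11.x t, lv11.l t) := by
  intro t
  refine Prod.ext ?_ ?_ <;>
  norm_num [kapE, H142.kap, H142.kapX, lv11, Loop.x, Loop.l, mob] <;> ring_nf

theorem xu12 : ∀ t : ℂ, kapE 12 (t, ((1 / 4 : ℝ) : ℂ)) = (lu12.x t, lu12.l t) := by
  intro t
  refine Prod.ext ?_ ?_ <;>
  norm_num [kapE, H142.kap, H142.kapX, lu12, Loop.x, Loop.l, mob] <;> ring_nf

theorem xv12 : ∀ t : ℂ, kapE 12 (((1 / 4 : ℝ) : ℂ), t) = (lv12.x t, lv12.l t) := by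
  intro t
  refine Prod.ext ?_ ?_ <;>
  norm_num [kapE, H142.kap, H142.kapX, lv12, Loop.x, Loop.l, mob] <;> ring_nf

theorem xu13 : ∀ t : ℂ, kapE 13 (t, ((1 / 4 : ℝ) : ℂ)) = (lu13.x t, lu13.l t) := by
  intro t
  refine Prod.ext ?_ ?_ <;>
  norm_num [kapE, H142.kap, H142.kapX, lu13, Loop.x, Loop.l, mob] <;> ring_nf

theorem xv13 : ∀ t : ℂ, kapE 13 (((1 / 4 : ℝ) : ℂ), t) = (lv13.x t, lv13.l t) := by
  intro t
  refine Prod.ext ?_ ?_ <;>
  norm_num [kapE, H142.kap, H142.kapX, lv13, Loop.x, Loop.l, mob] <;> ring_nf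

theorem xu14 : ∀ t : ℂ, kapE 14 (t, ((1 / 4 : ℝ) : ℂ)) = (lu14.x t, lu14.l t) := by
  intro t
  refine Prod.ext ?_ ?_ <;>
  norm_num [kapE, H142.kap, H142.kapX, lu14, Loop.x, Loop.l, mob] <;> ring_nf

theorem xv14 : ∀ t : ℂ, kapE 14 (((1 / 4 : ℝ) : ℂ), t) = (lv14.x t, lv14.l t) := by
  intro t
  refine Prod.ext ?_ ?_ <;>
  norm_num [kapE, H142.kap, H142.kapX, lv14, Loop.x, Loop.l, mob] <;> ring_nf

theorem xu15 : ∀ t : ℂ, kapE 15 (t, ((1 / 4 : ℝ) : ℂ)) = (lu15.x t, lu15.l t) := by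
  intro t
  refine Prod.ext ?_ ?_ <;>
  norm_num [kapE, H142.kap, H142.kapX, lu15, Loop.x, Loop.l, mob] <;> ring_nf

theorem xv15 : ∀ t : ℂ, kapE 15 (((1 / 4 : ℝ) : ℂ), t) = (lv15.x t, lv15.l t) := by
  intro t
  refine Prod.ext ?_ ?_ <;>
  norm_num [kapE, H142.kap, H142.kapX, lv15, Loop.x, Loop.l, mob] <;> ring_nf


theorem rel7 : r.c2⁻¹ * r.T1 * r.c3⁻¹ = r.c3⁻¹ * r.c2⁻¹ * r.T1 := by
  calc r.c2⁻¹ * r.T1 * r.c3⁻¹ = r.c3⁻¹ * r.c2⁻¹ * (r.c2 * r.c3 * r.c2⁻¹ * r.T1) * r.c3⁻¹ := by group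
    _ = r.c3⁻¹ * r.c2⁻¹ * r.T1 := by rw [← r.T1_c3]; group

theorem rel9 : r.c1⁻¹ * r.T0 * r.c2⁻¹ = r.c2⁻¹ * r.c1⁻¹ * r.T0 := by
  calc r.c1⁻¹ * r.T0 * r.c2⁻¹ = r.c1⁻¹ * (r.T0 * (r.c2⁻¹ * r.c1 * r.c2)) * r.c2⁻¹ * r.c1⁻¹ := by
        group
    _ = (r.c1 * r.c2)⁻¹ * (r.c1 * r.c2 * r.T0) * (r.c1 * r.c2)⁻¹ := by rw [r.T0_c1']; group
    _ = r.c2⁻¹ * r.c1⁻¹ * r.T0 := by rw [← r.d_comm]; group

theorem rel10 : r.T0⁻¹ * (r.c1 * r.c2 * r.c3) = r.c1 * r.c2 * r.c3 * r.T0⁻¹ := by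
  have h : r.T0 * (r.c1 * r.c2 * r.c3) = r.c1 * r.c2 * r.c3 * r.T0 := by
    calc r.T0 * (r.c1 * r.c2 * r.c3) = r.T0 * (r.c1 * r.c2) * r.c3 := by group
      _ = r.c1 * r.c2 * (r.T0 * r.c3) := by rw [r.d_comm]; group
      _ = _ := by rw [r.h03]; group
  calc r.T0⁻¹ * (r.c1 * r.c2 * r.c3) = r.T0⁻¹ * (r.c1 * r.c2 * r.c3 * r.T0) * r.T0⁻¹ := by group
    _ = _ := by rw [← h]; group

theorem rel12 : r.c2 * r.T0⁻¹ * r.c1 * r.c3 = r.c1 * r.c2 * r.c3 * r.T0⁻¹ := by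
  calc r.c2 * r.T0⁻¹ * r.c1 * r.c3 = r.c2 * r.T0⁻¹ * (r.c1 * r.T0) * r.T0⁻¹ * r.c3 := by group
    _ = r.c1 * r.c2 * r.T0⁻¹ * (r.c3 * r.T0) * r.T0⁻¹ := by rw [← r.T0_c1']; group
    _ = _ := by rw [← r.h03]; group

theorem rel13 : r.T1 * r.c3⁻¹ * r.T1⁻¹ = r.c2 * r.c3⁻¹ * r.c2⁻¹ := by
  calc r.T1 * r.c3⁻¹ * r.T1⁻¹ = (r.T1 * r.c3 * r.T1⁻¹)⁻¹ := by group
    _ = _ := by rw [r.h13]; group

theorem wu0 : Loop.word r lu0 = r.T0 := by
  simp only [Loop.word, lu0, Arr.k, Arr.e01, Arr.e12, Arr.e03, Arr.e34, Arr.e45, if_true,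
    if_false, Bool.false_eq_true, Fin.isValue]
  group

theorem wv0 : Loop.word r lv0 = r.c3⁻¹ := by
  simp only [Loop.word, lv0, Arr.k, Arr.e01, Arr.e12, Arr.e03, Arr.e34, Arr.e45, if_true,
    if_false, Bool.false_eq_true, Fin.isValue]
  group

theorem wu1 : Loop.word r lu1 = r.T0 := by
  simp only [Loop.word, lu1, Arr.k, Arr.e01, Arr.e12, Arr.e03, Arr.e34, Arr.e45, if_true,
    if_false, Bool.false_eq_true, Fin.isValue]
  group

theorem wv1 : Loop.word r lv1 = r.c1 * r.c2 * r.c3 := by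
  simp only [Loop.word, lv1, Arr.k, Arr.e01, Arr.e12, Arr.e03, Arr.e34, Arr.e45, if_true,
    if_false, Bool.false_eq_true, Fin.isValue]
  group

theorem wu2 : Loop.word r lu2 = r.T1 := by
  simp only [Loop.word, lu2, Arr.k, Arr.e01, Arr.e12, Arr.e03, Arr.e34, Arr.e45, if_true,
    if_false, Bool.false_eq_true, Fin.isValue]
  group

theorem wv2 : Loop.word r lv2 = r.c1 * r.c2 * r.c3 := by
  simp only [Loop.word, lv2, Arr.k, Arr.e01, Arr.e12, Arr.e03, Arr.e34, Arr.e45, if_true,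
    if_false, Bool.false_eq_true, Fin.isValue]
  group

theorem wu3 : Loop.word r lu3 = r.T1 := by
  simp only [Loop.word, lu3, Arr.k, Arr.e01, Arr.e12, Arr.e03, Arr.e34, Arr.e45, if_true,
    if_false, Bool.false_eq_true, Fin.isValue]
  group

theorem wv3 : Loop.word r lv3 = r.c3⁻¹ * r.c2⁻¹ * r.T1 := by
  simp only [Loop.word, lv3, Arr.k, Arr.e01, Arr.e12, Arr.e03, Arr.e34, Arr.e45, if_true,
    if_false, Bool.false_eq_true, Fin.isValue]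
  group

theorem wu4 : Loop.word r lu4 = r.c3⁻¹ := by
  simp only [Loop.word, lu4, Arr.k, Arr.e01, Arr.e12, Arr.e03, Arr.e34, Arr.e45, if_true,
    if_false, Bool.false_eq_true, Fin.isValue]
  group

theorem wv4 : Loop.word r lv4 = r.c3⁻¹ * r.c2⁻¹ * r.T1 := by
  simp only [Loop.word, lv4, Arr.k, Arr.e01, Arr.e12, Arr.e03, Arr.e34, Arr.e45, if_true,
    if_false, Bool.false_eq_true, Fin.isValue]
  group

theorem wu5 : Loop.word r lu5 = r.T0 := by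
  simp only [Loop.word, lu5, Arr.k, Arr.e01, Arr.e12, Arr.e03, Arr.e34, Arr.e45, if_true,
    if_false, Bool.false_eq_true, Fin.isValue]
  group

theorem wv5 : Loop.word r lv5 = r.c2⁻¹ * r.c1⁻¹ * r.T0 := by
  simp only [Loop.word, lv5, Arr.k, Arr.e01, Arr.e12, Arr.e03, Arr.e34, Arr.e45, if_true,
    if_false, Bool.false_eq_true, Fin.isValue]
  group

theorem wu6 : Loop.word r lu6 = r.c2⁻¹ := by
  simp only [Loop.word, lu6, Arr.k, Arr.e01, Arr.e12, Arr.e03, Arr.e34, Arr.e45, if_true,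
    if_false, Bool.false_eq_true, Fin.isValue]
  group

theorem wv6 : Loop.word r lv6 = r.c2⁻¹ * r.c1⁻¹ * r.T0 := by
  simp only [Loop.word, lv6, Arr.k, Arr.e01, Arr.e12, Arr.e03, Arr.e34, Arr.e45, if_true,
    if_false, Bool.false_eq_true, Fin.isValue]
  group

theorem wu7 : Loop.word r lu7 = r.c2⁻¹ := by
  simp only [Loop.word, lu7, Arr.k, Arr.e01, Arr.e12, Arr.e03, Arr.e34, Arr.e45, if_true,
    if_false, Bool.false_eq_true, Fin.isValue]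
  group

theorem wv7 : Loop.word r lv7 = r.c3⁻¹ * r.c2⁻¹ * r.T1 := by
  have h : Loop.word r lv7 = r.c2⁻¹ * r.T1 * r.c3⁻¹ := by
    simp only [Loop.word, lv7, Arr.k, Arr.e01, Arr.e12, Arr.e03, Arr.e34, Arr.e45, if_true,
      if_false, Bool.false_eq_true, Fin.isValue]
    group
  exact h.trans (rel7 r)

theorem wu8 : Loop.word r lu8 = r.c1⁻¹ := by
  simp only [Loop.word, lu8, Arr.k, Arr.e01, Arr.e12, Arr.e03, Arr.e34, Arr.e45, if_true,
    if_false, Bool.false_eq_true, Fin.isValue]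
  group

theorem wv8 : Loop.word r lv8 = r.T1 := by
  simp only [Loop.word, lv8, Arr.k, Arr.e01, Arr.e12, Arr.e03, Arr.e34, Arr.e45, if_true,
    if_false, Bool.false_eq_true, Fin.isValue]
  group

theorem wu9 : Loop.word r lu9 = r.c1⁻¹ := by
  simp only [Loop.word, lu9, Arr.k, Arr.e01, Arr.e12, Arr.e03, Arr.e34, Arr.e45, if_true,
    if_false, Bool.false_eq_true, Fin.isValue]
  group

theorem wv9 : Loop.word r lv9 = r.c2⁻¹ * r.c1⁻¹ * r.T0 := by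
  have h : Loop.word r lv9 = r.c1⁻¹ * r.T0 * r.c2⁻¹ := by
    simp only [Loop.word, lv9, Arr.k, Arr.e01, Arr.e12, Arr.e03, Arr.e34, Arr.e45, if_true,
      if_false, Bool.false_eq_true, Fin.isValue]
    group
  exact h.trans (rel9 r)

theorem wu10 : Loop.word r lu10 = r.c2⁻¹ := by
  simp only [Loop.word, lu10, Arr.k, Arr.e01, Arr.e12, Arr.e03, Arr.e34, Arr.e45, if_true,
    if_false, Bool.false_eq_true, Fin.isValue]
  group

theorem wv10 : Loop.word r lv10 = r.c1 * r.c2 * r.c3 * r.T0⁻¹ * r.T1⁻¹ := by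
  have h : Loop.word r lv10 = r.T0⁻¹ * (r.c1 * r.c2 * r.c3) * r.T1⁻¹ := by
    simp only [Loop.word, lv10, Arr.k, Arr.e01, Arr.e12, Arr.e03, Arr.e34, Arr.e45, if_true,
      if_false, Bool.false_eq_true, Fin.isValue]
    group
  exact h.trans (by rw [rel10 r])

theorem wu11 : Loop.word r lu11 = r.c1 * r.c2 * r.c3 := by
  simp only [Loop.word, lu11, Arr.k, Arr.e01, Arr.e12, Arr.e03, Arr.e34, Arr.e45, if_true,
    if_false, Bool.false_eq_true, Fin.isValue]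
  group

theorem wv11 : Loop.word r lv11 = r.c1 * r.c2 * r.c3 * r.T0⁻¹ * r.T1⁻¹ := by
  have h : Loop.word r lv11 = r.T0⁻¹ * (r.c1 * r.c2 * r.c3) * r.T1⁻¹ := by
    simp only [Loop.word, lv11, Arr.k, Arr.e01, Arr.e12, Arr.e03, Arr.e34, Arr.e45, if_true,
      if_false, Bool.false_eq_true, Fin.isValue]
    group
  exact h.trans (by rw [rel10 r])

theorem wu12 : Loop.word r lu12 = r.c2 * r.T0⁻¹ * r.T1⁻¹ := by
  simp only [Loop.word, lu12, Arr.k, Arr.e01, Arr.e12, Arr.e03, Arr.e34, Arr.e45, if_true,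
    if_false, Bool.false_eq_true, Fin.isValue]
  group

theorem wv12 : Loop.word r lv12 = r.c1 * r.c2 * r.c3 * r.T0⁻¹ * r.T1⁻¹ := by
  have h : Loop.word r lv12 = r.c2 * r.T0⁻¹ * r.c1 * r.c3 * r.T1⁻¹ := by
    simp only [Loop.word, lv12, Arr.k, Arr.e01, Arr.e12, Arr.e03, Arr.e34, Arr.e45, if_true,
      if_false, Bool.false_eq_true, Fin.isValue]
    group
  exact h.trans (by rw [rel12 r])

theorem wu13 : Loop.word r lu13 = r.c2 * r.c3⁻¹ * r.c2⁻¹ := by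
  have h : Loop.word r lu13 = r.T1 * r.c3⁻¹ * r.T1⁻¹ := by
    simp only [Loop.word, lu13, Arr.k, Arr.e01, Arr.e12, Arr.e03, Arr.e34, Arr.e45, if_true,
      if_false, Bool.false_eq_true, Fin.isValue]
    group
  exact h.trans (rel13 r)

theorem wv13 : Loop.word r lv13 = r.c2 * r.T0⁻¹ * r.T1⁻¹ := by
  simp only [Loop.word, lv13, Arr.k, Arr.e01, Arr.e12, Arr.e03, Arr.e34, Arr.e45, if_true,
    if_false, Bool.false_eq_true, Fin.isValue]
  group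

theorem wu14 : Loop.word r lu14 = r.c1⁻¹ := by
  simp only [Loop.word, lu14, Arr.k, Arr.e01, Arr.e12, Arr.e03, Arr.e34, Arr.e45, if_true,
    if_false, Bool.false_eq_true, Fin.isValue]
  group

theorem wv14 : Loop.word r lv14 = r.c2 * r.T0⁻¹ * r.T1⁻¹ := by
  simp only [Loop.word, lv14, Arr.k, Arr.e01, Arr.e12, Arr.e03, Arr.e34, Arr.e45, if_true,
    if_false, Bool.false_eq_true, Fin.isValue]
  group

theorem wu15 : Loop.word r lu15 = r.T0 := by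
  simp only [Loop.word, lu15, Arr.k, Arr.e01, Arr.e12, Arr.e03, Arr.e34, Arr.e45, if_true,
    if_false, Bool.false_eq_true, Fin.isValue]
  group

theorem wv15 : Loop.word r lv15 = r.c3⁻¹ := by
  simp only [Loop.word, lv15, Arr.k, Arr.e01, Arr.e12, Arr.e03, Arr.e34, Arr.e45, if_true,
    if_false, Bool.false_eq_true, Fin.isValue]
  group

/-- **All the turns.** -/
theorem turns : Turns r := by
  intro ν
  fin_cases ν
  · exact ⟨turnU_of r lu0 oku0 rfl xu0 (wu0 r), turnV_of r lv0 okv0 rfl xv0 (wv0 r)⟩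
  · exact ⟨turnU_of r lu1 oku1 rfl xu1 (wu1 r), turnV_of r lv1 okv1 rfl xv1 (wv1 r)⟩
  · exact ⟨turnU_of r lu2 oku2 rfl xu2 (wu2 r), turnV_of r lv2 okv2 rfl xv2 (wv2 r)⟩
  · exact ⟨turnU_of r lu3 oku3 rfl xu3 (wu3 r), turnV_of r lv3 okv3 rfl xv3 (wv3 r)⟩
  · exact ⟨turnU_of r lu4 oku4 rfl xu4 (wu4 r), turnV_of r lv4 okv4 rfl xv4 (wv4 r)⟩
  · exact ⟨turnU_of r lu5 oku5 rfl xu5 (wu5 r), turnV_of r lv5 okv5 rfl xv5 (wv5 r)⟩
  · exact ⟨turnU_of r lu6 oku6 rfl xu6 (wu6 r), turnV_of r lv6 okv6 rfl xv6 (wv6 r)⟩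
  · exact ⟨turnU_of r lu7 oku7 rfl xu7 (wu7 r), turnV_of r lv7 okv7 rfl xv7 (wv7 r)⟩
  · exact ⟨turnU_of r lu8 oku8 rfl xu8 (wu8 r), turnV_of r lv8 okv8 rfl xv8 (wv8 r)⟩
  · exact ⟨turnU_of r lu9 oku9 rfl xu9 (wu9 r), turnV_of r lv9 okv9 rfl xv9 (wv9 r)⟩
  · exact ⟨turnU_of r lu10 oku10 rfl xu10 (wu10 r), turnV_of r lv10 okv10 rfl xv10 (wv10 r)⟩
  · exact ⟨turnU_of r lu11 oku11 rfl xu11 (wu11 r), turnV_of r lv11 okv11 rfl xv11 (wv11 r)⟩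
  · exact ⟨turnU_of r lu12 oku12 rfl xu12 (wu12 r), turnV_of r lv12 okv12 rfl xv12 (wv12 r)⟩
  · exact ⟨turnU_of r lu13 oku13 rfl xu13 (wu13 r), turnV_of r lv13 okv13 rfl xv13 (wv13 r)⟩
  · exact ⟨turnU_of r lu14 oku14 rfl xu14 (wu14 r), turnV_of r lv14 okv14 rfl xv14 (wv14 r)⟩
  · exact ⟨turnU_of r lu15 oku15 rfl xu15 (wu15 r), turnV_of r lv15 okv15 rfl xv15 (wv15 r)⟩

/-- **NODE.** -/
theorem nodeSpecAll : Spec.NodeSpec r := nodeSpec r (turns r)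

end Vale.Agent.P300.TOR
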