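import Vale.Agent.P300.H142.Kap
import Vale.Agent.P300.H251.Conj

/-!
P300, block NODE: the interface.  `TorData A` = the coverings of `U = M_{0,5}` of all `G`-sets `F`
(`A` = five elements of `G` with the relations of `Γ ⋊ V`), with the lifts over the sixteen
logarithmic regions; the local monodromies are the words `A.wa ν`, `A.wb ν` of `H251/Conj.lean`.
Value: `torData A : TorData A` in `TOR/Node.lean`.
-/

namespace Vale.Agent.P300.NODE

open Complex

/-- the sixteen charts: the fifteen charts of `H142/Kap.lean` and the extra chart `kapX` -/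
noncomputable def kap (ν : Fin 16) (w : ℂ × ℂ) : ℂ × ℂ :=
  if h : ν.1 < 15 then H142.kap ⟨ν.1, h⟩ w else H142.kapX w

theorem kap_castSucc (ν : Fin 15) (w : ℂ × ℂ) : kap ν.castSucc w = H142.kap ν w := by
  unfold kap
  rw [dif_pos (show (ν.castSucc).1 < 15 from ν.2)]
  rfl

theorem kap_last (w : ℂ × ℂ) : kap 15 w = H142.kapX w := by
  unfold kap
  rw [dif_neg (by decide)]

/-- The coverings of `U` of all `G`-sets. -/
structure TorData {G : Type} [Group G] (A : Tor.Arr G) where
  Tot : (F : Type) → [MulAction G F] → Type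
  top : (F : Type) → [MulAction G F] → TopologicalSpace (Tot F)
  pr : (F : Type) → [MulAction G F] → Tot F → H142.U
  cov : ∀ (F : Type) [MulAction G F], @IsCoveringMap (Tot F) H142.U (top F) _ (pr F)
  surj : ∀ (F : Type) [MulAction G F], Nonempty F → Function.Surjective (pr F)
  t2 : ∀ (F : Type) [MulAction G F], @T2Space (Tot F) (top F)
  lpc : ∀ (F : Type) [MulAction G F], @LocallyPathConnectedSpace (Tot F) (top F)
  sc : ∀ (F : Type) [MulAction G F], Countable F → @SecondCountableTopology (Tot F) (top F)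
  map : {F F' : Type} → [MulAction G F] → [MulAction G F'] → (F →[G] F') → Tot F → Tot F'
  map_cont : ∀ {F F' : Type} [MulAction G F] [MulAction G F'] (f : F →[G] F'),
    @Continuous _ _ (top F) (top F') (map f)
  map_cov : ∀ {F F' : Type} [MulAction G F] [MulAction G F'] (f : F →[G] F'),
    @IsCoveringMap _ _ (top F) (top F') (map f)
  map_pr : ∀ {F F' : Type} [MulAction G F] [MulAction G F'] (f : F →[G] F') (y : Tot F),
    pr F' (map f y) = pr F y
  map_id : ∀ (F : Type) [MulAction G F] (y : Tot F), map (MulActionHom.id G : F →[G] F) y = y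
  map_comp : ∀ {F F' F'' : Type} [MulAction G F] [MulAction G F'] [MulAction G F'']
    (f : F →[G] F') (g : F' →[G] F'') (y : Tot F), map (g.comp f) y = map g (map f y)
  /-- the lift over `Rt` -/
  L : Fin 16 → (F : Type) → [MulAction G F] → ℂ × ℂ → F → Tot F
  L_cont : ∀ (ν : Fin 16) (F : Type) [MulAction G F] (s : F),
    @ContinuousOn _ _ _ (top F) (fun z => L ν F z s) H142.Rt
  L_pr : ∀ (ν : Fin 16) (F : Type) [MulAction G F] (s : F), ∀ z ∈ H142.Rt,
    (pr F (L ν F z s) : ℂ × ℂ) = kap ν (exp z.1, exp z.2)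
  L_inj : ∀ (ν : Fin 16) (F : Type) [MulAction G F] (s s' : F), ∀ z ∈ H142.Rt,
    L ν F z s = L ν F z s' → s = s'
  L_surj : ∀ (ν : Fin 16) (F : Type) [MulAction G F], ∀ z ∈ H142.Rt, ∀ y : Tot F,
    (pr F y : ℂ × ℂ) = kap ν (exp z.1, exp z.2) → ∃ s, L ν F z s = y
  L_u : ∀ (ν : Fin 16) (F : Type) [MulAction G F] (s : F), ∀ z ∈ H142.Rt,
    L ν F (z.1 + 2 * Real.pi * I, z.2) s = L ν F z (A.wa ν • s)
  L_v : ∀ (ν : Fin 16) (F : Type) [MulAction G F] (s : F), ∀ z ∈ H142.Rt,
    L ν F (z.1, z.2 + 2 * Real.pi * I) s = L ν F z (A.wb ν • s)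
  L_map : ∀ (ν : Fin 16) {F F' : Type} [MulAction G F] [MulAction G F'] (f : F →[G] F') (s : F),
    ∀ z ∈ H142.Rt, map f (L ν F z s) = L ν F' z (f s)
  /-- normalisation: the charts see the same sheets over their real quadrants (only charts with the
  same chamber have common values there: `5, 6, 7, 15`; `0, …, 4`; `8, 9`; `10, 11`; `12, 13`) -/
  base : ∀ (ν ν' : Fin 16) (F : Type) [MulAction G F] (s : F)
    (u v u' v' : ℝ), 0 < u → u < 1 → 0 < v → v < 1 → 0 < u' → u' < 1 → 0 < v' → v' < 1 →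
    kap ν (u, v) = kap ν' (u', v') →
    L ν F (Real.log u, Real.log v) s = L ν' F (Real.log u', Real.log v') s
  conn : Subgroup.closure {A.c1, A.c2, A.c3, A.T0, A.T1} = ⊤ →
    ∀ (F : Type) [MulAction G F], MulAction.IsPretransitive G F → Nonempty F →
    @ConnectedSpace (Tot F) (top F)

attribute [instance] TorData.top TorData.t2 TorData.lpc

end Vale.Agent.P300.NODE
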