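import Vale.Agent.P300.TOR.Api

/-!
P300, block TOR: lifts of maps from simply connected spaces to `U_S`, frames, crossing lemma, and
the simply connected region `R~`.
-/

open Set Topology Filter

namespace Vale.Agent.P300.TOR

variable {G : Type*} [Group G] (r : Arr G)

namespace Arr

section frames

variable {S : Type*} [MulAction G S] [TopologicalSpace S] [DiscreteTopology S]

/-- The coordinate of a point of `U_S` in the frame `n`. -/
noncomputable def frm (n : Fin 6) (p : r.Tot S) : S :=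
  (r.k (exists_ch (r.pr p).2).choose n)⁻¹ • r.crd (exists_ch (r.pr p).2).choose p

/-- The frame coordinate can be computed in any chart. -/
theorem frm_eq {n : Fin 6} {p : r.Tot S} {C : Ch} (hC : ((r.pr p : UT) : ℂ × ℂ) ∈ C.A)
    (hn : cone n ((r.pr p : UT) : ℂ × ℂ).1.im ((r.pr p : UT) : ℂ × ℂ).2.im) :
    r.frm n p = (r.k C n)⁻¹ • r.crd C p := by
  have h0 := (exists_ch (r.pr p).2).choose_spec
  rw [r.crd_change h0, r.tr_eq h0 hC hn, ← mul_smul, frm]
  congr 1
  group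

theorem crd_eq_frm {n : Fin 6} {p : r.Tot S} {C : Ch} (hC : ((r.pr p : UT) : ℂ × ℂ) ∈ C.A)
    (hn : cone n ((r.pr p : UT) : ℂ × ℂ).1.im ((r.pr p : UT) : ℂ × ℂ).2.im) :
    r.crd C p = r.k C n • r.frm n p := by
  rw [r.frm_eq hC hn, smul_inv_smul]

/-- Crossing lemma: moving inside the chart `C` from the frame `n` to the frame `m`. -/
theorem frm_cross {T : Type*} [TopologicalSpace T] {f : T → r.Tot S} {D : Set T}
    (hf : ContinuousOn f D) (hD : IsPreconnected D) {C : Ch}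
    (hC : ∀ t ∈ D, ((r.pr (f t) : UT) : ℂ × ℂ) ∈ C.A) {t u : T} (ht : t ∈ D) (hu : u ∈ D)
    {n m : Fin 6} (hn : cone n ((r.pr (f t) : UT) : ℂ × ℂ).1.im ((r.pr (f t) : UT) : ℂ × ℂ).2.im)
    (hm : cone m ((r.pr (f u) : UT) : ℂ × ℂ).1.im ((r.pr (f u) : UT) : ℂ × ℂ).2.im) :
    r.frm m (f u) = ((r.k C m)⁻¹ * r.k C n) • r.frm n (f t) := by
  rw [r.frm_eq (hC u hu) hm, r.frm_eq (hC t ht) hn, r.crd_const hf hD hC hu ht, ← mul_smul,
    mul_assoc, mul_inv_cancel, mul_one]

theorem frm_map {S' : Type*} [MulAction G S'] [TopologicalSpace S'] [DiscreteTopology S']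
    {φ : S → S'} (hφ : ∀ (g : G) (s : S), φ (g • s) = g • φ s) {n : Fin 6} {p : r.Tot S} :
    r.frm n (r.map φ p) = φ (r.frm n p) := by
  unfold frm
  rw [r.crd_map hφ, hφ]
  rfl

/-- A point of `U_S` over `z` with given chart coordinate in the base chart and a chain of charts:
two-chart comparison at a point. -/
theorem crd_change_frame {n : Fin 6} {p : r.Tot S} {C C' : Ch}
    (hC : ((r.pr p : UT) : ℂ × ℂ) ∈ C.A) (hC' : ((r.pr p : UT) : ℂ × ℂ) ∈ C'.A)
    (hn : cone n ((r.pr p : UT) : ℂ × ℂ).1.im ((r.pr p : UT) : ℂ × ℂ).2.im) :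
    r.crd C' p = (r.k C' n * (r.k C n)⁻¹) • r.crd C p := by
  rw [r.crd_change hC, r.tr_eq hC hC' hn]

end frames

section lift

variable {S : Type*} [MulAction G S] [TopologicalSpace S] [DiscreteTopology S]
variable {A : Type*} [TopologicalSpace A] [SimplyConnectedSpace A] [LocallyPathConnectedSpace A]
  (φ : C(A, UT)) (a₀ : A) {C₀ : Ch} (h₀ : ((φ a₀ : UT) : ℂ × ℂ) ∈ C₀.A)

include h₀ in
theorem exists_lift (s : S) : ∃! F : C(A, r.Tot S), F a₀ = r.pt C₀ (φ a₀) s ∧ r.pr ∘ F = φ :=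
  r.isCoveringMap_pr.existsUnique_continuousMap_lifts φ a₀ (r.pt C₀ (φ a₀) s) (r.pr_pt h₀ s)

/-- The lift of `φ` with coordinate `s` in the chart `C₀` at `a₀`. -/
noncomputable def lift (s : S) : C(A, r.Tot S) := (r.exists_lift φ a₀ h₀ s).choose

theorem lift_pr (s : S) (a : A) : r.pr (r.lift φ a₀ h₀ s a) = φ a :=
  congrFun (r.exists_lift φ a₀ h₀ s).choose_spec.1.2 a

theorem lift_base (s : S) : r.crd C₀ (r.lift φ a₀ h₀ s a₀) = s := by
  have : r.lift φ a₀ h₀ s a₀ = r.pt C₀ (φ a₀) s := (r.exists_lift φ a₀ h₀ s).choose_spec.1.1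
  rw [this, r.crd_pt h₀]

/-- Uniqueness of lifts. -/
theorem lift_unique (F : C(A, r.Tot S)) (hF : ∀ a, r.pr (F a) = φ a) :
    F = r.lift φ a₀ h₀ (r.crd C₀ (F a₀)) := by
  refine (r.exists_lift φ a₀ h₀ (r.crd C₀ (F a₀))).choose_spec.2 F ⟨?_, ?_⟩
  · rw [← hF a₀, r.pt_crd (by rw [hF]; exact h₀)]
  · funext a
    exact hF a

omit [LocallyPathConnectedSpace A] in
/-- Two lifts which agree at a point agree. -/
theorem lift_eq_of_eq (F F' : C(A, r.Tot S)) (h : ∀ a, r.pr (F a) = r.pr (F' a)) {a : A}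
    (ha : F a = F' a) : F = F' := by
  have := r.isCoveringMap_pr.eq_of_comp_eq (g₁ := F) (g₂ := F') F.continuous F'.continuous
    (by funext x; exact h x) a ha
  exact ContinuousMap.ext fun x => congrFun this x

theorem lift_injective (a : A) : Function.Injective fun s : S => r.lift φ a₀ h₀ s a := by
  intro s s' h
  have h2 := r.lift_eq_of_eq (r.lift φ a₀ h₀ s) (r.lift φ a₀ h₀ s')
    (fun x => by rw [r.lift_pr, r.lift_pr]) h
  have h3 : r.crd C₀ (r.lift φ a₀ h₀ s a₀) = r.crd C₀ (r.lift φ a₀ h₀ s' a₀) := by rw [h2]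
  rwa [r.lift_base, r.lift_base] at h3

theorem lift_surjective {a : A} {p : r.Tot S} (hp : r.pr p = φ a) :
    ∃ s : S, r.lift φ a₀ h₀ s a = p := by
  obtain ⟨F, ⟨h1, h2⟩, -⟩ := r.isCoveringMap_pr.existsUnique_continuousMap_lifts φ a p hp
  refine ⟨r.crd C₀ (F a₀), ?_⟩
  rw [← r.lift_unique φ a₀ h₀ F (fun a => congrFun h2 a), h1]

/-- Naturality. -/
theorem map_lift {S' : Type*} [MulAction G S'] [TopologicalSpace S'] [DiscreteTopology S']
    {f : S → S'} (hf : ∀ (g : G) (s : S), f (g • s) = g • f s) (s : S) (a : A) :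
    r.map f (r.lift φ a₀ h₀ s a) = r.lift φ a₀ h₀ (f s) a := by
  have h := r.lift_unique (S := S') φ a₀ h₀
    ⟨fun a => r.map f (r.lift φ a₀ h₀ s a), (r.continuous_map hf).comp (map_continuous _)⟩
    (fun a => by
      show r.pr (r.map f (r.lift φ a₀ h₀ s a)) = φ a
      rw [r.pr_map, r.lift_pr])
  have h2 := congrArg (fun F : C(A, r.Tot S') => F a) h
  simp only [ContinuousMap.coe_mk] at h2
  rw [h2, r.crd_map hf, r.lift_base]

/-- Joint continuity. -/
theorem continuous_lift : Continuous fun p : A × S => r.lift φ a₀ h₀ p.2 p.1 :=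
  continuous_prod_of_discrete_right.2 fun s => map_continuous (r.lift φ a₀ h₀ s)

end lift

end Arr

end Vale.Agent.P300.TOR
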