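import Vale.Agent.P300.TOR.Cov

/-!
P300, block TOR: the space `U_S`, chart coordinates, transport, functoriality.
-/

open Set Topology Filter

namespace Vale.Agent.P300.TOR

variable {G : Type*} [Group G] (r : Arr G)

namespace Arr

/-- The total space `U_S`. -/
abbrev Tot (S : Type*) [MulAction G S] [TopologicalSpace S] [DiscreteTopology S] : Type _ :=
  Bundle.TotalSpace S (r.core S).Fiber

section

variable {S : Type*} [MulAction G S] [TopologicalSpace S] [DiscreteTopology S]

/-- The projection `U_S → U`. -/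
def pr (p : r.Tot S) : UT := p.proj

theorem isCoveringMap_pr : IsCoveringMap (r.pr : r.Tot S → UT) :=
  FiberBundle.isCoveringMap (F := S) (E := (r.core S).Fiber)

theorem continuous_pr : Continuous (r.pr : r.Tot S → UT) := r.isCoveringMap_pr.continuous

/-- The chart coordinate over `C.A`. -/
noncomputable def crd (C : Ch) (p : r.Tot S) : S := ((r.core S).localTriv C p).2

/-- The point with chart coordinate `s`. -/
noncomputable def pt (C : Ch) (z : UT) (s : S) : r.Tot S :=
  ((r.core S).localTriv C).toOpenPartialHomeomorph.symm (z, s)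

/-- The fibre component, as an element of `S`. -/
def fib (p : r.Tot S) : S := p.2

theorem crd_eq (C : Ch) (p : r.Tot S) :
    r.crd C p = r.tr ((r.core S).indexAt (r.pr p)) C (r.pr p) • r.fib p := rfl

theorem pr_pt {C : Ch} {z : UT} (_hz : (z : ℂ × ℂ) ∈ C.A) (s : S) : r.pr (r.pt C z s) = z := rfl

theorem crd_pt {C : Ch} {z : UT} (hz : (z : ℂ × ℂ) ∈ C.A) (s : S) : r.crd C (r.pt C z s) = s := by
  have := ((r.core S).localTriv C).apply_symm_apply (x := (z, s))
    (((r.core S).localTriv C).mem_target.2 hz)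
  exact congrArg Prod.snd this

theorem pt_crd {C : Ch} {p : r.Tot S} (hp : ((r.pr p : UT) : ℂ × ℂ) ∈ C.A) :
    r.pt C (r.pr p) (r.crd C p) = p := by
  have := ((r.core S).localTriv C).symm_apply_mk_proj (x := p)
    (((r.core S).localTriv C).mem_source.2 hp)
  exact this

/-- Two points with the same projection and chart coordinate agree. -/
theorem ext_crd {C : Ch} {p q : r.Tot S} (h : r.pr p = r.pr q)
    (hp : ((r.pr p : UT) : ℂ × ℂ) ∈ C.A) (hc : r.crd C p = r.crd C q) : p = q := by
  have h1 := r.pt_crd hp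
  have h2 := r.pt_crd (p := q) (C := C) (h ▸ hp)
  rw [← h1, ← h2, hc, h]

theorem crd_change {C C' : Ch} {p : r.Tot S} (_hp : ((r.pr p : UT) : ℂ × ℂ) ∈ C.A) :
    r.crd C' p = r.tr C C' (r.pr p) • r.crd C p := by
  rw [crd_eq, crd_eq, ← mul_smul, r.tr_comp]

theorem continuousOn_crd (C : Ch) :
    ContinuousOn (r.crd C : r.Tot S → S) {p | ((r.pr p : UT) : ℂ × ℂ) ∈ C.A} := by
  have h := ((r.core S).localTriv C).continuousOn_toFun
  have h2 : ((r.core S).localTriv C).source = {p : r.Tot S | ((r.pr p : UT) : ℂ × ℂ) ∈ C.A} := by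
    ext p
    exact ((r.core S).localTriv C).mem_source
  rw [← h2]
  exact continuous_snd.comp_continuousOn h

theorem continuousOn_pt (C : Ch) (s : S) :
    ContinuousOn (fun z : UT => r.pt C z s) {z : UT | (z : ℂ × ℂ) ∈ C.A} := by
  have h := ((r.core S).localTriv C).toOpenPartialHomeomorph.continuousOn_symm
  refine h.comp (Continuous.continuousOn (by fun_prop)) ?_
  intro z hz
  exact ((r.core S).localTriv C).mem_target.2 hz

/-- The chart coordinate is locally constant. -/
theorem crd_locConst {C : Ch} {p : r.Tot S} (hp : ((r.pr p : UT) : ℂ × ℂ) ∈ C.A) :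
    ∀ᶠ q in 𝓝 p, r.crd C q = r.crd C p := by
  have ho : {p : r.Tot S | ((r.pr p : UT) : ℂ × ℂ) ∈ C.A} ∈ 𝓝 p :=
    (C.isOpen_A.preimage (continuous_subtype_val.comp r.continuous_pr)).mem_nhds hp
  have h := (r.continuousOn_crd C).continuousAt ho
  exact h.eventually ((isOpen_discrete {r.crd C p}).mem_nhds rfl)

/-- Along a continuous map from a preconnected set into the part of `U_S` over `C.A`, the chart
coordinate is constant. -/
theorem crd_const {T : Type*} [TopologicalSpace T] {f : T → r.Tot S} {D : Set T}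
    (hf : ContinuousOn f D) (hD : IsPreconnected D) {C : Ch}
    (hC : ∀ t ∈ D, ((r.pr (f t) : UT) : ℂ × ℂ) ∈ C.A) {t u : T} (ht : t ∈ D) (hu : u ∈ D) :
    r.crd C (f t) = r.crd C (f u) := by
  have h1 : ContinuousOn (fun t => r.crd C (f t)) D :=
    (r.continuousOn_crd C).comp hf (fun t ht => hC t ht)
  exact hD.constant h1 ht hu

/-- A continuous map on a preconnected set whose projection stays in `C.A` is `pt` of a constant
coordinate. -/
theorem eq_pt {T : Type*} [TopologicalSpace T] {f : T → r.Tot S} {D : Set T}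
    (hf : ContinuousOn f D) (hD : IsPreconnected D) {C : Ch}
    (hC : ∀ t ∈ D, ((r.pr (f t) : UT) : ℂ × ℂ) ∈ C.A) {t u : T} (ht : t ∈ D) (hu : u ∈ D) :
    f u = r.pt C (r.pr (f u)) (r.crd C (f t)) := by
  rw [r.crd_const hf hD hC ht hu, r.pt_crd (hC u hu)]

end

section

variable {S S' : Type*} [MulAction G S] [TopologicalSpace S] [DiscreteTopology S]
  [MulAction G S'] [TopologicalSpace S'] [DiscreteTopology S']

/-- Functoriality: the map `U_S → U_S'` of an equivariant map. -/
def map (φ : S → S') (p : r.Tot S) : r.Tot S' := ⟨p.1, φ (r.fib p)⟩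

theorem pr_map (φ : S → S') (p : r.Tot S) : r.pr (r.map φ p) = r.pr p := rfl

theorem crd_map {φ : S → S'} (hφ : ∀ (g : G) (s : S), φ (g • s) = g • φ s) (C : Ch)
    (p : r.Tot S) : r.crd C (r.map φ p) = φ (r.crd C p) := by
  rw [crd_eq, crd_eq, hφ]
  rfl

theorem map_pt {φ : S → S'} (hφ : ∀ (g : G) (s : S), φ (g • s) = g • φ s) {C : Ch} {z : UT}
    (hz : (z : ℂ × ℂ) ∈ C.A) (s : S) : r.map φ (r.pt C z s) = r.pt C z (φ s) := by
  refine r.ext_crd (C := C) rfl hz ?_
  rw [r.crd_map hφ, r.crd_pt hz, r.crd_pt hz]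

theorem continuous_map {φ : S → S'} (hφ : ∀ (g : G) (s : S), φ (g • s) = g • φ s) :
    Continuous (r.map φ : r.Tot S → r.Tot S') := by
  rw [continuous_iff_continuousAt]
  intro p
  obtain ⟨C, hC⟩ := exists_ch (r.pr p).2
  have ho : {p : r.Tot S | ((r.pr p : UT) : ℂ × ℂ) ∈ C.A} ∈ 𝓝 p :=
    (C.isOpen_A.preimage (continuous_subtype_val.comp r.continuous_pr)).mem_nhds hC
  have h1 : ∀ᶠ q in 𝓝 p, r.map φ q = r.pt C (r.pr q) (φ (r.crd C p)) := by
    filter_upwards [ho, r.crd_locConst hC] with q hq hq2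
    refine r.ext_crd (C := C) rfl hq ?_
    rw [r.crd_map hφ, r.crd_pt hq, hq2]
  have h2 : ContinuousAt (fun q : r.Tot S => r.pt C (r.pr q) (φ (r.crd C p))) p := by
    have h3 := (r.continuousOn_pt (S := S') C (φ (r.crd C p))).continuousAt (x := r.pr p)
      ((C.isOpen_A.preimage continuous_subtype_val).mem_nhds hC)
    exact ContinuousAt.comp (g := fun z : UT => r.pt C z (φ (r.crd C p))) h3
      r.continuous_pr.continuousAt
  exact h2.congr (h1.mono fun q hq => hq.symm)

end

end Arr

end Vale.Agent.P300.TOR
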