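import Mathlib

/-!
P300, block TOR: the explicit torsor over `U = M_{0,5}`.

`U = {(x, l) : x ≠ 0, 1, l ≠ 0, 1, x ≠ l} ⊆ ℂ × ℂ`.  For every group `G` with five elements
`c1 c2 c3 T0 T1` satisfying the relations of `π₁(M_{0,5}) = F₃ ⋊ F₂` (structure `Arr G`) and every
`G`-set `S` (discrete) we construct a covering `U_S → U`, by 12 star-shaped charts.
-/

open Set Topology Filter

namespace Vale.Agent.P300.TOR

/-- Five elements of a group satisfying the relations of `π₁(M_{0,5}) = F₃ ⋊ F₂`: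
`T0` conjugates `c1, c2` by `d = c1 c2` and commutes with `c3`; `T1` conjugates `c2, c3` by
`e = c2 c3` and commutes with `c1`. -/
structure Arr (G : Type*) [Group G] where
  c1 : G
  c2 : G
  c3 : G
  T0 : G
  T1 : G
  h01 : T0 * c1 * T0⁻¹ = c1 * c2 * c1 * (c1 * c2)⁻¹
  h02 : T0 * c2 * T0⁻¹ = c1 * c2 * c2 * (c1 * c2)⁻¹
  h03 : T0 * c3 = c3 * T0
  h11 : T1 * c1 = c1 * T1
  h12 : T1 * c2 * T1⁻¹ = c2 * c3 * c2 * (c2 * c3)⁻¹
  h13 : T1 * c3 * T1⁻¹ = c2 * c3 * c3 * (c2 * c3)⁻¹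

/-- The base `U = M_{0,5}`. -/
def US : Set (ℂ × ℂ) := {z | z.1 ≠ 0 ∧ z.1 ≠ 1 ∧ z.2 ≠ 0 ∧ z.2 ≠ 1 ∧ z.1 ≠ z.2}

/-- The three components of `ℝ \ {0, 1}`. -/
def pc (i : Fin 3) (t : ℝ) : Prop :=
  match i with
  | 0 => t < 0
  | 1 => 0 < t ∧ t < 1
  | 2 => 1 < t

/-- The two sides of `0`: `false` = left (negative), `true` = right (positive). -/
def sd (s : Bool) (t : ℝ) : Prop := if s then 0 < t else t < 0

/-- The 12 chambers: `L` = position of `l`, `X` = position of `x` in `ℝ \ {0,1}`,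
`s` = side of `x - l`. -/
structure Ch where
  L : Fin 3
  X : Fin 3
  s : Bool
  h1 : X < L → s = false
  h2 : L < X → s = true

/-- The star-shaped open set of a chamber. -/
def Ch.A (C : Ch) : Set (ℂ × ℂ) :=
  {z | (z.1.im = 0 → pc C.X z.1.re) ∧ (z.2.im = 0 → pc C.L z.2.re) ∧
    (z.1.im = z.2.im → sd C.s (z.1.re - z.2.re))}

theorem pc_unique {i j : Fin 3} {t : ℝ} (hi : pc i t) (hj : pc j t) : i = j := by
  fin_cases i <;> fin_cases j <;> simp [pc] at hi hj ⊢ <;> linarith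

theorem sd_unique {i j : Bool} {t : ℝ} (hi : sd i t) (hj : sd j t) : i = j := by
  cases i <;> cases j <;> simp [sd] at hi hj ⊢ <;> linarith

/-- The six closed cones of imaginary parts `(Im x, Im l) = (a, b)`. -/
def cone (n : Fin 6) (a b : ℝ) : Prop :=
  match n with
  | 0 => 0 ≤ b ∧ b ≤ a
  | 1 => 0 ≤ a ∧ a ≤ b
  | 2 => a ≤ 0 ∧ 0 ≤ b
  | 3 => b ≤ 0 ∧ 0 ≤ a
  | 4 => b ≤ a ∧ a ≤ 0
  | 5 => a ≤ b ∧ b ≤ 0

theorem exists_cone (a b : ℝ) : ∃ n, cone n a b := by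
  rcases le_total 0 a with ha | ha <;> rcases le_total 0 b with hb | hb <;>
    rcases le_total a b with hab | hab
  · exact ⟨1, ha, hab⟩
  · exact ⟨0, hb, hab⟩
  · exact ⟨3, hb, ha⟩
  · exact ⟨3, hb, ha⟩
  · exact ⟨2, ha, hb⟩
  · exact ⟨2, ha, hb⟩
  · exact ⟨5, hab, hb⟩
  · exact ⟨4, hab, ha⟩

/-- A cone containing `(a, b)`. -/
noncomputable def cn (a b : ℝ) : Fin 6 := (exists_cone a b).choose

theorem cn_spec (a b : ℝ) : cone (cn a b) a b := (exists_cone a b).choose_spec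

theorem isClosed_cone (n : Fin 6) : IsClosed {z : ℂ × ℂ | cone n z.1.im z.2.im} := by
  have h1 : Continuous fun z : ℂ × ℂ => z.1.im := Complex.continuous_im.comp continuous_fst
  have h2 : Continuous fun z : ℂ × ℂ => z.2.im := Complex.continuous_im.comp continuous_snd
  fin_cases n <;> simp only [cone, ofPred_and] <;>
    exact (isClosed_le (by fun_prop) (by fun_prop)).inter (isClosed_le (by fun_prop) (by fun_prop))

variable {G : Type*} [Group G] (r : Arr G)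

namespace Arr

/-- Transition elements of the wall pieces. -/
def e03 (L : Fin 3) : G := match L with
  | 0 => r.T0⁻¹
  | 1 => 1
  | 2 => r.T1

def e01 (s : Bool) : G := if s then r.c2⁻¹ else 1

def e12 (X : Fin 3) : G := match X with
  | 0 => r.c1
  | 1 => 1
  | 2 => r.c2 * r.c3⁻¹ * r.c2⁻¹

def e34 (X : Fin 3) : G := match X with
  | 0 => r.c1
  | 1 => 1
  | 2 => r.c3⁻¹

def e45 (s : Bool) : G := if s then r.c2⁻¹ else 1

def e25 (L : Fin 3) : G := match L with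
  | 0 => r.c2 * r.T0⁻¹ * r.c2⁻¹
  | 1 => 1
  | 2 => r.T1

/-- The element `k(C, n)`: path from the frame `0` to the frame `n` inside the chart of `C`. -/
def k (C : Ch) (n : Fin 6) : G := match n with
  | 0 => 1
  | 1 => r.e01 C.s
  | 2 => r.e01 C.s * r.e12 C.X
  | 3 => r.e03 C.L
  | 4 => r.e03 C.L * r.e34 C.X
  | 5 => r.e03 C.L * r.e34 C.X * r.e45 C.s

theorem d_comm : r.T0 * (r.c1 * r.c2) = r.c1 * r.c2 * r.T0 := by
  have h5 : r.T0 * (r.c1 * r.c2) * r.T0⁻¹ = r.c1 * r.c2 := by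
    calc r.T0 * (r.c1 * r.c2) * r.T0⁻¹ = (r.T0 * r.c1 * r.T0⁻¹) * (r.T0 * r.c2 * r.T0⁻¹) := by group
      _ = _ := by rw [r.h01, r.h02]; group
  calc r.T0 * (r.c1 * r.c2) = r.T0 * (r.c1 * r.c2) * r.T0⁻¹ * r.T0 := by group
    _ = _ := by rw [h5]

theorem e_comm : r.T1 * (r.c2 * r.c3) = r.c2 * r.c3 * r.T1 := by
  have h5 : r.T1 * (r.c2 * r.c3) * r.T1⁻¹ = r.c2 * r.c3 := by
    calc r.T1 * (r.c2 * r.c3) * r.T1⁻¹ = (r.T1 * r.c2 * r.T1⁻¹) * (r.T1 * r.c3 * r.T1⁻¹) := by group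
      _ = _ := by rw [r.h12, r.h13]; group
  calc r.T1 * (r.c2 * r.c3) = r.T1 * (r.c2 * r.c3) * r.T1⁻¹ * r.T1 := by group
    _ = _ := by rw [h5]

theorem T0_c1' : r.T0 * (r.c2⁻¹ * r.c1 * r.c2) = r.c1 * r.T0 := by
  have h : r.T0 * (r.c2⁻¹ * r.c1 * r.c2) * r.T0⁻¹ = r.c1 := by
    calc r.T0 * (r.c2⁻¹ * r.c1 * r.c2) * r.T0⁻¹ =
        (r.T0 * r.c2 * r.T0⁻¹)⁻¹ * (r.T0 * r.c1 * r.T0⁻¹) * (r.T0 * r.c2 * r.T0⁻¹) := by group
      _ = _ := by rw [r.h01, r.h02]; group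
  calc r.T0 * (r.c2⁻¹ * r.c1 * r.c2) = r.T0 * (r.c2⁻¹ * r.c1 * r.c2) * r.T0⁻¹ * r.T0 := by group
    _ = _ := by rw [h]

theorem T1_c3 : r.T1 * r.c3 = r.c2 * r.c3 * r.c2⁻¹ * r.T1 := by
  calc r.T1 * r.c3 = r.T1 * r.c3 * r.T1⁻¹ * r.T1 := by group
    _ = _ := by rw [r.h13]; group

/-- The hexagon relation: the two paths from the frame `0` to the frame `5` agree. -/
theorem hex (C : Ch) : r.k C 5 = r.k C 2 * r.e25 C.L := by
  obtain ⟨L, X, s, h1, h2⟩ := C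
  have d := r.d_comm
  have e := r.e_comm
  have a := r.T0_c1'
  have b := r.T1_c3
  have h03 := r.h03
  have h11 := r.h11
  simp only [k]
  fin_cases L <;> fin_cases X <;> simp at h1 h2 <;> (try subst h1) <;> (try subst h2) <;>
    simp only [e03, e34, e45, e01, e12, e25, if_true, if_false, Bool.false_eq_true, one_mul,
      mul_one]
  · cases s
    · simp only [Bool.false_eq_true, if_false, mul_one, one_mul]
      calc r.T0⁻¹ * r.c1 = r.T0⁻¹ * (r.c1 * r.c2 * r.T0) * r.T0⁻¹ * r.c2⁻¹ := by group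
        _ = _ := by rw [← d]; group
    · simp only [if_true]
      calc r.T0⁻¹ * r.c1 * r.c2⁻¹ = r.T0⁻¹ * (r.c1 * r.T0) * r.T0⁻¹ * r.c2⁻¹ := by group
        _ = _ := by rw [← a]; group
  · group
  · calc r.T0⁻¹ * r.c3⁻¹ * r.c2⁻¹ = (r.c3 * r.T0)⁻¹ * r.c2⁻¹ := by group
      _ = _ := by rw [← h03]; group
  · group
  · calc r.T1 * r.c1 = r.c1 * r.T1 := h11
      _ = _ := by group
  · cases s
    · simp only [Bool.false_eq_true, if_false, mul_one, one_mul]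
      calc r.T1 * r.c3⁻¹ = r.c2 * r.c3⁻¹ * r.c2⁻¹ * (r.c2 * r.c3 * r.c2⁻¹ * r.T1) * r.c3⁻¹ := by
            group
        _ = _ := by rw [← b]; group
    · simp only [if_true]
      calc r.T1 * r.c3⁻¹ * r.c2⁻¹ = r.c3⁻¹ * r.c2⁻¹ * (r.c2 * r.c3 * r.T1) * r.c3⁻¹ * r.c2⁻¹ := by
            group
        _ = _ := by rw [← e]; group

end Arr

end Vale.Agent.P300.TOR
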