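import Vale.Agent.P300.TOR.Core

/-!
P300, block TOR: the covering `U_S → U`.
-/

open Set Topology Filter

namespace Vale.Agent.P300.TOR

theorem isOpen_pc (i : Fin 3) : IsOpen {t : ℝ | pc i t} := by
  fin_cases i
  · exact isOpen_Iio
  · exact isOpen_Ioo
  · exact isOpen_Ioi

theorem isOpen_sd (s : Bool) : IsOpen {t : ℝ | sd s t} := by
  cases s
  · exact isOpen_lt (f := fun t : ℝ => t) continuous_id continuous_const
  · exact isOpen_lt (g := fun t : ℝ => t) continuous_const continuous_id

theorem Ch.isOpen_A (C : Ch) : IsOpen C.A := by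
  have e : C.A = ({z : ℂ × ℂ | z.1.im ≠ 0} ∪ {z | pc C.X z.1.re}) ∩
      (({z | z.2.im ≠ 0} ∪ {z | pc C.L z.2.re}) ∩
      ({z | z.1.im ≠ z.2.im} ∪ {z | sd C.s (z.1.re - z.2.re)})) := by
    ext z
    simp only [Ch.A, mem_ofPred_eq, mem_inter_iff, mem_union, ne_eq, or_iff_not_imp_left, not_not]
  rw [e]
  have c1 : Continuous fun z : ℂ × ℂ => z.1.im := by fun_prop
  have c2 : Continuous fun z : ℂ × ℂ => z.2.im := by fun_prop
  have c3 : Continuous fun z : ℂ × ℂ => z.1.re := by fun_prop
  have c4 : Continuous fun z : ℂ × ℂ => z.2.re := by fun_prop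
  refine ((isOpen_ne_fun c1 continuous_const).union ((isOpen_pc _).preimage c3)).inter
    (((isOpen_ne_fun c2 continuous_const).union ((isOpen_pc _).preimage c4)).inter
    ((isOpen_ne_fun c1 c2).union ((isOpen_sd _).preimage (c3.sub c4))))

theorem Ch.A_subset (C : Ch) : C.A ⊆ US := by
  rintro z ⟨h1, h2, h3⟩
  refine ⟨?_, ?_, ?_, ?_, ?_⟩
  · intro h
    have := h1 (by simp [h])
    rw [h] at this
    revert this
    obtain ⟨L, X, s, _, _⟩ := C
    fin_cases X <;> simp [pc]
  · intro h
    have := h1 (by simp [h])
    rw [h] at this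
    revert this
    obtain ⟨L, X, s, _, _⟩ := C
    fin_cases X <;> simp [pc]
  · intro h
    have := h2 (by simp [h])
    rw [h] at this
    revert this
    obtain ⟨L, X, s, _, _⟩ := C
    fin_cases L <;> simp [pc]
  · intro h
    have := h2 (by simp [h])
    rw [h] at this
    revert this
    obtain ⟨L, X, s, _, _⟩ := C
    fin_cases L <;> simp [pc]
  · intro h
    have := h3 (by simp [h])
    rw [h] at this
    revert this
    obtain ⟨L, X, s, _, _⟩ := C
    cases s <;> simp [sd]

theorem exists_pc {t : ℝ} (h0 : t ≠ 0) (h1 : t ≠ 1) : ∃ i, pc i t := by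
  rcases lt_or_gt_of_ne h0 with h | h
  · exact ⟨0, h⟩
  · rcases lt_or_gt_of_ne h1 with h' | h'
    · exact ⟨1, h, h'⟩
    · exact ⟨2, h'⟩

theorem exists_sd {t : ℝ} (h0 : t ≠ 0) : ∃ s, sd s t := by
  rcases lt_or_gt_of_ne h0 with h | h
  · exact ⟨false, by simpa [sd] using h⟩
  · exact ⟨true, by simpa [sd] using h⟩

theorem re_ne {z w : ℂ} (h : z ≠ w) (him : z.im = w.im) : z.re ≠ w.re := fun h' =>
  h (Complex.ext h' him)

/-- `x < l` (as real numbers in `ℝ \ {0,1}`) implies the order of the pieces. -/
theorem pc_le_of_lt {i j : Fin 3} {t u : ℝ} (hi : pc i t) (hj : pc j u) (h : t < u) : i ≤ j := by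
  fin_cases i <;> fin_cases j <;> simp [pc] at hi hj ⊢ <;> linarith

theorem exists_ch {z : ℂ × ℂ} (hz : z ∈ US) : ∃ C : Ch, z ∈ C.A := by
  obtain ⟨hx0, hx1, hl0, hl1, hxl⟩ := hz
  -- the pieces
  have hX : ∃ i, z.1.im = 0 → pc i z.1.re := by
    by_cases h : z.1.im = 0
    · obtain ⟨i, hi⟩ := exists_pc (t := z.1.re) (by simpa using re_ne hx0 (by simpa using h))
        (by simpa using re_ne hx1 (by simpa using h))
      exact ⟨i, fun _ => hi⟩
    · exact ⟨0, fun h' => absurd h' h⟩
  have hL : ∃ i, z.2.im = 0 → pc i z.2.re := by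
    by_cases h : z.2.im = 0
    · obtain ⟨i, hi⟩ := exists_pc (t := z.2.re) (by simpa using re_ne hl0 (by simpa using h))
        (by simpa using re_ne hl1 (by simpa using h))
      exact ⟨i, fun _ => hi⟩
    · exact ⟨0, fun h' => absurd h' h⟩
  have hS : ∃ s, z.1.im = z.2.im → sd s (z.1.re - z.2.re) := by
    by_cases h : z.1.im = z.2.im
    · obtain ⟨s, hs⟩ := exists_sd (t := z.1.re - z.2.re) (sub_ne_zero.2 (re_ne hxl h))
      exact ⟨s, fun _ => hs⟩
    · exact ⟨true, fun h' => absurd h' h⟩
  obtain ⟨i, hi⟩ := hX
  obtain ⟨j, hj⟩ := hL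
  obtain ⟨s, hs⟩ := hS
  by_cases hx : z.1.im = 0
  · by_cases hl : z.2.im = 0
    · -- real point
      refine ⟨⟨j, i, s, ?_, ?_⟩, hi, hj, hs⟩
      · intro h
        rcases Bool.eq_false_or_eq_true s with h' | h'
        · exfalso
          subst h'
          have h3 : z.2.re < z.1.re := by
            have := hs (by rw [hx, hl])
            simpa [sd] using this
          exact absurd (pc_le_of_lt (hj hl) (hi hx) h3) (not_le.2 h)
        · exact h'
      · intro h
        rcases Bool.eq_false_or_eq_true s with h' | h'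
        · exact h'
        · exfalso
          subst h'
          have h3 : z.1.re < z.2.re := by
            have := hs (by rw [hx, hl])
            simpa [sd] using this
          exact absurd (pc_le_of_lt (hi hx) (hj hl) h3) (not_le.2 h)
    · -- `x` real, `l` not: take `L = X`
      refine ⟨⟨i, i, s, fun h => absurd h (lt_irrefl _), fun h => absurd h (lt_irrefl _)⟩, hi,
        fun h => absurd h hl, hs⟩
  · -- `x` not real: take `X = L`
    refine ⟨⟨j, j, s, fun h => absurd h (lt_irrefl _), fun h => absurd h (lt_irrefl _)⟩,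
      fun h => absurd h hx, hj, hs⟩

variable {G : Type*} [Group G] (r : Arr G)

namespace Arr

theorem k_zero (C : Ch) : r.k C 0 = 1 := rfl

/-- Comparison of two charts in two frames. -/
theorem k_eq {C C' : Ch} {z : ℂ × ℂ} (h : z ∈ C.A) (h' : z ∈ C'.A) {n m : Fin 6}
    (hn : cone n z.1.im z.2.im) (hm : cone m z.1.im z.2.im) :
    r.k C' n * (r.k C n)⁻¹ = r.k C' m * (r.k C m)⁻¹ := by
  have hx : z.1.im = 0 → C.X = C'.X := fun h0 => pc_unique (h.1 h0) (h'.1 h0)
  have hl : z.2.im = 0 → C.L = C'.L := fun h0 => pc_unique (h.2.1 h0) (h'.2.1 h0)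
  have hs : z.1.im = z.2.im → C.s = C'.s := fun h0 => sd_unique (h.2.2 h0) (h'.2.2 h0)
  -- adjacent frames
  have k01 : z.1.im = z.2.im → r.k C' 1 * (r.k C 1)⁻¹ = 1 := by
    intro h0
    simp [k, hs h0]
  have k03 : z.2.im = 0 → r.k C' 3 * (r.k C 3)⁻¹ = 1 := by
    intro h0
    simp [k, hl h0]
  have k12 : z.1.im = 0 → r.k C' 2 * (r.k C 2)⁻¹ = r.k C' 1 * (r.k C 1)⁻¹ := by
    intro h0
    simp only [k, hx h0]
    group
  have k34 : z.1.im = 0 → r.k C' 4 * (r.k C 4)⁻¹ = r.k C' 3 * (r.k C 3)⁻¹ := by
    intro h0
    simp only [k, hx h0]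
    group
  have k45 : z.1.im = z.2.im → r.k C' 5 * (r.k C 5)⁻¹ = r.k C' 4 * (r.k C 4)⁻¹ := by
    intro h0
    simp only [k, hs h0]
    group
  have k25 : z.2.im = 0 → r.k C' 5 * (r.k C 5)⁻¹ = r.k C' 2 * (r.k C 2)⁻¹ := by
    intro h0
    rw [hex, hex, hl h0]
    group
  have k0 : r.k C' 0 * (r.k C 0)⁻¹ = 1 := by simp [k]
  -- every frame containing the point equals the value of a common one
  by_cases ha : z.1.im = 0
  · by_cases hb : z.2.im = 0
    · -- all frames
      have hab : z.1.im = z.2.im := by rw [ha, hb]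
      have key : ∀ n : Fin 6, r.k C' n * (r.k C n)⁻¹ = 1 := by
        intro n
        fin_cases n
        · exact k0
        · exact k01 hab
        · exact (k12 ha).trans (k01 hab)
        · exact k03 hb
        · exact (k34 ha).trans (k03 hb)
        · exact (k45 hab).trans ((k34 ha).trans (k03 hb))
      rw [key, key]
    · rcases lt_or_gt_of_ne hb with hb' | hb'
      · -- frames 3, 4
        have key : ∀ n : Fin 6, cone n z.1.im z.2.im →
            r.k C' n * (r.k C n)⁻¹ = r.k C' 3 * (r.k C 3)⁻¹ := by
          intro n hn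
          fin_cases n <;> simp only [cone] at hn
          · exfalso; linarith
          · exfalso; linarith
          · exfalso; linarith
          · rfl
          · exact k34 ha
          · exfalso; linarith
        rw [key n hn, key m hm]
      · -- frames 1, 2
        have key : ∀ n : Fin 6, cone n z.1.im z.2.im →
            r.k C' n * (r.k C n)⁻¹ = r.k C' 1 * (r.k C 1)⁻¹ := by
          intro n hn
          fin_cases n <;> simp only [cone] at hn
          · exfalso; linarith
          · rfl
          · exact k12 ha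
          · exfalso; linarith
          · exfalso; linarith
          · exfalso; linarith
        rw [key n hn, key m hm]
  · by_cases hb : z.2.im = 0
    · rcases lt_or_gt_of_ne ha with ha' | ha'
      · -- frames 2, 5
        have key : ∀ n : Fin 6, cone n z.1.im z.2.im →
            r.k C' n * (r.k C n)⁻¹ = r.k C' 2 * (r.k C 2)⁻¹ := by
          intro n hn
          fin_cases n <;> simp only [cone] at hn
          · exfalso; linarith
          · exfalso; linarith
          · rfl
          · exfalso; linarith
          · exfalso; linarith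
          · exact k25 hb
        rw [key n hn, key m hm]
      · -- frames 0, 3
        have key : ∀ n : Fin 6, cone n z.1.im z.2.im →
            r.k C' n * (r.k C n)⁻¹ = 1 := by
          intro n hn
          fin_cases n <;> simp only [cone] at hn
          · exact k0
          · exfalso; linarith
          · exfalso; linarith
          · exact k03 hb
          · exfalso; linarith
          · exfalso; linarith
        rw [key n hn, key m hm]
    · by_cases hab : z.1.im = z.2.im
      · rcases lt_or_gt_of_ne ha with ha' | ha'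
        · -- frames 4, 5
          have key : ∀ n : Fin 6, cone n z.1.im z.2.im →
              r.k C' n * (r.k C n)⁻¹ = r.k C' 4 * (r.k C 4)⁻¹ := by
            intro n hn
            fin_cases n <;> simp only [cone] at hn
            · exfalso; linarith
            · exfalso; linarith
            · exfalso; linarith
            · exfalso; linarith
            · rfl
            · exact k45 hab
          rw [key n hn, key m hm]
        · -- frames 0, 1
          have key : ∀ n : Fin 6, cone n z.1.im z.2.im →
              r.k C' n * (r.k C n)⁻¹ = 1 := by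
            intro n hn
            fin_cases n <;> simp only [cone] at hn
            · exact k0
            · exact k01 hab
            · exfalso; linarith
            · exfalso; linarith
            · exfalso; linarith
            · exfalso; linarith
          rw [key n hn, key m hm]
      · -- interior: only one frame
        have key : n = m := by
          have a1 : z.1.im ≤ 0 → z.1.im < 0 := fun h => lt_of_le_of_ne h ha
          have a2 : 0 ≤ z.1.im → 0 < z.1.im := fun h => lt_of_le_of_ne h (Ne.symm ha)
          have b1 : z.2.im ≤ 0 → z.2.im < 0 := fun h => lt_of_le_of_ne h hb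
          have b2 : 0 ≤ z.2.im → 0 < z.2.im := fun h => lt_of_le_of_ne h (Ne.symm hb)
          have c1 : z.1.im ≤ z.2.im → z.1.im < z.2.im := fun h => lt_of_le_of_ne h hab
          have c2 : z.2.im ≤ z.1.im → z.2.im < z.1.im := fun h => lt_of_le_of_ne h (Ne.symm hab)
          fin_cases n <;> fin_cases m <;> first
            | rfl
            | (exfalso
               simp only [cone] at hn hm
               obtain ⟨p1, p2⟩ := hn
               obtain ⟨q1, q2⟩ := hm
               first
                 | linarith [a1 (by linarith)]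
                 | linarith [a2 (by linarith)]
                 | linarith [b1 (by linarith)]
                 | linarith [b2 (by linarith)]
                 | linarith [c1 (by linarith)])
        rw [key]

/-- The transition element from the chart `C` to the chart `C'` at `z`. -/
noncomputable def tr (C C' : Ch) (z : ℂ × ℂ) : G :=
  r.k C' (cn z.1.im z.2.im) * (r.k C (cn z.1.im z.2.im))⁻¹

theorem tr_eq {C C' : Ch} {z : ℂ × ℂ} (h : z ∈ C.A) (h' : z ∈ C'.A) {n : Fin 6}
    (hn : cone n z.1.im z.2.im) : r.tr C C' z = r.k C' n * (r.k C n)⁻¹ :=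
  r.k_eq h h' (cn_spec _ _) hn

theorem tr_self (C : Ch) (z : ℂ × ℂ) : r.tr C C z = 1 := by simp [tr]

theorem tr_comp (C C' C'' : Ch) (z : ℂ × ℂ) : r.tr C' C'' z * r.tr C C' z = r.tr C C'' z := by
  simp only [tr]; group

/-- The transition element is locally constant. -/
theorem tr_locConst {C C' : Ch} {z : ℂ × ℂ} (h : z ∈ C.A) (h' : z ∈ C'.A) :
    ∀ᶠ w in 𝓝 z, r.tr C C' w = r.tr C C' z := by
  have h1 : ∀ᶠ w in 𝓝 z, w ∈ C.A := C.isOpen_A.mem_nhds h
  have h2 : ∀ᶠ w in 𝓝 z, w ∈ C'.A := C'.isOpen_A.mem_nhds h'
  have h3 : ∀ n : Fin 6, ∀ᶠ w : ℂ × ℂ in 𝓝 z, cone n w.1.im w.2.im → cone n z.1.im z.2.im := by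
    intro n
    by_cases hc : cone n z.1.im z.2.im
    · exact Eventually.of_forall fun _ _ => hc
    · have : {w : ℂ × ℂ | cone n w.1.im w.2.im}ᶜ ∈ 𝓝 z := (isClosed_cone n).isOpen_compl.mem_nhds hc
      filter_upwards [this] with w hw hw'
      exact absurd hw' hw
  filter_upwards [h1, h2, eventually_all.2 h3] with w w1 w2 w3
  have h4 := w3 _ (cn_spec w.1.im w.2.im)
  rw [r.tr_eq h h' h4]
  rfl

/-- The base, as a type. -/
abbrev UT : Type := US

/-- The fibre bundle core with discrete fibre `S`. -/
noncomputable def core (S : Type*) [MulAction G S] [TopologicalSpace S] [DiscreteTopology S] :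
    FiberBundleCore Ch UT S where
  baseSet := fun C => {z | (z : ℂ × ℂ) ∈ C.A}
  isOpen_baseSet := fun C => C.isOpen_A.preimage continuous_subtype_val
  indexAt := fun z => (exists_ch z.2).choose
  mem_baseSet_at := fun z => (exists_ch z.2).choose_spec
  coordChange := fun C C' z v => r.tr C C' z • v
  coordChange_self := fun C z _ v => by rw [r.tr_self, one_smul]
  continuousOn_coordChange := by
    intro C C'
    rintro ⟨z, v⟩ ⟨⟨h, h'⟩, -⟩
    have h1 : ∀ᶠ w : UT in 𝓝 z, r.tr C C' w = r.tr C C' z :=
      continuous_subtype_val.continuousAt.eventually (r.tr_locConst h h')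
    have h2 : ∀ᶠ p : UT × S in 𝓝 (z, v), r.tr C C' p.1 • p.2 = r.tr C C' z • v := by
      rw [nhds_prod_eq]
      refine (h1.prod_mk ((isOpen_discrete {v}).mem_nhds rfl)).mono ?_
      rintro ⟨a, b⟩ ⟨ha, hb⟩
      have hb' : b = v := hb
      simp only at ha ⊢
      rw [ha, hb']
    exact (continuousAt_const.congr (h2.mono fun p hp => hp.symm)).continuousWithinAt
  coordChange_comp := by
    intro C C' C'' z _ v
    rw [← mul_smul, r.tr_comp]

end Arr

end Vale.Agent.P300.TOR
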