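import Vale.Agent.P300.TOR.Lift
import Vale.Agent.P300.H844.Reg

/-!
P300, block NODE: the small loops around the two branches of a node.  On the circle `|t| = 1/4` the coordinates `x`, `λ` of a node
chart (the other variable being `1/4`) are real Möbius functions of `t`; all memberships in the
charts `C.A` and all frames are read off from rational inequalities at `t = ± 1/4`.
-/

set_option linter.all false

open Set Topology Filter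

namespace Vale.Agent.P300.TOR

/-- real Möbius function -/
noncomputable def mob (α β γ δ : ℝ) (t : ℂ) : ℂ := (α * t + β) / (γ * t + δ)

theorem im_mob (α β γ δ : ℝ) (t : ℂ) : (mob α β γ δ t).im =
    (α * δ - β * γ) * t.im / ((γ * t.re + δ) ^ 2 + (γ * t.im) ^ 2) := by
  unfold mob
  rw [Complex.div_im]
  simp only [Complex.add_im, Complex.add_re, Complex.mul_im, Complex.mul_re, Complex.ofReal_re,
    Complex.ofReal_im, Complex.normSq_apply, zero_mul, sub_zero, add_zero]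
  rw [← sub_div]
  congr 1 <;> ring

/-- the data of a loop -/
structure Loop where
  (α β γ δ α' β' γ' δ' : ℝ)
  (C C' : Ch)
  (n n' : Fin 6)

namespace Loop

variable (ℓ : Loop)

/-- the coordinate `x` -/
noncomputable def x (t : ℂ) : ℂ := mob ℓ.α ℓ.β ℓ.γ ℓ.δ t

/-- the coordinate `λ` -/
noncomputable def l (t : ℂ) : ℂ := mob ℓ.α' ℓ.β' ℓ.γ' ℓ.δ' t

/-- the determinants -/
def D : ℝ := ℓ.α * ℓ.δ - ℓ.β * ℓ.γ
def D' : ℝ := ℓ.α' * ℓ.δ' - ℓ.β' * ℓ.γ'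

/-- values at the two real points of the circle -/
noncomputable def E1 : ℝ := ℓ.D * (ℓ.δ' + ℓ.γ' / 4) ^ 2 - ℓ.D' * (ℓ.δ + ℓ.γ / 4) ^ 2
noncomputable def E2 : ℝ := ℓ.D * (ℓ.δ' - ℓ.γ' / 4) ^ 2 - ℓ.D' * (ℓ.δ - ℓ.γ / 4) ^ 2

/-- real values -/
noncomputable def xr (s : ℝ) : ℝ := (ℓ.α * s + ℓ.β) / (ℓ.γ * s + ℓ.δ)
noncomputable def lr (s : ℝ) : ℝ := (ℓ.α' * s + ℓ.β') / (ℓ.γ' * s + ℓ.δ')

/-- sign version of the cones -/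
def coneS (n : Fin 6) (D D' E1 E2 : ℝ) : Prop :=
  match n with
  | 0 => 0 ≤ D' ∧ (0 ≤ E1 ∧ 0 ≤ E2)
  | 1 => 0 ≤ D ∧ (E1 ≤ 0 ∧ E2 ≤ 0)
  | 2 => D ≤ 0 ∧ 0 ≤ D'
  | 3 => D' ≤ 0 ∧ 0 ≤ D
  | 4 => (0 ≤ E1 ∧ 0 ≤ E2) ∧ D ≤ 0
  | 5 => (E1 ≤ 0 ∧ E2 ≤ 0) ∧ D' ≤ 0

/-- the rational inequalities -/
structure Ok : Prop where
  p1 : ℓ.δ + ℓ.γ / 4 ≠ 0
  p2 : ℓ.δ - ℓ.γ / 4 ≠ 0
  p3 : ℓ.δ' + ℓ.γ' / 4 ≠ 0
  p4 : ℓ.δ' - ℓ.γ' / 4 ≠ 0
  hx : ℓ.D ≠ 0 ∨ (ℓ.α = 0 ∧ ℓ.γ = 0 ∧ pc ℓ.C.X (ℓ.β / ℓ.δ) ∧ pc ℓ.C'.X (ℓ.β / ℓ.δ))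
  hl : ℓ.D' ≠ 0 ∨ (ℓ.α' = 0 ∧ ℓ.γ' = 0 ∧ pc ℓ.C.L (ℓ.β' / ℓ.δ') ∧ pc ℓ.C'.L (ℓ.β' / ℓ.δ'))
  hd : (0 < ℓ.E1 ∧ 0 < ℓ.E2) ∨ (ℓ.E1 < 0 ∧ ℓ.E2 < 0)
  b1 : pc ℓ.C.X (ℓ.xr (1 / 4))
  b2 : pc ℓ.C.L (ℓ.lr (1 / 4))
  b3 : sd ℓ.C.s (ℓ.xr (1 / 4) - ℓ.lr (1 / 4))
  c1 : pc ℓ.C'.X (ℓ.xr (-(1 / 4)))
  c2 : pc ℓ.C'.L (ℓ.lr (-(1 / 4)))
  c3 : sd ℓ.C'.s (ℓ.xr (-(1 / 4)) - ℓ.lr (-(1 / 4)))
  n1 : coneS ℓ.n ℓ.D ℓ.D' ℓ.E1 ℓ.E2
  n2 : coneS ℓ.n' (-ℓ.D) (-ℓ.D') (-ℓ.E1) (-ℓ.E2)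

variable {ℓ}

theorem den_pos {γ δ : ℝ} (h1 : δ + γ / 4 ≠ 0) (h2 : δ - γ / 4 ≠ 0) {t : ℂ}
    (ht : t.re ^ 2 + t.im ^ 2 = 1 / 16) : 0 < (γ * t.re + δ) ^ 2 + (γ * t.im) ^ 2 := by
  have e : (γ * t.re + δ) ^ 2 + (γ * t.im) ^ 2 =
      (1 / 2 + 2 * t.re) * (δ + γ / 4) ^ 2 + (1 / 2 - 2 * t.re) * (δ - γ / 4) ^ 2 := by
    have : (γ * t.re + δ) ^ 2 + (γ * t.im) ^ 2 =
      γ ^ 2 * (t.re ^ 2 + t.im ^ 2) + 2 * γ * δ * t.re + δ ^ 2 := by ring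
    rw [this, ht]; ring
  have a1 : 0 < (δ + γ / 4) ^ 2 := by positivity
  have a2 : 0 < (δ - γ / 4) ^ 2 := by positivity
  have b1 : -(1 / 4) ≤ t.re := by nlinarith [sq_nonneg t.im]
  have b2 : t.re ≤ 1 / 4 := by nlinarith [sq_nonneg t.im]
  rw [e]
  rcases le_or_gt t.re 0 with h | h
  · have h3 : 0 < (1 / 2 - 2 * t.re) * (δ - γ / 4) ^ 2 := mul_pos (by linarith) a2
    have h4 : 0 ≤ (1 / 2 + 2 * t.re) * (δ + γ / 4) ^ 2 := mul_nonneg (by linarith) a1.le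
    linarith
  · have h3 : 0 < (1 / 2 + 2 * t.re) * (δ + γ / 4) ^ 2 := mul_pos (by linarith) a1
    have h4 : 0 ≤ (1 / 2 - 2 * t.re) * (δ - γ / 4) ^ 2 := mul_nonneg (by linarith) a2.le
    linarith

/-- the main formulas on the circle: `Im x = D Im t / N`, `Im λ = D' Im t / N'`,
`Im x - Im λ = Im t (w₊ E1 + w₋ E2) / (N N')` -/
theorem formulas (h : ℓ.Ok) {t : ℂ} (ht : t.re ^ 2 + t.im ^ 2 = 1 / 16) :
    ∃ N N' w1 w2 : ℝ, 0 < N ∧ 0 < N' ∧ 0 ≤ w1 ∧ 0 ≤ w2 ∧ w1 + w2 = 1 ∧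
      (ℓ.x t).im = ℓ.D * t.im / N ∧ (ℓ.l t).im = ℓ.D' * t.im / N' ∧
      (ℓ.x t).im - (ℓ.l t).im = t.im * (w1 * ℓ.E1 + w2 * ℓ.E2) / (N * N') := by
  have b1 : -(1 / 4) ≤ t.re := by nlinarith [sq_nonneg t.im]
  have b2 : t.re ≤ 1 / 4 := by nlinarith [sq_nonneg t.im]
  have N0 := den_pos h.p1 h.p2 ht
  have N0' := den_pos h.p3 h.p4 ht
  refine ⟨_, _, 1 / 2 + 2 * t.re, 1 / 2 - 2 * t.re, N0, N0', by linarith, by linarith, by ring,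
    im_mob _ _ _ _ _, im_mob _ _ _ _ _, ?_⟩
  have e1 : (ℓ.γ * t.re + ℓ.δ) ^ 2 + (ℓ.γ * t.im) ^ 2 =
      (1 / 2 + 2 * t.re) * (ℓ.δ + ℓ.γ / 4) ^ 2 + (1 / 2 - 2 * t.re) * (ℓ.δ - ℓ.γ / 4) ^ 2 := by
    have : (ℓ.γ * t.re + ℓ.δ) ^ 2 + (ℓ.γ * t.im) ^ 2 =
      ℓ.γ ^ 2 * (t.re ^ 2 + t.im ^ 2) + 2 * ℓ.γ * ℓ.δ * t.re + ℓ.δ ^ 2 := by ring
    rw [this, ht]; ring
  have e2 : (ℓ.γ' * t.re + ℓ.δ') ^ 2 + (ℓ.γ' * t.im) ^ 2 =
      (1 / 2 + 2 * t.re) * (ℓ.δ' + ℓ.γ' / 4) ^ 2 +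
        (1 / 2 - 2 * t.re) * (ℓ.δ' - ℓ.γ' / 4) ^ 2 := by
    have : (ℓ.γ' * t.re + ℓ.δ') ^ 2 + (ℓ.γ' * t.im) ^ 2 =
      ℓ.γ' ^ 2 * (t.re ^ 2 + t.im ^ 2) + 2 * ℓ.γ' * ℓ.δ' * t.re + ℓ.δ' ^ 2 := by ring
    rw [this, ht]; ring
  have x1 : (ℓ.x t).im = ℓ.D * t.im / ((ℓ.γ * t.re + ℓ.δ) ^ 2 + (ℓ.γ * t.im) ^ 2) :=
    im_mob _ _ _ _ _
  have l1 : (ℓ.l t).im = ℓ.D' * t.im / ((ℓ.γ' * t.re + ℓ.δ') ^ 2 + (ℓ.γ' * t.im) ^ 2) :=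
    im_mob _ _ _ _ _
  rw [x1, l1, div_sub_div _ _ N0.ne' N0'.ne']
  congr 1
  rw [e1, e2]
  simp only [E1, E2]
  ring

theorem re_const {α β γ δ : ℝ} (h1 : α = 0) (h2 : γ = 0) (t : ℂ) :
    (mob α β γ δ t).re = β / δ := by
  subst h1 h2
  unfold mob
  simp only [Complex.ofReal_zero, zero_mul, zero_add]
  rw [← Complex.ofReal_div, Complex.ofReal_re]

/-- nonreal points of the circle lie in both charts -/
theorem mem_of_im (h : ℓ.Ok) {t : ℂ} (ht : t.re ^ 2 + t.im ^ 2 = 1 / 16) (h0 : t.im ≠ 0) :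
    (ℓ.x t, ℓ.l t) ∈ ℓ.C.A ∧ (ℓ.x t, ℓ.l t) ∈ ℓ.C'.A := by
  obtain ⟨N, N', w1, w2, hN, hN', hw1, hw2, hw, e1, e2, e3⟩ := formulas h ht
  have k1 : (ℓ.x t).im = 0 → pc ℓ.C.X (ℓ.x t).re ∧ pc ℓ.C'.X (ℓ.x t).re := by
    intro h1
    rcases h.hx with h2 | ⟨h2, h3, h4, h5⟩
    · exfalso
      rw [e1, div_eq_zero_iff] at h1
      rcases h1 with h1 | h1
      · exact (mul_ne_zero h2 h0) h1
      · exact hN.ne' h1
    · have : (ℓ.x t).re = ℓ.β / ℓ.δ := re_const h2 h3 t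
      rw [this]; exact ⟨h4, h5⟩
  have k2 : (ℓ.l t).im = 0 → pc ℓ.C.L (ℓ.l t).re ∧ pc ℓ.C'.L (ℓ.l t).re := by
    intro h1
    rcases h.hl with h2 | ⟨h2, h3, h4, h5⟩
    · exfalso
      rw [e2, div_eq_zero_iff] at h1
      rcases h1 with h1 | h1
      · exact (mul_ne_zero h2 h0) h1
      · exact hN'.ne' h1
    · have : (ℓ.l t).re = ℓ.β' / ℓ.δ' := re_const h2 h3 t
      rw [this]; exact ⟨h4, h5⟩
  have k3 : (ℓ.x t).im ≠ (ℓ.l t).im := by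
    intro h1
    rw [h1, sub_self] at e3
    have h2 : t.im * (w1 * ℓ.E1 + w2 * ℓ.E2) ≠ 0 := by
      apply mul_ne_zero h0
      rcases h.hd with ⟨a, b⟩ | ⟨a, b⟩
      · have : 0 < w1 * ℓ.E1 + w2 * ℓ.E2 := by
          rcases eq_or_lt_of_le hw1 with h5 | h5
          · have : w2 = 1 := by linarith
            rw [← h5, this]; linarith
          · have := mul_pos h5 a
            have := mul_nonneg hw2 b.le
            linarith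
        exact this.ne'
      · have : w1 * ℓ.E1 + w2 * ℓ.E2 < 0 := by
          rcases eq_or_lt_of_le hw1 with h5 | h5
          · have : w2 = 1 := by linarith
            rw [← h5, this]; linarith
          · have := mul_neg_of_pos_of_neg h5 a
            have := mul_nonpos_of_nonneg_of_nonpos hw2 b.le
            linarith
        exact this.ne
    exact (div_ne_zero h2 (mul_pos hN hN').ne') e3.symm
  exact ⟨⟨fun h1 => (k1 h1).1, fun h1 => (k2 h1).1, fun h1 => absurd h1 k3⟩,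
    ⟨fun h1 => (k1 h1).2, fun h1 => (k2 h1).2, fun h1 => absurd h1 k3⟩⟩

theorem cone_of {n : Fin 6} {D D' E1 E2 N N' w1 w2 s a b : ℝ} (h : coneS n D D' E1 E2)
    (hs : 0 ≤ s) (hN : 0 < N) (hN' : 0 < N') (hw1 : 0 ≤ w1) (hw2 : 0 ≤ w2)
    (ea : a = D * s / N) (eb : b = D' * s / N')
    (eab : a - b = s * (w1 * E1 + w2 * E2) / (N * N')) : cone n a b := by
  have a1 : 0 ≤ D → 0 ≤ a := fun h => by rw [ea]; positivity
  have a2 : D ≤ 0 → a ≤ 0 := fun h => by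
    rw [ea]; exact div_nonpos_of_nonpos_of_nonneg (mul_nonpos_of_nonpos_of_nonneg h hs) hN.le
  have b1 : 0 ≤ D' → 0 ≤ b := fun h => by rw [eb]; positivity
  have b2 : D' ≤ 0 → b ≤ 0 := fun h => by
    rw [eb]; exact div_nonpos_of_nonpos_of_nonneg (mul_nonpos_of_nonpos_of_nonneg h hs) hN'.le
  have c1 : 0 ≤ E1 ∧ 0 ≤ E2 → b ≤ a := fun h => by
    have : 0 ≤ a - b := by
      rw [eab]
      have := h.1
      have := h.2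
      positivity
    linarith
  have c2 : E1 ≤ 0 ∧ E2 ≤ 0 → a ≤ b := fun h => by
    have : a - b ≤ 0 := by
      rw [eab]
      apply div_nonpos_of_nonpos_of_nonneg _ (by positivity)
      apply mul_nonpos_of_nonneg_of_nonpos hs
      have := mul_nonpos_of_nonneg_of_nonpos hw1 h.1
      have := mul_nonpos_of_nonneg_of_nonpos hw2 h.2
      linarith
    linarith
  fin_cases n
  · exact ⟨b1 h.1, c1 h.2⟩
  · exact ⟨a1 h.1, c2 h.2⟩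
  · exact ⟨a2 h.1, b1 h.2⟩
  · exact ⟨b2 h.1, a1 h.2⟩
  · exact ⟨c1 h.1, a2 h.2⟩
  · exact ⟨c2 h.1, b2 h.2⟩

theorem cone_up (h : ℓ.Ok) {t : ℂ} (ht : t.re ^ 2 + t.im ^ 2 = 1 / 16) (h0 : 0 ≤ t.im) :
    cone ℓ.n (ℓ.x t).im (ℓ.l t).im := by
  obtain ⟨N, N', w1, w2, hN, hN', hw1, hw2, hw, e1, e2, e3⟩ := formulas h ht
  exact cone_of h.n1 h0 hN hN' hw1 hw2 e1 e2 e3

theorem cone_lo (h : ℓ.Ok) {t : ℂ} (ht : t.re ^ 2 + t.im ^ 2 = 1 / 16) (h0 : t.im ≤ 0) :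
    cone ℓ.n' (ℓ.x t).im (ℓ.l t).im := by
  obtain ⟨N, N', w1, w2, hN, hN', hw1, hw2, hw, e1, e2, e3⟩ := formulas h ht
  refine cone_of (s := -t.im) h.n2 (by linarith) hN hN' hw1 hw2 ?_ ?_ ?_
  · rw [e1]; ring
  · rw [e2]; ring
  · rw [e3]; ring

theorem mob_real (α β γ δ s : ℝ) : mob α β γ δ (s : ℂ) = (((α * s + β) / (γ * s + δ) : ℝ) : ℂ) := by
  unfold mob
  push_cast
  rfl

theorem mem_base (h : ℓ.Ok) : (ℓ.x ((1 / 4 : ℝ) : ℂ), ℓ.l ((1 / 4 : ℝ) : ℂ)) ∈ ℓ.C.A := by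
  have e1 : ℓ.x ((1 / 4 : ℝ) : ℂ) = ((ℓ.xr (1 / 4) : ℝ) : ℂ) := mob_real _ _ _ _ _
  have e2 : ℓ.l ((1 / 4 : ℝ) : ℂ) = ((ℓ.lr (1 / 4) : ℝ) : ℂ) := mob_real _ _ _ _ _
  rw [e1, e2]
  refine ⟨fun _ => ?_, fun _ => ?_, fun _ => ?_⟩
  · simpa using h.b1
  · simpa using h.b2
  · simpa using h.b3

theorem mem_neg (h : ℓ.Ok) : (ℓ.x ((-(1 / 4) : ℝ) : ℂ), ℓ.l ((-(1 / 4) : ℝ) : ℂ)) ∈ ℓ.C'.A := by
  have e1 : ℓ.x ((-(1 / 4) : ℝ) : ℂ) = ((ℓ.xr (-(1 / 4)) : ℝ) : ℂ) := mob_real _ _ _ _ _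
  have e2 : ℓ.l ((-(1 / 4) : ℝ) : ℂ) = ((ℓ.lr (-(1 / 4)) : ℝ) : ℂ) := mob_real _ _ _ _ _
  rw [e1, e2]
  refine ⟨fun _ => ?_, fun _ => ?_, fun _ => ?_⟩
  · simpa using h.c1
  · simpa using h.c2
  · simpa using h.c3

/-- the monodromy word of the loop -/
def word {G : Type*} [Group G] (r : Arr G) (ℓ : Loop) : G :=
  r.k ℓ.C ℓ.n' * (r.k ℓ.C' ℓ.n')⁻¹ * r.k ℓ.C' ℓ.n * (r.k ℓ.C ℓ.n)⁻¹

/-- the circle -/
noncomputable def cir (θ : ℝ) : ℂ := (1 / 4) * Complex.exp (θ * Complex.I)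

theorem cir_eq (θ : ℝ) :
    cir θ = ((Real.cos θ / 4 : ℝ) : ℂ) + ((Real.sin θ / 4 : ℝ) : ℂ) * Complex.I := by
  unfold cir
  rw [Complex.exp_mul_I]
  push_cast
  ring

theorem cir_re (θ : ℝ) : (cir θ).re = Real.cos θ / 4 := by
  rw [cir_eq]
  simp only [Complex.add_re, Complex.mul_re, Complex.ofReal_re, Complex.ofReal_im, Complex.I_re,
    Complex.I_im, mul_zero, zero_mul, sub_zero, add_zero]

theorem cir_im (θ : ℝ) : (cir θ).im = Real.sin θ / 4 := by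
  rw [cir_eq]
  simp only [Complex.add_im, Complex.mul_im, Complex.ofReal_re, Complex.ofReal_im, Complex.I_re,
    Complex.I_im, mul_zero, mul_one, zero_mul, zero_add, add_zero]

theorem cir_sq (θ : ℝ) : (cir θ).re ^ 2 + (cir θ).im ^ 2 = 1 / 16 := by
  rw [cir_re, cir_im]
  have := Real.sin_sq_add_cos_sq θ
  nlinarith

theorem cir_zero : cir 0 = ((1 / 4 : ℝ) : ℂ) := by
  unfold cir; simp

theorem cir_pi : cir Real.pi = ((-(1 / 4) : ℝ) : ℂ) := by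
  unfold cir; rw [Complex.exp_pi_mul_I]; push_cast; ring

theorem cir_two_pi : cir (2 * Real.pi) = ((1 / 4 : ℝ) : ℂ) := by
  unfold cir; push_cast; rw [Complex.exp_two_pi_mul_I]; push_cast; ring

variable {G : Type*} [Group G] (r : Arr G)
  {S : Type*} [MulAction G S] [TopologicalSpace S] [DiscreteTopology S]

/-- **The turn.**  Along a lift of the circle the coordinate in the base chart is multiplied by the
monodromy word. -/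
theorem turn (h : ℓ.Ok) {f : ℝ → r.Tot S} (hf : Continuous f)
    (hpr : ∀ θ : ℝ, ((r.pr (f θ) : Arr.UT) : ℂ × ℂ) = (ℓ.x (cir θ), ℓ.l (cir θ))) :
    r.crd ℓ.C (f (2 * Real.pi)) = word r ℓ • r.crd ℓ.C (f 0) := by
  have hpi := Real.pi_pos
  -- the three arcs
  have m0 : ∀ θ ∈ Ico 0 Real.pi, ((r.pr (f θ) : Arr.UT) : ℂ × ℂ) ∈ ℓ.C.A := by
    rintro θ ⟨h1, h2⟩
    rw [hpr]
    rcases eq_or_lt_of_le h1 with h3 | h3
    · rw [← h3, cir_zero]; exact mem_base h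
    · refine (mem_of_im h (cir_sq θ) ?_).1
      rw [cir_im]
      have := Real.sin_pos_of_pos_of_lt_pi h3 h2
      positivity
  have m1 : ∀ θ ∈ Ioo 0 (2 * Real.pi), ((r.pr (f θ) : Arr.UT) : ℂ × ℂ) ∈ ℓ.C'.A := by
    rintro θ ⟨h1, h2⟩
    rw [hpr]
    rcases lt_trichotomy θ Real.pi with h3 | h3 | h3
    · refine (mem_of_im h (cir_sq θ) ?_).2
      rw [cir_im]
      have := Real.sin_pos_of_pos_of_lt_pi h1 h3
      positivity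
    · rw [h3, cir_pi]; exact mem_neg h
    · refine (mem_of_im h (cir_sq θ) ?_).2
      rw [cir_im]
      have h4 : Real.sin θ = - Real.sin (θ - Real.pi) := by rw [Real.sin_sub_pi]; ring
      have := Real.sin_pos_of_pos_of_lt_pi (x := θ - Real.pi) (by linarith) (by linarith)
      rw [h4]
      have : - Real.sin (θ - Real.pi) / 4 < 0 := by linarith
      exact this.ne
  have m2 : ∀ θ ∈ Ioc Real.pi (2 * Real.pi), ((r.pr (f θ) : Arr.UT) : ℂ × ℂ) ∈ ℓ.C.A := by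
    rintro θ ⟨h1, h2⟩
    rw [hpr]
    rcases eq_or_lt_of_le h2 with h3 | h3
    · rw [h3, cir_two_pi]; exact mem_base h
    · refine (mem_of_im h (cir_sq θ) ?_).1
      rw [cir_im]
      have h4 : Real.sin θ = - Real.sin (θ - Real.pi) := by rw [Real.sin_sub_pi]; ring
      have := Real.sin_pos_of_pos_of_lt_pi (x := θ - Real.pi) (by linarith) (by linarith)
      rw [h4]
      have : - Real.sin (θ - Real.pi) / 4 < 0 := by linarith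
      exact this.ne
  -- the two crossing points
  have p0 : (0 : ℝ) ∈ Ico 0 Real.pi := ⟨le_rfl, hpi⟩
  have p1 : Real.pi / 2 ∈ Ico 0 Real.pi := ⟨by linarith, by linarith⟩
  have p1' : Real.pi / 2 ∈ Ioo 0 (2 * Real.pi) := ⟨by linarith, by linarith⟩
  have p2' : 3 * Real.pi / 2 ∈ Ioo 0 (2 * Real.pi) := ⟨by linarith, by linarith⟩
  have p2 : 3 * Real.pi / 2 ∈ Ioc Real.pi (2 * Real.pi) := ⟨by linarith, by linarith⟩
  have p3 : 2 * Real.pi ∈ Ioc Real.pi (2 * Real.pi) := ⟨by linarith, le_rfl⟩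
  have q0 : r.crd ℓ.C (f (Real.pi / 2)) = r.crd ℓ.C (f 0) :=
    r.crd_const hf.continuousOn isPreconnected_Ico m0 p1 p0
  have q1 : r.crd ℓ.C' (f (3 * Real.pi / 2)) = r.crd ℓ.C' (f (Real.pi / 2)) :=
    r.crd_const hf.continuousOn isPreconnected_Ioo m1 p2' p1'
  have q2 : r.crd ℓ.C (f (2 * Real.pi)) = r.crd ℓ.C (f (3 * Real.pi / 2)) :=
    r.crd_const hf.continuousOn isPreconnected_Ioc m2 p3 p2
  have k1 : cone ℓ.n ((r.pr (f (Real.pi / 2)) : Arr.UT) : ℂ × ℂ).1.im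
      ((r.pr (f (Real.pi / 2)) : Arr.UT) : ℂ × ℂ).2.im := by
    rw [hpr]
    refine cone_up h (cir_sq _) ?_
    rw [cir_im, Real.sin_pi_div_two]; norm_num
  have k2 : cone ℓ.n' ((r.pr (f (3 * Real.pi / 2)) : Arr.UT) : ℂ × ℂ).1.im
      ((r.pr (f (3 * Real.pi / 2)) : Arr.UT) : ℂ × ℂ).2.im := by
    rw [hpr]
    refine cone_lo h (cir_sq _) ?_
    rw [cir_im]
    have h4 : Real.sin (3 * Real.pi / 2) = -1 := by
      have : 3 * Real.pi / 2 = Real.pi / 2 + Real.pi := by ring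
      rw [this, Real.sin_add_pi, Real.sin_pi_div_two]
    rw [h4]; norm_num
  have r1 := r.crd_change_frame (m0 _ p1) (m1 _ p1') k1
  have r2 := r.crd_change_frame (m1 _ p2') (m2 _ p2) k2
  rw [q2, r2, q1, r1, q0, ← mul_smul, word]
  congr 1
  group

end Loop

end Vale.Agent.P300.TOR
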