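import Vale.Agent.P300.TOR.Quad
import Vale.Agent.P300.TOR.Spec
import Vale.Agent.P300.TOR.Loops
import Vale.Agent.P300.H844.RegK

/-!
P300, block NODE: from the turns around the two branches of the sixteen nodes (`TurnU`, `TurnV`) to
the lifts `Spec.NodeLifts`, `Spec.NodeSpec`, and to `NODE.TorData`.
-/

open Set Topology Filter Complex

namespace Vale.Agent.P300.TOR

open Spec (kapE cham)

/-! ### the map `Rt → U` of a chart -/

/-- the map `Rt → U` of the chart `ν` -/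
noncomputable def phi (ν : Fin 16) : C(H142.Rt, Arr.UT) where
  toFun z := ⟨kapE ν (exp z.1.1, exp z.1.2), Spec.kapE_mem ν _ (Spec.exp_mem_W z.2)⟩
  continuous_toFun := by
    refine Continuous.subtype_mk ?_ _
    rw [continuous_iff_continuousAt]
    intro z
    have h1 : ContinuousAt (kapE ν) (exp z.1.1, exp z.1.2) :=
      (Spec.kapE_analyticAt ν _ (Spec.exp_mem_W z.2)).continuousAt
    have h2 : Continuous fun z : H142.Rt => ((exp z.1.1, exp z.1.2) : ℂ × ℂ) := by fun_prop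
    exact ContinuousAt.comp (g := kapE ν) h1 h2.continuousAt

theorem phi_coe (ν : Fin 16) (z : H142.Rt) :
    ((phi ν z : Arr.UT) : ℂ × ℂ) = kapE ν (exp z.1.1, exp z.1.2) := rfl

theorem exp_ofReal_pair (x y : ℝ) : ((exp (x : ℂ), exp (y : ℂ)) : ℂ × ℂ) =
    (((Real.exp x : ℝ) : ℂ), ((Real.exp y : ℝ) : ℂ)) := by
  rw [Complex.ofReal_exp, Complex.ofReal_exp]

theorem kapE_exp_mem (ν : Fin 16) {x y : ℝ} (hx : x < 0) (hy : y < 0) :
    kapE ν (exp (x : ℂ), exp (y : ℂ)) ∈ (cham ν).A := by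
  rw [exp_ofReal_pair]
  exact kapE_mem_cham ν (Real.exp_pos x) (by rwa [Real.exp_lt_one_iff]) (Real.exp_pos y)
    (by rwa [Real.exp_lt_one_iff])

/-- `log (1/4)` -/
noncomputable def lq : ℝ := Real.log (1 / 4)

theorem lq_neg : lq < 0 := Real.log_neg (by norm_num) (by norm_num)

theorem exp_lq : Real.exp lq = 1 / 4 := Real.exp_log (by norm_num)

theorem cexp_lq : exp (lq : ℂ) = ((1 / 4 : ℝ) : ℂ) := by
  rw [← Complex.ofReal_exp, exp_lq]

/-- the base point -/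
noncomputable def a0 : H142.Rt := ⟨((lq : ℂ), (lq : ℂ)), H844.mem_Rt (by simpa using lq_neg)
  (by simpa using lq_neg)⟩

theorem phi_a0 (ν : Fin 16) : ((phi ν a0 : Arr.UT) : ℂ × ℂ) ∈ (cham ν).A :=
  kapE_exp_mem ν lq_neg lq_neg

variable {G : Type} [Group G] (r : Arr G)

section

variable (S : Type) [MulAction G S] [TopologicalSpace S] [DiscreteTopology S]

open Classical in
/-- the lift over `Rt` -/
noncomputable def LF (ν : Fin 16) (z : ℂ × ℂ) (s : S) : r.Tot S :=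
  if h : z ∈ H142.Rt then r.lift (phi ν) a0 (phi_a0 ν) s ⟨z, h⟩ else r.pt Arr.C₁ (genU 0) s

theorem LF_pos (ν : Fin 16) {z : ℂ × ℂ} (h : z ∈ H142.Rt) (s : S) :
    LF r S ν z s = r.lift (phi ν) a0 (phi_a0 ν) s ⟨z, h⟩ := by
  unfold LF
  rw [dif_pos h]

theorem LF_cont (ν : Fin 16) (s : S) : ContinuousOn (fun z => LF r S ν z s) H142.Rt := by
  rw [continuousOn_iff_continuous_domRestrict]
  have : H142.Rt.domRestrict (fun z => LF r S ν z s) = r.lift (phi ν) a0 (phi_a0 ν) s := by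
    funext z
    exact LF_pos r S ν z.2 s
  rw [this]
  exact map_continuous _

theorem LF_pr (ν : Fin 16) (s : S) {z : ℂ × ℂ} (hz : z ∈ H142.Rt) :
    ((r.pr (LF r S ν z s) : Arr.UT) : ℂ × ℂ) = kapE ν (exp z.1, exp z.2) := by
  rw [LF_pos r S ν hz, r.lift_pr, phi_coe]

theorem LF_inj (ν : Fin 16) {z : ℂ × ℂ} (hz : z ∈ H142.Rt) :
    Function.Injective (LF r S ν z) := by
  intro s s' h
  rw [LF_pos r S ν hz, LF_pos r S ν hz] at h
  exact r.lift_injective (phi ν) a0 (phi_a0 ν) ⟨z, hz⟩ h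

theorem LF_surj (ν : Fin 16) {z : ℂ × ℂ} (hz : z ∈ H142.Rt) (y : r.Tot S)
    (hy : ((r.pr y : Arr.UT) : ℂ × ℂ) = kapE ν (exp z.1, exp z.2)) : ∃ s, LF r S ν z s = y := by
  obtain ⟨s, hs⟩ := r.lift_surjective (phi ν) a0 (phi_a0 ν) (a := ⟨z, hz⟩) (p := y)
    (Subtype.ext hy)
  exact ⟨s, by rw [LF_pos r S ν hz, hs]⟩

/-- the open negative real quadrant -/
def NQ : Set (ℂ × ℂ) := {z | (z.1.im = 0 ∧ z.1.re < 0) ∧ (z.2.im = 0 ∧ z.2.re < 0)}

theorem NQ_subset : NQ ⊆ H142.Rt := fun _ hz => H844.mem_Rt hz.1.2 hz.2.2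

theorem convex_NQ : Convex ℝ NQ := by
  rintro z ⟨⟨h1, h2⟩, h3, h4⟩ w ⟨⟨k1, k2⟩, k3, k4⟩ a b ha hb hab
  have key : ∀ s t : ℝ, s < 0 → t < 0 → a * s + b * t < 0 := by
    intro s t hs ht
    rcases eq_or_lt_of_le ha with h | h
    · have : b = 1 := by linarith
      rw [← h, this]; linarith
    · have := mul_neg_of_pos_of_neg h hs
      have := mul_nonpos_of_nonneg_of_nonpos hb ht.le
      linarith
  refine ⟨⟨?_, ?_⟩, ?_, ?_⟩
  · simp [h1, k1]
  · simpa using key _ _ h2 k2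
  · simp [h3, k3]
  · simpa using key _ _ h4 k4

theorem ofReal_pair_eq {z : ℂ × ℂ} (hz : z ∈ NQ) : z = (((z.1.re : ℝ) : ℂ), ((z.2.re : ℝ) : ℂ)) := by
  obtain ⟨⟨h1, -⟩, h3, -⟩ := hz
  refine Prod.ext (Complex.ext ?_ ?_) (Complex.ext ?_ ?_) <;> simp [h1, h3]

theorem LF_base (ν : Fin 16) (s : S) {x y : ℝ} (hx : x < 0) (hy : y < 0) :
    r.crd (cham ν) (LF r S ν ((x : ℂ), (y : ℂ)) s) = s := by
  have hm : ∀ z ∈ NQ, ((r.pr (LF r S ν z s) : Arr.UT) : ℂ × ℂ) ∈ (cham ν).A := by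
    intro z hz
    rw [LF_pr r S ν s (NQ_subset hz), ofReal_pair_eq hz]
    exact kapE_exp_mem ν hz.1.2 hz.2.2
  have h1 : (((x : ℂ), (y : ℂ)) : ℂ × ℂ) ∈ NQ := by simp [NQ, hx, hy]
  have h2 : (((lq : ℂ), (lq : ℂ)) : ℂ × ℂ) ∈ NQ := by simp [NQ, lq_neg]
  have h3 := r.crd_const (f := fun z => LF r S ν z s) ((LF_cont r S ν s).mono NQ_subset)
    convex_NQ.isPreconnected hm h1 h2
  rw [h3, LF_pos r S ν (NQ_subset h2)]
  exact r.lift_base (phi ν) a0 (phi_a0 ν) s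

/-- `crd` at the base point -/
theorem LF_a0 (ν : Fin 16) (s : S) : r.crd (cham ν) (LF r S ν a0 s) = s :=
  LF_base r S ν s lq_neg lq_neg

end

theorem LF_map {S S' : Type} [MulAction G S] [TopologicalSpace S] [DiscreteTopology S]
    [MulAction G S'] [TopologicalSpace S'] [DiscreteTopology S'] {φ : S → S'}
    (hφ : ∀ (g : G) (s : S), φ (g • s) = g • φ s) (ν : Fin 16) {z : ℂ × ℂ} (hz : z ∈ H142.Rt)
    (s : S) : r.map φ (LF r S ν z s) = LF r S' ν z (φ s) := by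
  rw [LF_pos r S ν hz, LF_pos r S' ν hz]
  exact r.map_lift (phi ν) a0 (phi_a0 ν) hφ s ⟨z, hz⟩

/-! ### the turns -/

/-- The turn around `u = 0` (`v = 1/4`) multiplies the coordinate by `a`. -/
def TurnU (ν : Fin 16) (a : G) : Prop :=
  ∀ (S : Type) [MulAction G S] [TopologicalSpace S] [DiscreteTopology S] (f : ℝ → r.Tot S),
    Continuous f →
    (∀ θ : ℝ, ((r.pr (f θ) : Arr.UT) : ℂ × ℂ) = kapE ν (Loop.cir θ, ((1 / 4 : ℝ) : ℂ))) →
    r.crd (cham ν) (f (2 * Real.pi)) = a • r.crd (cham ν) (f 0)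

/-- The turn around `v = 0` (`u = 1/4`) multiplies the coordinate by `b`. -/
def TurnV (ν : Fin 16) (b : G) : Prop :=
  ∀ (S : Type) [MulAction G S] [TopologicalSpace S] [DiscreteTopology S] (f : ℝ → r.Tot S),
    Continuous f →
    (∀ θ : ℝ, ((r.pr (f θ) : Arr.UT) : ℂ × ℂ) = kapE ν (((1 / 4 : ℝ) : ℂ), Loop.cir θ)) →
    r.crd (cham ν) (f (2 * Real.pi)) = b • r.crd (cham ν) (f 0)

theorem shift1_mem {z : ℂ × ℂ} (hz : z ∈ H142.Rt) : (z.1 + 2 * Real.pi * I, z.2) ∈ H142.Rt := by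
  show (exp (z.1 + 2 * Real.pi * I), exp z.2) ∈ H142.R
  rw [Complex.exp_periodic]
  exact hz

theorem shift2_mem {z : ℂ × ℂ} (hz : z ∈ H142.Rt) : (z.1, z.2 + 2 * Real.pi * I) ∈ H142.Rt := by
  show (exp z.1, exp (z.2 + 2 * Real.pi * I)) ∈ H142.R
  rw [Complex.exp_periodic]
  exact hz

theorem eq_of_eq_base {S : Type} [MulAction G S] [TopologicalSpace S] [DiscreteTopology S]
    {F F' : C(H142.Rt, r.Tot S)} {C : Ch} (h : ∀ z, r.pr (F z) = r.pr (F' z))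
    (hC : ((r.pr (F a0) : Arr.UT) : ℂ × ℂ) ∈ C.A) (hc : r.crd C (F a0) = r.crd C (F' a0)) :
    F = F' :=
  r.lift_eq_of_eq F F' h (r.ext_crd (h a0) hC hc)

theorem LF_u {ν : Fin 16} {a : G} (ha : TurnU r ν a) (S : Type) [MulAction G S]
    [TopologicalSpace S] [DiscreteTopology S] (s : S) {z : ℂ × ℂ} (hz : z ∈ H142.Rt) :
    LF r S ν (z.1 + 2 * Real.pi * I, z.2) s = LF r S ν z (a • s) := by
  let sh : C(H142.Rt, H142.Rt) := ⟨fun z => ⟨(z.1.1 + 2 * Real.pi * I, z.1.2), shift1_mem z.2⟩,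
    by fun_prop⟩
  let F : C(H142.Rt, r.Tot S) := (r.lift (phi ν) a0 (phi_a0 ν) s).comp sh
  let F' : C(H142.Rt, r.Tot S) := r.lift (phi ν) a0 (phi_a0 ν) (a • s)
  have hpr : ∀ z, r.pr (F z) = r.pr (F' z) := by
    intro z
    show r.pr (r.lift (phi ν) a0 (phi_a0 ν) s (sh z)) = r.pr (r.lift (phi ν) a0 (phi_a0 ν) _ z)
    rw [r.lift_pr, r.lift_pr]
    refine Subtype.ext ?_
    rw [phi_coe, phi_coe]
    show kapE ν (exp (z.1.1 + 2 * Real.pi * I), exp z.1.2) = _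
    rw [Complex.exp_periodic]
  -- the turn
  have hmem : ∀ θ : ℝ, (((lq : ℂ) + θ * I, (lq : ℂ)) : ℂ × ℂ) ∈ H142.Rt := fun θ =>
    H844.mem_Rt (by simpa using lq_neg) (by simpa using lq_neg)
  have hturn := ha S (fun θ => r.lift (phi ν) a0 (phi_a0 ν) s ⟨_, hmem θ⟩)
    (by
      refine (map_continuous _).comp ?_
      fun_prop)
    (by
      intro θ
      rw [r.lift_pr, phi_coe]
      show kapE ν (exp ((lq : ℂ) + θ * I), exp (lq : ℂ)) = _
      rw [Complex.exp_add, cexp_lq]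
      unfold Loop.cir
      norm_num)
  have e0 : (⟨_, hmem 0⟩ : H142.Rt) = a0 := Subtype.ext (by simp [a0])
  have e1 : (⟨_, hmem (2 * Real.pi)⟩ : H142.Rt) = sh a0 := Subtype.ext (by simp [a0, sh])
  simp only [e0, e1] at hturn
  rw [r.lift_base] at hturn
  have hFF : F = F' := by
    refine eq_of_eq_base r (C := cham ν) hpr ?_ ?_
    · rw [hpr]
      show ((r.pr (r.lift (phi ν) a0 (phi_a0 ν) (a • s) a0) : Arr.UT) : ℂ × ℂ) ∈ _
      rw [r.lift_pr]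
      exact phi_a0 ν
    · show r.crd (cham ν) (r.lift (phi ν) a0 (phi_a0 ν) s (sh a0)) =
        r.crd (cham ν) (r.lift (phi ν) a0 (phi_a0 ν) (a • s) a0)
      rw [hturn, r.lift_base]
  rw [LF_pos r S ν (shift1_mem hz), LF_pos r S ν hz]
  exact congrArg (fun F : C(H142.Rt, r.Tot S) => F ⟨z, hz⟩) hFF

theorem LF_v {ν : Fin 16} {b : G} (hb : TurnV r ν b) (S : Type) [MulAction G S]
    [TopologicalSpace S] [DiscreteTopology S] (s : S) {z : ℂ × ℂ} (hz : z ∈ H142.Rt) :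
    LF r S ν (z.1, z.2 + 2 * Real.pi * I) s = LF r S ν z (b • s) := by
  let sh : C(H142.Rt, H142.Rt) := ⟨fun z => ⟨(z.1.1, z.1.2 + 2 * Real.pi * I), shift2_mem z.2⟩,
    by fun_prop⟩
  let F : C(H142.Rt, r.Tot S) := (r.lift (phi ν) a0 (phi_a0 ν) s).comp sh
  let F' : C(H142.Rt, r.Tot S) := r.lift (phi ν) a0 (phi_a0 ν) (b • s)
  have hpr : ∀ z, r.pr (F z) = r.pr (F' z) := by
    intro z
    show r.pr (r.lift (phi ν) a0 (phi_a0 ν) s (sh z)) = r.pr (r.lift (phi ν) a0 (phi_a0 ν) _ z)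
    rw [r.lift_pr, r.lift_pr]
    refine Subtype.ext ?_
    rw [phi_coe, phi_coe]
    show kapE ν (exp z.1.1, exp (z.1.2 + 2 * Real.pi * I)) = _
    rw [Complex.exp_periodic]
  -- the turn
  have hmem : ∀ θ : ℝ, (((lq : ℂ), (lq : ℂ) + θ * I) : ℂ × ℂ) ∈ H142.Rt := fun θ =>
    H844.mem_Rt (by simpa using lq_neg) (by simpa using lq_neg)
  have hturn := hb S (fun θ => r.lift (phi ν) a0 (phi_a0 ν) s ⟨_, hmem θ⟩)
    (by
      refine (map_continuous _).comp ?_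
      fun_prop)
    (by
      intro θ
      rw [r.lift_pr, phi_coe]
      show kapE ν (exp (lq : ℂ), exp ((lq : ℂ) + θ * I)) = _
      rw [Complex.exp_add, cexp_lq]
      unfold Loop.cir
      norm_num)
  have e0 : (⟨_, hmem 0⟩ : H142.Rt) = a0 := Subtype.ext (by simp [a0])
  have e1 : (⟨_, hmem (2 * Real.pi)⟩ : H142.Rt) = sh a0 := Subtype.ext (by simp [a0, sh])
  simp only [e0, e1] at hturn
  rw [r.lift_base] at hturn
  have hFF : F = F' := by
    refine eq_of_eq_base r (C := cham ν) hpr ?_ ?_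
    · rw [hpr]
      show ((r.pr (r.lift (phi ν) a0 (phi_a0 ν) (b • s) a0) : Arr.UT) : ℂ × ℂ) ∈ _
      rw [r.lift_pr]
      exact phi_a0 ν
    · show r.crd (cham ν) (r.lift (phi ν) a0 (phi_a0 ν) s (sh a0)) =
        r.crd (cham ν) (r.lift (phi ν) a0 (phi_a0 ν) (b • s) a0)
      rw [hturn, r.lift_base]
  rw [LF_pos r S ν (shift2_mem hz), LF_pos r S ν hz]
  exact congrArg (fun F : C(H142.Rt, r.Tot S) => F ⟨z, hz⟩) hFF

/-- **The lifts of a chart from its two turns.** -/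
noncomputable def nodeLifts {ν : Fin 16} {a b : G} (ha : TurnU r ν a) (hb : TurnV r ν b) :
    Spec.NodeLifts r (kapE ν) (cham ν) a b where
  L := fun S _ _ _ z s => LF r S ν z s
  cont := fun S _ _ _ s => LF_cont r S ν s
  pr := fun S _ _ _ s _ hz => LF_pr r S ν s hz
  inj := fun S _ _ _ _ hz => LF_inj r S ν hz
  surj := fun S _ _ _ _ hz y hy => LF_surj r S ν hz y hy
  u := fun S _ _ _ s _ hz => LF_u r ha S s hz
  v := fun S _ _ _ s _ hz => LF_v r hb S s hz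
  map := fun _ _ _ _ _ _ _ _ _ hφ _ hz s => LF_map r hφ ν hz s
  base := fun S _ _ _ s _ _ hx hy => ⟨kapE_exp_mem ν hx hy, LF_base r S ν s hx hy⟩

/-- All the turns. -/
def Turns : Prop :=
  ∀ ν : Fin 16, TurnU r ν ((Spec.toA r).wa ν) ∧ TurnV r ν ((Spec.toA r).wb ν)

theorem nodeSpec (h : Turns r) : Spec.NodeSpec r := fun ν => ⟨nodeLifts r (h ν).1 (h ν).2⟩

end Vale.Agent.P300.TOR
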