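import Vale.Agent.P300.TOR.Tables

/-!
P300, block NODE: the real quadrants `0 < u, v < 1` of the sixteen charts lie in their chambers.
-/

set_option linter.all false

open Set Topology Filter

namespace Vale.Agent.P300.NODE

open Vale.Agent.P300.TOR

/-- the base chambers -/
def cham : Fin 16 → TOR.Ch
  | 0 | 1 | 2 | 3 | 4 => ⟨1, 2, true, by decide, by decide⟩
  | 5 | 6 | 7 => ⟨1, 1, true, by decide, by decide⟩
  | 8 | 9 => ⟨1, 1, false, by decide, by decide⟩
  | 10 | 11 => ⟨2, 2, true, by decide, by decide⟩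
  | 12 | 13 => ⟨2, 2, false, by decide, by decide⟩
  | 14 => ⟨2, 1, false, by decide, by decide⟩
  | _ => ⟨1, 1, true, by decide, by decide⟩

theorem lpU_C (ν : Fin 16) : (lpU ν).C = cham ν := by
  fin_cases ν <;> rfl

theorem lpV_C (ν : Fin 16) : (lpV ν).C = cham ν := by
  fin_cases ν <;> rfl

theorem lpU_ok (ν : Fin 16) : (lpU ν).Ok := by
  fin_cases ν
  exacts [lU0_ok, lU1_ok, lU2_ok, lU3_ok, lU4_ok, lU5_ok, lU6_ok, lU7_ok, lU8_ok, lU9_ok, lU10_ok,
    lU11_ok, lU12_ok, lU13_ok, lU14_ok, lU15_ok]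

theorem lpV_ok (ν : Fin 16) : (lpV ν).Ok := by
  fin_cases ν
  exacts [lV0_ok, lV1_ok, lV2_ok, lV3_ok, lV4_ok, lV5_ok, lV6_ok, lV7_ok, lV8_ok, lV9_ok, lV10_ok,
    lV11_ok, lV12_ok, lV13_ok, lV14_ok, lV15_ok]

theorem lpU_kap (ν : Fin 16) (t : ℂ) : kap ν (t, 1 / 4) = ((lpU ν).x t, (lpU ν).l t) := by
  fin_cases ν
  exacts [lU0_kap t, lU1_kap t, lU2_kap t, lU3_kap t, lU4_kap t, lU5_kap t, lU6_kap t, lU7_kap t,
    lU8_kap t, lU9_kap t, lU10_kap t, lU11_kap t, lU12_kap t, lU13_kap t, lU14_kap t, lU15_kap t]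

theorem lpV_kap (ν : Fin 16) (t : ℂ) : kap ν (1 / 4, t) = ((lpV ν).x t, (lpV ν).l t) := by
  fin_cases ν
  exacts [lV0_kap t, lV1_kap t, lV2_kap t, lV3_kap t, lV4_kap t, lV5_kap t, lV6_kap t, lV7_kap t,
    lV8_kap t, lV9_kap t, lV10_kap t, lV11_kap t, lV12_kap t, lV13_kap t, lV14_kap t, lV15_kap t]

theorem mem_real {C : Ch} {z : ℂ × ℂ} {X Λ : ℝ} (hz : z = ((X : ℂ), (Λ : ℂ))) (h1 : pc C.X X)
    (h2 : pc C.L Λ) (h3 : sd C.s (X - Λ)) : z ∈ C.A := by
  subst hz
  exact ⟨fun _ => h1, fun _ => h2, fun _ => h3⟩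

/-- the real quadrant of a chart lies in its chamber -/
theorem kap_real (ν : Fin 16) {u v : ℝ} (hu : 0 < u) (hu1 : u < 1) (hv : 0 < v) (hv1 : v < 1) :
    kap ν (u, v) ∈ (cham ν).A := by
  have a : 0 < 1 - u := by linarith
  have b : 0 < 1 - v := by linarith
  have uv : 0 < u * v := mul_pos hu hv
  have uv1 : u * v < 1 := by nlinarith
  have c : 0 < 1 - u * v := by linarith
  have va : 0 < v * (1 - u) := mul_pos hv a
  have ub : 0 < u * (1 - v) := mul_pos hu b
  have bc : (1 - v) / (1 - u * v) < 1 := by rw [div_lt_one c]; nlinarith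
  have bc0 : 0 < (1 - v) / (1 - u * v) := div_pos b c
  have ac : (1 - u) / (1 - u * v) < 1 := by rw [div_lt_one c]; nlinarith
  have ac0 : 0 < (1 - u) / (1 - u * v) := div_pos a c
  have v1 : 1 < 1 / v := by rw [one_lt_div hv]; exact hv1
  have uv2 : 1 < 1 / (u * v) := by rw [one_lt_div uv]; exact uv1
  have cb : 1 < (1 - u * v) / (1 - v) := by rw [one_lt_div b]; nlinarith
  have ca : 1 < (1 - u * v) / (1 - u) := by rw [one_lt_div a]; nlinarith
  have cva : 1 < (1 - u * v) / (v * (1 - u)) := by rw [one_lt_div va]; nlinarith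
  have hc1 : 1 < 1 / (1 - u * v) := by rw [one_lt_div c]; linarith
  fin_cases ν
  · refine mem_real (X := (1 - u * v) / (1 - v)) (Λ := u) ?_ cb ⟨hu, hu1⟩ ?_
    · change H142.kap 0 _ = _
      simp only [H142.kap]; push_cast; rfl
    · show 0 < _; linarith
  · refine mem_real (X := 1 / v) (Λ := u) ?_ v1 ⟨hu, hu1⟩ ?_
    · change H142.kap 1 _ = _
      simp only [H142.kap]; push_cast; rfl
    · show 0 < _; linarith
  · refine mem_real (X := 1 / v) (Λ := (1 - u) / (1 - u * v)) ?_ v1 ⟨ac0, ac⟩ ?_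
    · change H142.kap 2 _ = _
      simp only [H142.kap]; push_cast; rfl
    · show 0 < _; linarith
  · refine mem_real (X := (1 - u * v) / (1 - v)) (Λ := 1 - u * v) ?_ cb ⟨c, by linarith⟩ ?_
    · change H142.kap 3 _ = _
      simp only [H142.kap]; push_cast; rfl
    · show 0 < _; linarith
  · refine mem_real (X := 1 / (1 - u * v)) (Λ := (1 - v) / (1 - u * v)) ?_ hc1 ⟨bc0, bc⟩ ?_
    · change H142.kap 4 _ = _
      simp only [H142.kap]; push_cast; rfl
    · show 0 < _; linarith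
  · refine mem_real (X := v) (Λ := u * v) ?_ ⟨hv, hv1⟩ ⟨uv, uv1⟩ ?_
    · change H142.kap 5 _ = _
      simp only [H142.kap]; push_cast; rfl
    · show 0 < _; linarith
  · have e : v * (1 - u) / (1 - u * v) < v := by
      rw [mul_div_assoc]; nlinarith
    refine mem_real (X := v) (Λ := v * (1 - u) / (1 - u * v)) ?_ ⟨hv, hv1⟩
      ⟨by positivity, by linarith⟩ ?_
    · change H142.kap 6 _ = _
      simp only [H142.kap]; push_cast; rfl
    · show 0 < _; linarith
  · have e : 1 - v < (1 - v) / (1 - u * v) := by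
      rw [lt_div_iff₀ c]; nlinarith [mul_pos b uv]
    refine mem_real (X := (1 - v) / (1 - u * v)) (Λ := 1 - v) ?_ ⟨bc0, bc⟩ ⟨b, by linarith⟩ ?_
    · change H142.kap 7 _ = _
      simp only [H142.kap]; push_cast; rfl
    · show 0 < _; linarith
  · have e : u * (1 - v) / (1 - u * v) < (1 - v) / (1 - u * v) := by
      rw [mul_div_assoc]; nlinarith
    have e0 : 0 < u * (1 - v) / (1 - u * v) := by positivity
    refine mem_real (X := u * (1 - v) / (1 - u * v)) (Λ := (1 - v) / (1 - u * v)) ?_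
      ⟨e0, by linarith⟩ ⟨bc0, bc⟩ ?_
    · change H142.kap 8 _ = _
      simp only [H142.kap]; push_cast; rfl
    · show _ < (0 : ℝ); linarith
  · refine mem_real (X := u * v) (Λ := v) ?_ ⟨uv, uv1⟩ ⟨hv, hv1⟩ ?_
    · change H142.kap 9 _ = _
      simp only [H142.kap]; push_cast; rfl
    · show _ < (0 : ℝ); linarith
  · have e : 1 / v < (1 - u * v) / (v * (1 - u)) := by
      rw [div_lt_div_iff₀ hv va]; nlinarith [mul_pos hv ub]
    refine mem_real (X := (1 - u * v) / (v * (1 - u))) (Λ := 1 / v) ?_ cva v1 ?_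
    · change H142.kap 10 _ = _
      simp only [H142.kap]; push_cast; rfl
    · show 0 < _; linarith
  · have e : 1 / v < 1 / (u * v) := by
      rw [div_lt_div_iff₀ hv uv]; nlinarith
    refine mem_real (X := 1 / (u * v)) (Λ := 1 / v) ?_ uv2 v1 ?_
    · change H142.kap 11 _ = _
      simp only [H142.kap]; push_cast; rfl
    · show 0 < _; linarith
  · have e : 1 / v < 1 / (u * v) := by
      rw [div_lt_div_iff₀ hv uv]; nlinarith
    refine mem_real (X := 1 / v) (Λ := 1 / (u * v)) ?_ v1 uv2 ?_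
    · change H142.kap 12 _ = _
      simp only [H142.kap]; push_cast; rfl
    · show _ < (0 : ℝ); linarith
  · have e : (1 - u * v) / (1 - u) < (1 - u * v) / (v * (1 - u)) := by
      rw [div_lt_div_iff₀ a va]; nlinarith [mul_pos (mul_pos c a) b]
    refine mem_real (X := (1 - u * v) / (1 - u)) (Λ := (1 - u * v) / (v * (1 - u))) ?_ ca cva ?_
    · change H142.kap 13 _ = _
      simp only [H142.kap]; push_cast; rfl
    · show _ < (0 : ℝ); linarith
  · refine mem_real (X := u) (Λ := 1 / v) ?_ ⟨hu, hu1⟩ v1 ?_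
    · change H142.kap 14 _ = _
      simp only [H142.kap]; push_cast; rfl
    · show _ < (0 : ℝ); linarith
  · have e : u * (1 - v) / (1 - u * v) < (1 - v) / (1 - u * v) := by
      rw [mul_div_assoc]; nlinarith
    have e0 : 0 < u * (1 - v) / (1 - u * v) := by positivity
    refine mem_real (X := (1 - v) / (1 - u * v)) (Λ := u * (1 - v) / (1 - u * v)) ?_
      ⟨bc0, bc⟩ ⟨e0, by linarith⟩ ?_
    · change H142.kapX _ = _
      simp only [H142.kapX]; push_cast; rfl
    · show 0 < _; linarith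

end Vale.Agent.P300.NODE
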