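import Vale.Agent.P300.TOR.Words
import Vale.Agent.P300.TOR.QuadN
import Vale.Agent.P300.TOR.Conn
import Vale.Agent.P300.H198.TorExt
import Vale.Agent.P300.Spec.Kap142

/-!
P300, block NODE: the lifts of the sixteen node charts over their logarithmic regions, and their
monodromies.
-/

set_option linter.all false

open Set Topology Filter

namespace Vale.Agent.P300.NODE

open Vale.Agent.P300.TOR
open Vale.Agent.P300.H844 (RT RR R0 Ray)

theorem kap_cases {P : (ℂ × ℂ → ℂ × ℂ) → Prop} (h : ∀ ν, P (H142.kap ν)) (hX : P H142.kapX)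
    (ν : Fin 16) : P (kap ν) := by
  by_cases hν : ν.1 < 15
  · have : kap ν = H142.kap ⟨ν.1, hν⟩ := by
      funext w
      unfold kap
      rw [dif_pos hν]
    rw [this]
    exact h _
  · have : kap ν = H142.kapX := by
      funext w
      unfold kap
      rw [dif_neg hν]
    rw [this]
    exact hX

theorem kap_mem (ν : Fin 16) {w : ℂ × ℂ} (hw : w ∈ H142.W) : kap ν w ∈ US :=
  kap_cases (P := fun κ => ∀ w ∈ H142.W, κ w ∈ US) (fun ν _ hw => Spec.kap_mem ν hw)
    (fun _ hw => Spec.kapX_mem hw) ν w hw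

theorem continuousOn_kap (ν : Fin 16) : ContinuousOn (kap ν) H142.W :=
  kap_cases (P := fun κ => ContinuousOn κ H142.W)
    (fun ν _ hw => (Spec.analyticAt_kap ν hw).continuousAt.continuousWithinAt)
    (fun _ hw => (Spec.analyticAt_kapX hw).continuousAt.continuousWithinAt) ν

theorem mem_Ray {z : ℂ} : z ∈ Ray ↔ ∃ t : ℝ, 1 ≤ t ∧ z = t := by
  constructor
  · rintro ⟨h1, h2⟩
    exact ⟨z.re, h1, Complex.ext (by simp) (by simpa using h2)⟩
  · rintro ⟨t, h, rfl⟩
    exact ⟨by simpa using h, by simp⟩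

theorem R_eq : H142.R = RR := by
  ext w
  simp only [H142.R, RR, mem_ofPred_eq, mem_Ray]
  constructor
  · intro h
    refine ⟨?_, ?_, ?_⟩
    · rintro ⟨t, ht, h1⟩; exact (h t ht).1 h1
    · rintro ⟨t, ht, h1⟩; exact (h t ht).2.1 h1
    · rintro ⟨t, ht, h1⟩; exact (h t ht).2.2 h1
  · rintro ⟨h1, h2, h3⟩ t ht
    exact ⟨fun h => h1 ⟨t, ht, h⟩, fun h => h2 ⟨t, ht, h⟩, fun h => h3 ⟨t, ht, h⟩⟩

theorem Rt_eq : H142.Rt = RT := by
  ext z
  show _ ∈ H142.R ↔ _ ∈ RR
  rw [R_eq]

theorem exp_mem {z : ℂ × ℂ} (hz : z ∈ RT) : (Complex.exp z.1, Complex.exp z.2) ∈ H142.W :=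
  Spec.exp_mem_W (by rw [Rt_eq]; exact hz)

theorem continuous_exp2 : Continuous fun z : RT =>
    (⟨(Complex.exp z.1.1, Complex.exp z.1.2), exp_mem z.2⟩ : H142.W) :=
  Continuous.subtype_mk (H844.continuous_ee.comp continuous_subtype_val) _

/-- the node chart on the logarithmic region -/
noncomputable def phi (ν : Fin 16) : C(RT, Arr.UT) where
  toFun z := ⟨kap ν (Complex.exp z.1.1, Complex.exp z.1.2), kap_mem ν (exp_mem z.2)⟩
  continuous_toFun := by
    refine Continuous.subtype_mk ?_ _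
    exact (continuousOn_iff_continuous_restrict.1 (continuousOn_kap ν)).comp continuous_exp2

theorem phi_coe (ν : Fin 16) (z : RT) :
    ((phi ν z : Arr.UT) : ℂ × ℂ) = kap ν (Complex.exp z.1.1, Complex.exp z.1.2) := rfl

theorem neg_mem_RT {x y : ℝ} (hx : x < 0) (hy : y < 0) : ((x : ℂ), (y : ℂ)) ∈ RT :=
  H844.mem_RT (by simpa using hx) (by simpa using hy)

/-- `log (1/4)` -/
noncomputable def lq : ℝ := Real.log (1 / 4)

theorem log_quarter_neg : lq < 0 := Real.log_neg (by norm_num) (by norm_num)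

/-- the base point of the logarithmic region -/
noncomputable def a0 : RT :=
  ⟨((lq : ℂ), (lq : ℂ)),
    neg_mem_RT log_quarter_neg log_quarter_neg⟩

theorem exp_log_quarter : Complex.exp (lq : ℂ) = 1 / 4 := by
  rw [← Complex.ofReal_exp, lq, Real.exp_log (by norm_num)]
  push_cast
  ring

theorem phi_real_mem (ν : Fin 16) {x y : ℝ} (hx : x < 0) (hy : y < 0) :
    kap ν (Complex.exp x, Complex.exp y) ∈ (cham ν).A := by
  have := kap_real ν (Real.exp_pos x) (Real.exp_lt_one_iff.2 hx) (Real.exp_pos y) (Real.exp_lt_one_iff.2 hy)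
  rwa [Complex.ofReal_exp, Complex.ofReal_exp] at this

theorem a0_mem (ν : Fin 16) : ((phi ν a0 : Arr.UT) : ℂ × ℂ) ∈ (cham ν).A :=
  phi_real_mem ν log_quarter_neg log_quarter_neg

section

variable {G : Type*} [Group G] (r : Arr G)
  {S : Type*} [MulAction G S] [TopologicalSpace S] [DiscreteTopology S]

/-- the lift of a node chart -/
noncomputable def lft (ν : Fin 16) (s : S) : C(RT, r.Tot S) := r.lift (phi ν) a0 (a0_mem ν) s

theorem lft_pr (ν : Fin 16) (s : S) (z : RT) : r.pr (lft r ν s z) = phi ν z :=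
  r.lift_pr _ _ _ _ _

/-- over the real quadrant the lift has the coordinate `s` -/
theorem lft_real (ν : Fin 16) (s : S) {x y : ℝ} (hx : x < 0) (hy : y < 0) :
    r.crd (cham ν) (lft r ν s ⟨((x : ℂ), (y : ℂ)), neg_mem_RT hx hy⟩) = s := by
  let f : ℝ × ℝ → RT := fun p => if h : p.1 < 0 ∧ p.2 < 0 then
    ⟨((p.1 : ℂ), (p.2 : ℂ)), neg_mem_RT h.1 h.2⟩ else a0
  have hf : ∀ {p : ℝ × ℝ} (h : p ∈ Iio (0 : ℝ) ×ˢ Iio (0 : ℝ)), f p =
      ⟨((p.1 : ℂ), (p.2 : ℂ)), neg_mem_RT h.1 h.2⟩ := fun {p} h => by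
    show dite _ _ _ = _
    rw [dif_pos (show p.1 < 0 ∧ p.2 < 0 from h)]
  have hc : ContinuousOn f (Iio (0 : ℝ) ×ˢ Iio (0 : ℝ)) := by
    rw [continuousOn_iff_continuous_restrict]
    have : (Iio (0 : ℝ) ×ˢ Iio (0 : ℝ)).domRestrict f = fun p =>
        (⟨((p.1.1 : ℂ), (p.1.2 : ℂ)), neg_mem_RT p.2.1 p.2.2⟩ : RT) := by
      funext p
      exact hf p.2
    rw [this]
    refine Continuous.subtype_mk ?_ _
    exact (Complex.continuous_ofReal.comp (continuous_fst.comp continuous_subtype_val)).prodMk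
      (Complex.continuous_ofReal.comp (continuous_snd.comp continuous_subtype_val))
  have hp : IsPreconnected (Iio (0 : ℝ) ×ˢ Iio (0 : ℝ)) :=
    isPreconnected_Iio.prod isPreconnected_Iio
  have h1 : ((x, y) : ℝ × ℝ) ∈ Iio (0 : ℝ) ×ˢ Iio (0 : ℝ) := ⟨hx, hy⟩
  have h2 : ((lq, lq) : ℝ × ℝ) ∈ Iio (0 : ℝ) ×ˢ Iio (0 : ℝ) :=
    ⟨log_quarter_neg, log_quarter_neg⟩
  have h3 := r.crd_const (f := fun p => lft r ν s (f p)) (C := cham ν)
    ((lft r ν s).continuous.comp_continuousOn hc) hp (fun p hp => by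
      rw [lft_pr, hf hp]
      exact phi_real_mem ν hp.1 hp.2) h1 h2
  have e1 : f (x, y) = ⟨((x : ℂ), (y : ℂ)), neg_mem_RT hx hy⟩ := hf h1
  have e2 : f (lq, lq) = a0 := hf h2
  simp only [e1, e2] at h3
  rw [h3]
  exact r.lift_base _ _ _ _

/-- two lifts with the same coordinate at the base point agree -/
theorem eq_lft (ν : Fin 16) (F : C(RT, r.Tot S)) (hF : ∀ a, r.pr (F a) = phi ν a) :
    F = lft r ν (r.crd (cham ν) (F a0)) :=
  r.lift_unique (phi ν) a0 (a0_mem ν) F hF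

theorem tr_mem_u (z : RT) : (z.1.1 + 2 * Real.pi * Complex.I, z.1.2) ∈ RT := by
  have := z.2
  show (Complex.exp _, _) ∈ RR
  rw [Complex.exp_add, Complex.exp_two_pi_mul_I, mul_one]
  exact this

theorem tr_mem_v (z : RT) : (z.1.1, z.1.2 + 2 * Real.pi * Complex.I) ∈ RT := by
  have := z.2
  show (_, Complex.exp _) ∈ RR
  rw [Complex.exp_add, Complex.exp_two_pi_mul_I, mul_one]
  exact this

/-- the shift in the first variable -/
noncomputable def shU : C(RT, RT) where
  toFun z := ⟨(z.1.1 + 2 * Real.pi * Complex.I, z.1.2), tr_mem_u z⟩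
  continuous_toFun := by
    refine Continuous.subtype_mk ?_ _
    exact ((continuous_fst.comp continuous_subtype_val).add continuous_const).prodMk
      (continuous_snd.comp continuous_subtype_val)

/-- the shift in the second variable -/
noncomputable def shV : C(RT, RT) where
  toFun z := ⟨(z.1.1, z.1.2 + 2 * Real.pi * Complex.I), tr_mem_v z⟩
  continuous_toFun := by
    refine Continuous.subtype_mk ?_ _
    exact (continuous_fst.comp continuous_subtype_val).prodMk
      ((continuous_snd.comp continuous_subtype_val).add continuous_const)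

theorem phi_shU (ν : Fin 16) (z : RT) : phi ν (shU z) = phi ν z := by
  apply Subtype.ext
  show kap ν (Complex.exp (z.1.1 + 2 * Real.pi * Complex.I), Complex.exp z.1.2) = _
  rw [Complex.exp_add, Complex.exp_two_pi_mul_I, mul_one]
  rfl

theorem phi_shV (ν : Fin 16) (z : RT) : phi ν (shV z) = phi ν z := by
  apply Subtype.ext
  show kap ν (Complex.exp z.1.1, Complex.exp (z.1.2 + 2 * Real.pi * Complex.I)) = _
  rw [Complex.exp_add, Complex.exp_two_pi_mul_I, mul_one]
  rfl

/-- the circle upstairs -/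
noncomputable def cU (θ : ℝ) : RT :=
  ⟨((lq : ℂ) + θ * Complex.I, (lq : ℂ)),
    H844.mem_RT (by simpa using log_quarter_neg) (by simpa using log_quarter_neg)⟩

/-- the circle upstairs -/
noncomputable def cV (θ : ℝ) : RT :=
  ⟨((lq : ℂ), (lq : ℂ) + θ * Complex.I),
    H844.mem_RT (by simpa using log_quarter_neg) (by simpa using log_quarter_neg)⟩

theorem continuous_cU : Continuous cU := by
  refine Continuous.subtype_mk ?_ _
  fun_prop

theorem continuous_cV : Continuous cV := by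
  refine Continuous.subtype_mk ?_ _
  fun_prop

theorem exp_cir (θ : ℝ) :
    Complex.exp ((lq : ℂ) + θ * Complex.I) = Loop.cir θ := by
  rw [Complex.exp_add, exp_log_quarter]
  rfl

theorem phi_cU (ν : Fin 16) (θ : ℝ) : ((phi ν (cU θ) : Arr.UT) : ℂ × ℂ) =
    ((lpU ν).x (Loop.cir θ), (lpU ν).l (Loop.cir θ)) := by
  rw [← lpU_kap, phi_coe]
  show kap ν (Complex.exp ((lq : ℂ) + θ * Complex.I), Complex.exp (lq : ℂ)) = _
  rw [exp_cir, exp_log_quarter]

theorem phi_cV (ν : Fin 16) (θ : ℝ) : ((phi ν (cV θ) : Arr.UT) : ℂ × ℂ) =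
    ((lpV ν).x (Loop.cir θ), (lpV ν).l (Loop.cir θ)) := by
  rw [← lpV_kap, phi_coe]
  show kap ν (Complex.exp (lq : ℂ), Complex.exp ((lq : ℂ) + θ * Complex.I)) = _
  rw [exp_cir, exp_log_quarter]

theorem cU_zero : cU 0 = a0 := by
  apply Subtype.ext
  simp [cU, a0]

theorem cV_zero : cV 0 = a0 := by
  apply Subtype.ext
  simp [cV, a0]

theorem cU_two_pi : cU (2 * Real.pi) = shU a0 := by
  apply Subtype.ext
  simp [cU, a0, shU]

theorem cV_two_pi : cV (2 * Real.pi) = shV a0 := by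
  apply Subtype.ext
  simp [cV, a0, shV]

theorem lft_base (ν : Fin 16) (s : S) : r.crd (cham ν) (lft r ν s a0) = s :=
  r.lift_base _ _ _ _

theorem turnU (ν : Fin 16) (s : S) :
    r.crd (cham ν) (lft r ν s (shU a0)) = (lpU ν).word r • s := by
  have h := Loop.turn r (lpU_ok ν) (f := fun θ => lft r ν s (cU θ))
    ((lft r ν s).continuous.comp continuous_cU) (fun θ => by rw [lft_pr]; exact phi_cU ν θ)
  simp only [cU_two_pi, cU_zero, lpU_C] at h
  rw [h, lft_base]

theorem turnV (ν : Fin 16) (s : S) :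
    r.crd (cham ν) (lft r ν s (shV a0)) = (lpV ν).word r • s := by
  have h := Loop.turn r (lpV_ok ν) (f := fun θ => lft r ν s (cV θ))
    ((lft r ν s).continuous.comp continuous_cV) (fun θ => by rw [lft_pr]; exact phi_cV ν θ)
  simp only [cV_two_pi, cV_zero, lpV_C] at h
  rw [h, lft_base]

/-- **monodromy around `u = 0`** -/
theorem lft_shU (ν : Fin 16) (s : S) (z : RT) :
    lft r ν s (shU z) = lft r ν ((lpU ν).word r • s) z := by
  have h := eq_lft r ν ((lft r ν s).comp shU) (fun a => by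
    show r.pr (lft r ν s (shU a)) = _
    rw [lft_pr, phi_shU])
  have e : ((lft r ν s).comp shU) a0 = lft r ν s (shU a0) := rfl
  rw [e, turnU] at h
  exact congrArg (fun F : C(RT, r.Tot S) => F z) h

/-- **monodromy around `v = 0`** -/
theorem lft_shV (ν : Fin 16) (s : S) (z : RT) :
    lft r ν s (shV z) = lft r ν ((lpV ν).word r • s) z := by
  have h := eq_lft r ν ((lft r ν s).comp shV) (fun a => by
    show r.pr (lft r ν s (shV a)) = _
    rw [lft_pr, phi_shV])
  have e : ((lft r ν s).comp shV) a0 = lft r ν s (shV a0) := rfl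
  rw [e, turnV] at h
  exact congrArg (fun F : C(RT, r.Tot S) => F z) h

theorem lft_inj (ν : Fin 16) (z : RT) : Function.Injective fun s : S => lft r ν s z :=
  r.lift_injective _ _ _ z

theorem lft_surj (ν : Fin 16) {z : RT} {p : r.Tot S} (hp : r.pr p = phi ν z) :
    ∃ s : S, lft r ν s z = p :=
  r.lift_surjective _ _ _ hp

open Classical in
/-- the lift as a function on `ℂ × ℂ` -/
noncomputable def L (ν : Fin 16) (z : ℂ × ℂ) (s : S) : r.Tot S :=
  if h : z ∈ RT then lft r ν s ⟨z, h⟩ else lft r ν s a0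

theorem L_eq (ν : Fin 16) {z : ℂ × ℂ} (hz : z ∈ RT) (s : S) : L r ν z s = lft r ν s ⟨z, hz⟩ :=
  dif_pos hz

theorem L_cont (ν : Fin 16) (s : S) : ContinuousOn (fun z => L r ν z s) RT := by
  rw [continuousOn_iff_continuous_restrict]
  have : RT.domRestrict (fun z => L r ν z s) = lft r ν s := by
    funext z
    exact L_eq r ν z.2 s
  rw [this]
  exact map_continuous _

theorem L_pr (ν : Fin 16) (s : S) {z : ℂ × ℂ} (hz : z ∈ RT) :
    ((r.pr (L r ν z s) : Arr.UT) : ℂ × ℂ) = kap ν (Complex.exp z.1, Complex.exp z.2) := by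
  rw [L_eq r ν hz, lft_pr]
  rfl

theorem L_inj (ν : Fin 16) {z : ℂ × ℂ} (hz : z ∈ RT) :
    Function.Injective (L r ν z : S → r.Tot S) := by
  intro s s' h
  rw [L_eq r ν hz, L_eq r ν hz] at h
  exact lft_inj r ν ⟨z, hz⟩ h

theorem L_surj (ν : Fin 16) {z : ℂ × ℂ} (hz : z ∈ RT) {p : r.Tot S}
    (hp : ((r.pr p : Arr.UT) : ℂ × ℂ) = kap ν (Complex.exp z.1, Complex.exp z.2)) :
    ∃ s : S, L r ν z s = p := by
  obtain ⟨s, hs⟩ := lft_surj r ν (z := ⟨z, hz⟩) (p := p) (Subtype.ext hp)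
  exact ⟨s, by rw [L_eq r ν hz, hs]⟩

theorem L_u (ν : Fin 16) (s : S) {z : ℂ × ℂ} (hz : z ∈ RT) :
    L r ν (z.1 + 2 * Real.pi * Complex.I, z.2) s = L r ν z ((lpU ν).word r • s) := by
  rw [L_eq r ν hz, ← lft_shU, L_eq r ν (tr_mem_u ⟨z, hz⟩)]
  rfl

theorem L_v (ν : Fin 16) (s : S) {z : ℂ × ℂ} (hz : z ∈ RT) :
    L r ν (z.1, z.2 + 2 * Real.pi * Complex.I) s = L r ν z ((lpV ν).word r • s) := by
  rw [L_eq r ν hz, ← lft_shV, L_eq r ν (tr_mem_v ⟨z, hz⟩)]
  rfl

theorem L_map {S' : Type*} [MulAction G S'] [TopologicalSpace S'] [DiscreteTopology S']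
    {f : S → S'} (hf : ∀ (g : G) (s : S), f (g • s) = g • f s) (ν : Fin 16) (s : S)
    {z : ℂ × ℂ} (hz : z ∈ RT) : r.map f (L r ν z s) = L r ν z (f s) := by
  rw [L_eq r ν hz, L_eq r ν hz]
  exact r.map_lift _ _ _ hf s _

/-- over the real quadrant the lift has the coordinate `s` in the chart of the base chamber -/
theorem L_real (ν : Fin 16) (s : S) {x y : ℝ} (hx : x < 0) (hy : y < 0) :
    kap ν (Complex.exp x, Complex.exp y) ∈ (cham ν).A ∧
      r.crd (cham ν) (L r ν ((x : ℂ), (y : ℂ)) s) = s := by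
  refine ⟨phi_real_mem ν hx hy, ?_⟩
  rw [L_eq r ν (neg_mem_RT hx hy)]
  exact lft_real r ν s hx hy

/-- **General rule**: on a preconnected part of the logarithmic region which contains a point of
the real quadrant and is mapped into the chart `C` of the base chamber, the lift is the sheet
of `C` with the coordinate `s`. -/
theorem L_sheet (ν : Fin 16) (s : S) {D : Set (ℂ × ℂ)} (hD : IsPreconnected D) (hDR : D ⊆ RT)
    (hC : ∀ z ∈ D, kap ν (Complex.exp z.1, Complex.exp z.2) ∈ (cham ν).A) {x y : ℝ} (hx : x < 0)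
    (hy : y < 0) (h0 : ((x : ℂ), (y : ℂ)) ∈ D) {z : ℂ × ℂ} (hz : z ∈ D) :
    r.crd (cham ν) (L r ν z s) = s := by
  have h := r.crd_const (f := fun z => L r ν z s) (C := cham ν) ((L_cont r ν s).mono hDR) hD
    (fun z hz => by rw [L_pr r ν s (hDR hz)]; exact hC z hz) hz h0
  rw [h]
  exact (L_real r ν s hx hy).2

end

end Vale.Agent.P300.NODE
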