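import Vale.Agent.P300.TOR.TorVal
import Vale.Agent.P300.Spec.Geo

/-!
P300, block NODE: helper210's `NodeSpec r` for every `r`.
-/

namespace Vale.Agent.P300.NODE

open Vale.Agent.P300.TOR

theorem kapE_eq (ν : Fin 16) : Spec.kapE ν = kap ν := by
  funext w
  unfold Spec.kapE kap
  split_ifs <;> rfl

theorem cham_eq (ν : Fin 16) : Spec.cham ν = cham ν := by
  fin_cases ν <;> rfl

theorem word_u {G : Type} [Group G] (r : Arr G) (ν : Fin 16) :
    (lpU ν).word r = (Spec.toA r).wa ν := lpU_word (Spec.toA r) ν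

theorem word_v {G : Type} [Group G] (r : Arr G) (ν : Fin 16) :
    (lpV ν).word r = (Spec.toA r).wb ν := lpV_word (Spec.toA r) ν

/-- **NODE** in the form of `Spec/Geo.lean`. -/
theorem nodeSpec {G : Type} [Group G] (r : Arr G) : Spec.NodeSpec r := by
  intro ν
  rw [kapE_eq, cham_eq]
  exact ⟨{
    L := fun S _ _ _ z s => L r ν z s
    cont := fun S _ _ _ s => by rw [Rt_eq]; exact L_cont r ν s
    pr := fun S _ _ _ s z hz => L_pr r ν s (by rwa [← Rt_eq])
    inj := fun S _ _ _ z hz => L_inj r ν (by rwa [← Rt_eq])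
    surj := fun S _ _ _ z hz y hy => L_surj r ν (by rwa [← Rt_eq]) hy
    u := fun S _ _ _ s z hz => by
      rw [← word_u]
      exact L_u r ν s (by rwa [← Rt_eq])
    v := fun S _ _ _ s z hz => by
      rw [← word_v]
      exact L_v r ν s (by rwa [← Rt_eq])
    map := fun S S' _ _ _ _ _ _ φ hφ z hz s => L_map r hφ ν s (by rwa [← Rt_eq])
    base := fun S _ _ _ s x y hx hy => L_real r ν s hx hy }⟩

end Vale.Agent.P300.NODE
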