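import Vale.Agent.P300.Spec.Geo

/-!
P300, block NODE: the sixteen charts map the real square `(0,1)²` into their base chambers.
-/

set_option linter.all false

open Set Topology Filter

namespace Vale.Agent.P300.TOR

theorem mem_A_real {C : Ch} {x l : ℝ} (h1 : pc C.X x) (h2 : pc C.L l) (h3 : sd C.s (x - l)) :
    (((x : ℂ), (l : ℂ)) : ℂ × ℂ) ∈ C.A := by
  refine ⟨fun _ => ?_, fun _ => ?_, fun _ => ?_⟩
  · simpa using h1
  · simpa using h2
  · simpa using h3

/-- real version of the charts -/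
noncomputable def kapRe : Fin 16 → ℝ → ℝ → ℝ × ℝ
  | 0, u, v => ((1 - u * v) / (1 - v), u)
  | 1, u, v => (1 / v, u)
  | 2, u, v => (1 / v, (1 - u) / (1 - u * v))
  | 3, u, v => ((1 - u * v) / (1 - v), 1 - u * v)
  | 4, u, v => (1 / (1 - u * v), (1 - v) / (1 - u * v))
  | 5, u, v => (v, u * v)
  | 6, u, v => (v, v * (1 - u) / (1 - u * v))
  | 7, u, v => ((1 - v) / (1 - u * v), 1 - v)
  | 8, u, v => (u * (1 - v) / (1 - u * v), (1 - v) / (1 - u * v))
  | 9, u, v => (u * v, v)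
  | 10, u, v => ((1 - u * v) / (v * (1 - u)), 1 / v)
  | 11, u, v => (1 / (u * v), 1 / v)
  | 12, u, v => (1 / v, 1 / (u * v))
  | 13, u, v => ((1 - u * v) / (1 - u), (1 - u * v) / (v * (1 - u)))
  | 14, u, v => (u, 1 / v)
  | _, u, v => ((1 - v) / (1 - u * v), u * (1 - v) / (1 - u * v))

theorem kapE_real (ν : Fin 16) (u v : ℝ) : Spec.kapE ν (((u : ℂ), (v : ℂ)) : ℂ × ℂ) =
    ((((kapRe ν u v).1 : ℝ) : ℂ), (((kapRe ν u v).2 : ℝ) : ℂ)) := by
  fin_cases ν <;> simp [Spec.kapE, H142.kap, H142.kapX, kapRe]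

theorem kapRe_mem (ν : Fin 16) {u v : ℝ} (hu : 0 < u) (hu1 : u < 1) (hv : 0 < v) (hv1 : v < 1) :
    pc (Spec.cham ν).X (kapRe ν u v).1 ∧ pc (Spec.cham ν).L (kapRe ν u v).2 ∧
      sd (Spec.cham ν).s ((kapRe ν u v).1 - (kapRe ν u v).2) := by
  have p : 0 < 1 - u := by linarith
  have q : 0 < 1 - v := by linarith
  have uv : 0 < u * v := mul_pos hu hv
  have hup : u * v < v := by nlinarith
  have huq : u * v < u := by nlinarith
  have w : 0 < 1 - u * v := by linarith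
  have vp : 0 < v * (1 - u) := mul_pos hv p
  have uq : 0 < u * (1 - v) := mul_pos hu q
  have e1 : 1 < (1 - u * v) / (1 - v) := by rw [one_lt_div q]; linarith
  have e2 : 1 < 1 / v := by rw [one_lt_div hv]; exact hv1
  have e3 : 0 < (1 - u) / (1 - u * v) := div_pos p w
  have e3' : (1 - u) / (1 - u * v) < 1 := by rw [div_lt_one w]; linarith
  have e5 : 1 < 1 / (1 - u * v) := by rw [one_lt_div w]; linarith
  have e6 : 0 < (1 - v) / (1 - u * v) := div_pos q w
  have e6' : (1 - v) / (1 - u * v) < 1 := by rw [div_lt_one w]; linarith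
  have e7 : 0 < v * (1 - u) / (1 - u * v) := div_pos vp w
  have e7' : v * (1 - u) / (1 - u * v) < v := by rw [div_lt_iff₀ w]; nlinarith
  have e8 : 0 < u * (1 - v) / (1 - u * v) := div_pos uq w
  have e8' : u * (1 - v) / (1 - u * v) < (1 - v) / (1 - u * v) := by
    apply div_lt_div_of_pos_right _ w
    nlinarith
  have e9 : 1 / v < (1 - u * v) / (v * (1 - u)) := by
    rw [div_lt_div_iff₀ hv vp]
    nlinarith
  have e10 : 1 / v < 1 / (u * v) := one_div_lt_one_div_of_lt uv hup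
  have e11 : 1 < (1 - u * v) / (1 - u) := by rw [one_lt_div p]; linarith
  have e12 : 1 - v < (1 - v) / (1 - u * v) := by
    rw [lt_div_iff₀ w]
    nlinarith
  have e13 : (1 - u * v) / (1 - u) < (1 - u * v) / (v * (1 - u)) := by
    apply div_lt_div_of_pos_left w vp
    nlinarith
  fin_cases ν <;>
    simp only [Fin.zero_eta, Fin.mk_one, Fin.reduceFinMk, kapRe, Spec.cham, pc, sd, if_true,
      Bool.false_eq_true, if_false, Fin.isValue] <;>
    first
      | (refine ⟨?_, ⟨?_, ?_⟩, ?_⟩ <;> linarith)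
      | (refine ⟨⟨?_, ?_⟩, ⟨?_, ?_⟩, ?_⟩ <;> linarith)
      | (refine ⟨⟨?_, ?_⟩, ?_, ?_⟩ <;> linarith)
      | (refine ⟨?_, ?_, ?_⟩ <;> linarith)

theorem kapE_mem_cham (ν : Fin 16) {u v : ℝ} (hu : 0 < u) (hu1 : u < 1) (hv : 0 < v)
    (hv1 : v < 1) : Spec.kapE ν (((u : ℂ), (v : ℂ)) : ℂ × ℂ) ∈ (Spec.cham ν).A := by
  rw [kapE_real]
  obtain ⟨h1, h2, h3⟩ := kapRe_mem ν hu hu1 hv hv1
  exact mem_A_real h1 h2 h3

end Vale.Agent.P300.TOR
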