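import Vale.Agent.P300.TOR.Loops
import Vale.Agent.P300.TOR.Spec

/-!
P300, block NODE: the thirty-two loops of the sixteen charts.
-/

set_option linter.all false

open Set Topology Filter

namespace Vale.Agent.P300.NODE

open Vale.Agent.P300.TOR

/-- chart 0, `|u| = 1/4`, `v = 1/4` -/
noncomputable def lU0 : Loop :=
  ⟨-(1/4), 1, 0, 3/4, 1, 0, 0, 1, ⟨1, 2, true, by decide, by decide⟩,
    ⟨0, 2, true, by decide, by decide⟩, 2, 3⟩
theorem lU0_ok : lU0.Ok := by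
  constructor <;>
    norm_num [lU0, Loop.D, Loop.D', Loop.E1, Loop.E2, Loop.xr, Loop.lr, pc, sd, Loop.coneS]
theorem lU0_kap (t : ℂ) : H142.kap 0 (t, 1 / 4) = (lU0.x t, lU0.l t) := by
  simp only [H142.kap, H142.kapX, lU0, Loop.x, Loop.l, mob, Prod.mk.injEq]
  push_cast
  constructor <;> norm_num <;> (try ring_nf)

/-- chart 1, `|u| = 1/4`, `v = 1/4` -/
noncomputable def lU1 : Loop :=
  ⟨0, 4, 0, 1, 1, 0, 0, 1, ⟨1, 2, true, by decide, by decide⟩,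
    ⟨0, 2, true, by decide, by decide⟩, 1, 3⟩
theorem lU1_ok : lU1.Ok := by
  constructor <;>
    norm_num [lU1, Loop.D, Loop.D', Loop.E1, Loop.E2, Loop.xr, Loop.lr, pc, sd, Loop.coneS]
theorem lU1_kap (t : ℂ) : H142.kap 1 (t, 1 / 4) = (lU1.x t, lU1.l t) := by
  simp only [H142.kap, H142.kapX, lU1, Loop.x, Loop.l, mob, Prod.mk.injEq]
  push_cast
  constructor <;> norm_num <;> (try ring_nf)

/-- chart 2, `|u| = 1/4`, `v = 1/4` -/
noncomputable def lU2 : Loop :=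
  ⟨0, 4, 0, 1, -1, 1, -(1/4), 1, ⟨1, 2, true, by decide, by decide⟩,
    ⟨2, 2, true, by decide, by decide⟩, 3, 1⟩
theorem lU2_ok : lU2.Ok := by
  constructor <;>
    norm_num [lU2, Loop.D, Loop.D', Loop.E1, Loop.E2, Loop.xr, Loop.lr, pc, sd, Loop.coneS]
theorem lU2_kap (t : ℂ) : H142.kap 2 (t, 1 / 4) = (lU2.x t, lU2.l t) := by
  simp only [H142.kap, H142.kapX, lU2, Loop.x, Loop.l, mob, Prod.mk.injEq]
  push_cast
  constructor <;> norm_num <;> (try ring_nf)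

/-- chart 3, `|u| = 1/4`, `v = 1/4` -/
noncomputable def lU3 : Loop :=
  ⟨-(1/4), 1, 0, 3/4, -(1/4), 1, 0, 1, ⟨1, 2, true, by decide, by decide⟩,
    ⟨2, 2, true, by decide, by decide⟩, 5, 0⟩
theorem lU3_ok : lU3.Ok := by
  constructor <;>
    norm_num [lU3, Loop.D, Loop.D', Loop.E1, Loop.E2, Loop.xr, Loop.lr, pc, sd, Loop.coneS]
theorem lU3_kap (t : ℂ) : H142.kap 3 (t, 1 / 4) = (lU3.x t, lU3.l t) := by
  simp only [H142.kap, H142.kapX, lU3, Loop.x, Loop.l, mob, Prod.mk.injEq]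
  push_cast
  constructor <;> norm_num <;> (try ring_nf)

/-- chart 4, `|u| = 1/4`, `v = 1/4` -/
noncomputable def lU4 : Loop :=
  ⟨0, 1, -(1/4), 1, 0, 3/4, -(1/4), 1, ⟨1, 2, true, by decide, by decide⟩,
    ⟨1, 1, true, by decide, by decide⟩, 0, 5⟩
theorem lU4_ok : lU4.Ok := by
  constructor <;>
    norm_num [lU4, Loop.D, Loop.D', Loop.E1, Loop.E2, Loop.xr, Loop.lr, pc, sd, Loop.coneS]
theorem lU4_kap (t : ℂ) : H142.kap 4 (t, 1 / 4) = (lU4.x t, lU4.l t) := by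
  simp only [H142.kap, H142.kapX, lU4, Loop.x, Loop.l, mob, Prod.mk.injEq]
  push_cast
  constructor <;> norm_num <;> (try ring_nf)

/-- chart 5, `|u| = 1/4`, `v = 1/4` -/
noncomputable def lU5 : Loop :=
  ⟨0, 1/4, 0, 1, 1/4, 0, 0, 1, ⟨1, 1, true, by decide, by decide⟩,
    ⟨0, 1, true, by decide, by decide⟩, 1, 3⟩
theorem lU5_ok : lU5.Ok := by
  constructor <;>
    norm_num [lU5, Loop.D, Loop.D', Loop.E1, Loop.E2, Loop.xr, Loop.lr, pc, sd, Loop.coneS]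
theorem lU5_kap (t : ℂ) : H142.kap 5 (t, 1 / 4) = (lU5.x t, lU5.l t) := by
  simp only [H142.kap, H142.kapX, lU5, Loop.x, Loop.l, mob, Prod.mk.injEq]
  push_cast
  constructor <;> norm_num <;> (try ring_nf)

/-- chart 6, `|u| = 1/4`, `v = 1/4` -/
noncomputable def lU6 : Loop :=
  ⟨0, 1/4, 0, 1, -(1/4), 1/4, -(1/4), 1, ⟨1, 1, true, by decide, by decide⟩,
    ⟨1, 1, false, by decide, by decide⟩, 3, 1⟩
theorem lU6_ok : lU6.Ok := by
  constructor <;>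
    norm_num [lU6, Loop.D, Loop.D', Loop.E1, Loop.E2, Loop.xr, Loop.lr, pc, sd, Loop.coneS]
theorem lU6_kap (t : ℂ) : H142.kap 6 (t, 1 / 4) = (lU6.x t, lU6.l t) := by
  simp only [H142.kap, H142.kapX, lU6, Loop.x, Loop.l, mob, Prod.mk.injEq]
  push_cast
  constructor <;> norm_num <;> (try ring_nf)

/-- chart 7, `|u| = 1/4`, `v = 1/4` -/
noncomputable def lU7 : Loop :=
  ⟨0, 3/4, -(1/4), 1, 0, 3/4, 0, 1, ⟨1, 1, true, by decide, by decide⟩,
    ⟨1, 1, false, by decide, by decide⟩, 0, 2⟩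
theorem lU7_ok : lU7.Ok := by
  constructor <;>
    norm_num [lU7, Loop.D, Loop.D', Loop.E1, Loop.E2, Loop.xr, Loop.lr, pc, sd, Loop.coneS]
theorem lU7_kap (t : ℂ) : H142.kap 7 (t, 1 / 4) = (lU7.x t, lU7.l t) := by
  simp only [H142.kap, H142.kapX, lU7, Loop.x, Loop.l, mob, Prod.mk.injEq]
  push_cast
  constructor <;> norm_num <;> (try ring_nf)

/-- chart 8, `|u| = 1/4`, `v = 1/4` -/
noncomputable def lU8 : Loop :=
  ⟨3/4, 0, -(1/4), 1, 0, 3/4, -(1/4), 1, ⟨1, 1, false, by decide, by decide⟩,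
    ⟨1, 0, false, by decide, by decide⟩, 0, 5⟩
theorem lU8_ok : lU8.Ok := by
  constructor <;>
    norm_num [lU8, Loop.D, Loop.D', Loop.E1, Loop.E2, Loop.xr, Loop.lr, pc, sd, Loop.coneS]
theorem lU8_kap (t : ℂ) : H142.kap 8 (t, 1 / 4) = (lU8.x t, lU8.l t) := by
  simp only [H142.kap, H142.kapX, lU8, Loop.x, Loop.l, mob, Prod.mk.injEq]
  push_cast
  constructor <;> norm_num <;> (try ring_nf)

/-- chart 9, `|u| = 1/4`, `v = 1/4` -/
noncomputable def lU9 : Loop :=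
  ⟨1/4, 0, 0, 1, 0, 1/4, 0, 1, ⟨1, 1, false, by decide, by decide⟩,
    ⟨1, 0, false, by decide, by decide⟩, 0, 2⟩
theorem lU9_ok : lU9.Ok := by
  constructor <;>
    norm_num [lU9, Loop.D, Loop.D', Loop.E1, Loop.E2, Loop.xr, Loop.lr, pc, sd, Loop.coneS]
theorem lU9_kap (t : ℂ) : H142.kap 9 (t, 1 / 4) = (lU9.x t, lU9.l t) := by
  simp only [H142.kap, H142.kapX, lU9, Loop.x, Loop.l, mob, Prod.mk.injEq]
  push_cast
  constructor <;> norm_num <;> (try ring_nf)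

/-- chart 10, `|u| = 1/4`, `v = 1/4` -/
noncomputable def lU10 : Loop :=
  ⟨-(1/4), 1, -(1/4), 1/4, 0, 4, 0, 1, ⟨2, 2, true, by decide, by decide⟩,
    ⟨2, 2, false, by decide, by decide⟩, 0, 2⟩
theorem lU10_ok : lU10.Ok := by
  constructor <;>
    norm_num [lU10, Loop.D, Loop.D', Loop.E1, Loop.E2, Loop.xr, Loop.lr, pc, sd, Loop.coneS]
theorem lU10_kap (t : ℂ) : H142.kap 10 (t, 1 / 4) = (lU10.x t, lU10.l t) := by
  simp only [H142.kap, H142.kapX, lU10, Loop.x, Loop.l, mob, Prod.mk.injEq]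
  push_cast
  constructor <;> norm_num <;> (try ring_nf)

/-- chart 11, `|u| = 1/4`, `v = 1/4` -/
noncomputable def lU11 : Loop :=
  ⟨0, 1, 1/4, 0, 0, 4, 0, 1, ⟨2, 2, true, by decide, by decide⟩,
    ⟨2, 0, false, by decide, by decide⟩, 2, 0⟩
theorem lU11_ok : lU11.Ok := by
  constructor <;>
    norm_num [lU11, Loop.D, Loop.D', Loop.E1, Loop.E2, Loop.xr, Loop.lr, pc, sd, Loop.coneS]
theorem lU11_kap (t : ℂ) : H142.kap 11 (t, 1 / 4) = (lU11.x t, lU11.l t) := by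
  simp only [H142.kap, H142.kapX, lU11, Loop.x, Loop.l, mob, Prod.mk.injEq]
  push_cast
  constructor <;> norm_num <;> (try ring_nf)

/-- chart 12, `|u| = 1/4`, `v = 1/4` -/
noncomputable def lU12 : Loop :=
  ⟨0, 4, 0, 1, 0, 1, 1/4, 0, ⟨2, 2, false, by decide, by decide⟩,
    ⟨0, 2, true, by decide, by decide⟩, 3, 1⟩
theorem lU12_ok : lU12.Ok := by
  constructor <;>
    norm_num [lU12, Loop.D, Loop.D', Loop.E1, Loop.E2, Loop.xr, Loop.lr, pc, sd, Loop.coneS]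
theorem lU12_kap (t : ℂ) : H142.kap 12 (t, 1 / 4) = (lU12.x t, lU12.l t) := by
  simp only [H142.kap, H142.kapX, lU12, Loop.x, Loop.l, mob, Prod.mk.injEq]
  push_cast
  constructor <;> norm_num <;> (try ring_nf)

/-- chart 13, `|u| = 1/4`, `v = 1/4` -/
noncomputable def lU13 : Loop :=
  ⟨-(1/4), 1, -1, 1, -(1/4), 1, -(1/4), 1/4, ⟨2, 2, false, by decide, by decide⟩,
    ⟨2, 1, false, by decide, by decide⟩, 1, 4⟩
theorem lU13_ok : lU13.Ok := by
  constructor <;>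
    norm_num [lU13, Loop.D, Loop.D', Loop.E1, Loop.E2, Loop.xr, Loop.lr, pc, sd, Loop.coneS]
theorem lU13_kap (t : ℂ) : H142.kap 13 (t, 1 / 4) = (lU13.x t, lU13.l t) := by
  simp only [H142.kap, H142.kapX, lU13, Loop.x, Loop.l, mob, Prod.mk.injEq]
  push_cast
  constructor <;> norm_num <;> (try ring_nf)

/-- chart 14, `|u| = 1/4`, `v = 1/4` -/
noncomputable def lU14 : Loop :=
  ⟨1, 0, 0, 1, 0, 4, 0, 1, ⟨2, 1, false, by decide, by decide⟩,
    ⟨2, 0, false, by decide, by decide⟩, 0, 2⟩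
theorem lU14_ok : lU14.Ok := by
  constructor <;>
    norm_num [lU14, Loop.D, Loop.D', Loop.E1, Loop.E2, Loop.xr, Loop.lr, pc, sd, Loop.coneS]
theorem lU14_kap (t : ℂ) : H142.kap 14 (t, 1 / 4) = (lU14.x t, lU14.l t) := by
  simp only [H142.kap, H142.kapX, lU14, Loop.x, Loop.l, mob, Prod.mk.injEq]
  push_cast
  constructor <;> norm_num <;> (try ring_nf)

/-- chart 15, `|u| = 1/4`, `v = 1/4` -/
noncomputable def lU15 : Loop :=
  ⟨0, 3/4, -(1/4), 1, 3/4, 0, -(1/4), 1, ⟨1, 1, true, by decide, by decide⟩,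
    ⟨0, 1, true, by decide, by decide⟩, 1, 4⟩
theorem lU15_ok : lU15.Ok := by
  constructor <;>
    norm_num [lU15, Loop.D, Loop.D', Loop.E1, Loop.E2, Loop.xr, Loop.lr, pc, sd, Loop.coneS]
theorem lU15_kap (t : ℂ) : H142.kapX (t, 1 / 4) = (lU15.x t, lU15.l t) := by
  simp only [H142.kap, H142.kapX, lU15, Loop.x, Loop.l, mob, Prod.mk.injEq]
  push_cast
  constructor <;> norm_num <;> (try ring_nf)

/-- chart 0, `u = 1/4`, `|v| = 1/4` -/
noncomputable def lV0 : Loop :=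
  ⟨-(1/4), 1, -1, 1, 0, 1/4, 0, 1, ⟨1, 2, true, by decide, by decide⟩,
    ⟨1, 1, true, by decide, by decide⟩, 0, 2⟩
theorem lV0_ok : lV0.Ok := by
  constructor <;>
    norm_num [lV0, Loop.D, Loop.D', Loop.E1, Loop.E2, Loop.xr, Loop.lr, pc, sd, Loop.coneS]
theorem lV0_kap (t : ℂ) : H142.kap 0 (1 / 4, t) = (lV0.x t, lV0.l t) := by
  simp only [H142.kap, H142.kapX, lV0, Loop.x, Loop.l, mob, Prod.mk.injEq]
  push_cast
  constructor <;> norm_num <;> (try ring_nf)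

/-- chart 1, `u = 1/4`, `|v| = 1/4` -/
noncomputable def lV1 : Loop :=
  ⟨0, 1, 1, 0, 0, 1/4, 0, 1, ⟨1, 2, true, by decide, by decide⟩,
    ⟨1, 0, false, by decide, by decide⟩, 2, 0⟩
theorem lV1_ok : lV1.Ok := by
  constructor <;>
    norm_num [lV1, Loop.D, Loop.D', Loop.E1, Loop.E2, Loop.xr, Loop.lr, pc, sd, Loop.coneS]
theorem lV1_kap (t : ℂ) : H142.kap 1 (1 / 4, t) = (lV1.x t, lV1.l t) := by
  simp only [H142.kap, H142.kapX, lV1, Loop.x, Loop.l, mob, Prod.mk.injEq]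
  push_cast
  constructor <;> norm_num <;> (try ring_nf)

/-- chart 2, `u = 1/4`, `|v| = 1/4` -/
noncomputable def lV2 : Loop :=
  ⟨0, 1, 1, 0, 0, 3/4, -(1/4), 1, ⟨1, 2, true, by decide, by decide⟩,
    ⟨1, 0, false, by decide, by decide⟩, 2, 3⟩
theorem lV2_ok : lV2.Ok := by
  constructor <;>
    norm_num [lV2, Loop.D, Loop.D', Loop.E1, Loop.E2, Loop.xr, Loop.lr, pc, sd, Loop.coneS]
theorem lV2_kap (t : ℂ) : H142.kap 2 (1 / 4, t) = (lV2.x t, lV2.l t) := by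
  simp only [H142.kap, H142.kapX, lV2, Loop.x, Loop.l, mob, Prod.mk.injEq]
  push_cast
  constructor <;> norm_num <;> (try ring_nf)

/-- chart 3, `u = 1/4`, `|v| = 1/4` -/
noncomputable def lV3 : Loop :=
  ⟨-(1/4), 1, -1, 1, -(1/4), 1, 0, 1, ⟨1, 2, true, by decide, by decide⟩,
    ⟨2, 1, false, by decide, by decide⟩, 3, 2⟩
theorem lV3_ok : lV3.Ok := by
  constructor <;>
    norm_num [lV3, Loop.D, Loop.D', Loop.E1, Loop.E2, Loop.xr, Loop.lr, pc, sd, Loop.coneS]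
theorem lV3_kap (t : ℂ) : H142.kap 3 (1 / 4, t) = (lV3.x t, lV3.l t) := by
  simp only [H142.kap, H142.kapX, lV3, Loop.x, Loop.l, mob, Prod.mk.injEq]
  push_cast
  constructor <;> norm_num <;> (try ring_nf)

/-- chart 4, `u = 1/4`, `|v| = 1/4` -/
noncomputable def lV4 : Loop :=
  ⟨0, 1, -(1/4), 1, -1, 1, -(1/4), 1, ⟨1, 2, true, by decide, by decide⟩,
    ⟨2, 1, false, by decide, by decide⟩, 3, 2⟩
theorem lV4_ok : lV4.Ok := by
  constructor <;>
    norm_num [lV4, Loop.D, Loop.D', Loop.E1, Loop.E2, Loop.xr, Loop.lr, pc, sd, Loop.coneS]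
theorem lV4_kap (t : ℂ) : H142.kap 4 (1 / 4, t) = (lV4.x t, lV4.l t) := by
  simp only [H142.kap, H142.kapX, lV4, Loop.x, Loop.l, mob, Prod.mk.injEq]
  push_cast
  constructor <;> norm_num <;> (try ring_nf)

/-- chart 5, `u = 1/4`, `|v| = 1/4` -/
noncomputable def lV5 : Loop :=
  ⟨1, 0, 0, 1, 1/4, 0, 0, 1, ⟨1, 1, true, by decide, by decide⟩,
    ⟨0, 0, false, by decide, by decide⟩, 0, 5⟩
theorem lV5_ok : lV5.Ok := by
  constructor <;>
    norm_num [lV5, Loop.D, Loop.D', Loop.E1, Loop.E2, Loop.xr, Loop.lr, pc, sd, Loop.coneS]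
theorem lV5_kap (t : ℂ) : H142.kap 5 (1 / 4, t) = (lV5.x t, lV5.l t) := by
  simp only [H142.kap, H142.kapX, lV5, Loop.x, Loop.l, mob, Prod.mk.injEq]
  push_cast
  constructor <;> norm_num <;> (try ring_nf)

/-- chart 6, `u = 1/4`, `|v| = 1/4` -/
noncomputable def lV6 : Loop :=
  ⟨1, 0, 0, 1, 3/4, 0, -(1/4), 1, ⟨1, 1, true, by decide, by decide⟩,
    ⟨0, 0, false, by decide, by decide⟩, 0, 5⟩
theorem lV6_ok : lV6.Ok := by
  constructor <;>
    norm_num [lV6, Loop.D, Loop.D', Loop.E1, Loop.E2, Loop.xr, Loop.lr, pc, sd, Loop.coneS]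
theorem lV6_kap (t : ℂ) : H142.kap 6 (1 / 4, t) = (lV6.x t, lV6.l t) := by
  simp only [H142.kap, H142.kapX, lV6, Loop.x, Loop.l, mob, Prod.mk.injEq]
  push_cast
  constructor <;> norm_num <;> (try ring_nf)

/-- chart 7, `u = 1/4`, `|v| = 1/4` -/
noncomputable def lV7 : Loop :=
  ⟨-1, 1, -(1/4), 1, -1, 1, 0, 1, ⟨1, 1, true, by decide, by decide⟩,
    ⟨2, 2, false, by decide, by decide⟩, 4, 1⟩
theorem lV7_ok : lV7.Ok := by
  constructor <;>
    norm_num [lV7, Loop.D, Loop.D', Loop.E1, Loop.E2, Loop.xr, Loop.lr, pc, sd, Loop.coneS]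
theorem lV7_kap (t : ℂ) : H142.kap 7 (1 / 4, t) = (lV7.x t, lV7.l t) := by
  simp only [H142.kap, H142.kapX, lV7, Loop.x, Loop.l, mob, Prod.mk.injEq]
  push_cast
  constructor <;> norm_num <;> (try ring_nf)

/-- chart 8, `u = 1/4`, `|v| = 1/4` -/
noncomputable def lV8 : Loop :=
  ⟨-(1/4), 1/4, -(1/4), 1, -1, 1, -(1/4), 1, ⟨1, 1, false, by decide, by decide⟩,
    ⟨2, 1, false, by decide, by decide⟩, 4, 1⟩
theorem lV8_ok : lV8.Ok := by
  constructor <;>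
    norm_num [lV8, Loop.D, Loop.D', Loop.E1, Loop.E2, Loop.xr, Loop.lr, pc, sd, Loop.coneS]
theorem lV8_kap (t : ℂ) : H142.kap 8 (1 / 4, t) = (lV8.x t, lV8.l t) := by
  simp only [H142.kap, H142.kapX, lV8, Loop.x, Loop.l, mob, Prod.mk.injEq]
  push_cast
  constructor <;> norm_num <;> (try ring_nf)

/-- chart 9, `u = 1/4`, `|v| = 1/4` -/
noncomputable def lV9 : Loop :=
  ⟨1/4, 0, 0, 1, 1, 0, 0, 1, ⟨1, 1, false, by decide, by decide⟩,
    ⟨0, 0, true, by decide, by decide⟩, 1, 4⟩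
theorem lV9_ok : lV9.Ok := by
  constructor <;>
    norm_num [lV9, Loop.D, Loop.D', Loop.E1, Loop.E2, Loop.xr, Loop.lr, pc, sd, Loop.coneS]
theorem lV9_kap (t : ℂ) : H142.kap 9 (1 / 4, t) = (lV9.x t, lV9.l t) := by
  simp only [H142.kap, H142.kapX, lV9, Loop.x, Loop.l, mob, Prod.mk.injEq]
  push_cast
  constructor <;> norm_num <;> (try ring_nf)

/-- chart 10, `u = 1/4`, `|v| = 1/4` -/
noncomputable def lV10 : Loop :=
  ⟨-(1/4), 1, 3/4, 0, 0, 1, 1, 0, ⟨2, 2, true, by decide, by decide⟩,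
    ⟨0, 0, false, by decide, by decide⟩, 5, 0⟩
theorem lV10_ok : lV10.Ok := by
  constructor <;>
    norm_num [lV10, Loop.D, Loop.D', Loop.E1, Loop.E2, Loop.xr, Loop.lr, pc, sd, Loop.coneS]
theorem lV10_kap (t : ℂ) : H142.kap 10 (1 / 4, t) = (lV10.x t, lV10.l t) := by
  simp only [H142.kap, H142.kapX, lV10, Loop.x, Loop.l, mob, Prod.mk.injEq]
  push_cast
  constructor <;> norm_num <;> (try ring_nf)

/-- chart 11, `u = 1/4`, `|v| = 1/4` -/
noncomputable def lV11 : Loop :=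
  ⟨0, 1, 1/4, 0, 0, 1, 1, 0, ⟨2, 2, true, by decide, by decide⟩,
    ⟨0, 0, false, by decide, by decide⟩, 5, 0⟩
theorem lV11_ok : lV11.Ok := by
  constructor <;>
    norm_num [lV11, Loop.D, Loop.D', Loop.E1, Loop.E2, Loop.xr, Loop.lr, pc, sd, Loop.coneS]
theorem lV11_kap (t : ℂ) : H142.kap 11 (1 / 4, t) = (lV11.x t, lV11.l t) := by
  simp only [H142.kap, H142.kapX, lV11, Loop.x, Loop.l, mob, Prod.mk.injEq]
  push_cast
  constructor <;> norm_num <;> (try ring_nf)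

/-- chart 12, `u = 1/4`, `|v| = 1/4` -/
noncomputable def lV12 : Loop :=
  ⟨0, 1, 1, 0, 0, 1, 1/4, 0, ⟨2, 2, false, by decide, by decide⟩,
    ⟨0, 0, true, by decide, by decide⟩, 4, 1⟩
theorem lV12_ok : lV12.Ok := by
  constructor <;>
    norm_num [lV12, Loop.D, Loop.D', Loop.E1, Loop.E2, Loop.xr, Loop.lr, pc, sd, Loop.coneS]
theorem lV12_kap (t : ℂ) : H142.kap 12 (1 / 4, t) = (lV12.x t, lV12.l t) := by
  simp only [H142.kap, H142.kapX, lV12, Loop.x, Loop.l, mob, Prod.mk.injEq]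
  push_cast
  constructor <;> norm_num <;> (try ring_nf)

/-- chart 13, `u = 1/4`, `|v| = 1/4` -/
noncomputable def lV13 : Loop :=
  ⟨-(1/4), 1, 0, 3/4, -(1/4), 1, 3/4, 0, ⟨2, 2, false, by decide, by decide⟩,
    ⟨0, 2, true, by decide, by decide⟩, 4, 1⟩
theorem lV13_ok : lV13.Ok := by
  constructor <;>
    norm_num [lV13, Loop.D, Loop.D', Loop.E1, Loop.E2, Loop.xr, Loop.lr, pc, sd, Loop.coneS]
theorem lV13_kap (t : ℂ) : H142.kap 13 (1 / 4, t) = (lV13.x t, lV13.l t) := by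
  simp only [H142.kap, H142.kapX, lV13, Loop.x, Loop.l, mob, Prod.mk.injEq]
  push_cast
  constructor <;> norm_num <;> (try ring_nf)

/-- chart 14, `u = 1/4`, `|v| = 1/4` -/
noncomputable def lV14 : Loop :=
  ⟨0, 1/4, 0, 1, 0, 1, 1, 0, ⟨2, 1, false, by decide, by decide⟩,
    ⟨0, 1, true, by decide, by decide⟩, 3, 1⟩
theorem lV14_ok : lV14.Ok := by
  constructor <;>
    norm_num [lV14, Loop.D, Loop.D', Loop.E1, Loop.E2, Loop.xr, Loop.lr, pc, sd, Loop.coneS]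
theorem lV14_kap (t : ℂ) : H142.kap 14 (1 / 4, t) = (lV14.x t, lV14.l t) := by
  simp only [H142.kap, H142.kapX, lV14, Loop.x, Loop.l, mob, Prod.mk.injEq]
  push_cast
  constructor <;> norm_num <;> (try ring_nf)

/-- chart 15, `u = 1/4`, `|v| = 1/4` -/
noncomputable def lV15 : Loop :=
  ⟨-1, 1, -(1/4), 1, -(1/4), 1/4, -(1/4), 1, ⟨1, 1, true, by decide, by decide⟩,
    ⟨1, 2, true, by decide, by decide⟩, 5, 0⟩
theorem lV15_ok : lV15.Ok := by
  constructor <;>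
    norm_num [lV15, Loop.D, Loop.D', Loop.E1, Loop.E2, Loop.xr, Loop.lr, pc, sd, Loop.coneS]
theorem lV15_kap (t : ℂ) : H142.kapX (1 / 4, t) = (lV15.x t, lV15.l t) := by
  simp only [H142.kap, H142.kapX, lV15, Loop.x, Loop.l, mob, Prod.mk.injEq]
  push_cast
  constructor <;> norm_num <;> (try ring_nf)

/-- `|u| = 1/4`, `v = 1/4` -/
noncomputable def lpU : Fin 16 → Loop :=
  ![lU0, lU1, lU2, lU3, lU4, lU5, lU6, lU7, lU8, lU9, lU10, lU11, lU12, lU13, lU14, lU15]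

/-- `u = 1/4`, `|v| = 1/4` -/
noncomputable def lpV : Fin 16 → Loop :=
  ![lV0, lV1, lV2, lV3, lV4, lV5, lV6, lV7, lV8, lV9, lV10, lV11, lV12, lV13, lV14, lV15]

end Vale.Agent.P300.NODE
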