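import Vale.Agent.P300.TOR.Node

/-!
P300, block NODE: the value `torData A : TorData A` of the interface `TOR/Spec.lean`.
-/

set_option linter.all false

open Set Topology Filter

namespace Vale.Agent.P300.NODE

open Vale.Agent.P300.TOR

/-- a set with the discrete topology -/
def Dsc (F : Type) : Type := F

instance (F : Type) : TopologicalSpace (Dsc F) := ⊥

instance (F : Type) : DiscreteTopology (Dsc F) := ⟨rfl⟩

instance {G : Type} [Group G] (F : Type) [MulAction G F] : MulAction G (Dsc F) :=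
  inferInstanceAs (MulAction G F)

instance (F : Type) [h : Countable F] : Countable (Dsc F) := h

instance (F : Type) [h : Nonempty F] : Nonempty (Dsc F) := h

theorem kap_im (ν : Fin 16) (u v : ℝ) : (kap ν (u, v)).1.im = 0 ∧ (kap ν (u, v)).2.im = 0 := by
  have key : (starRingEnd ℂ) (kap ν (u, v)).1 = (kap ν (u, v)).1 ∧
      (starRingEnd ℂ) (kap ν (u, v)).2 = (kap ν (u, v)).2 := by
    refine kap_cases (P := fun κ => (starRingEnd ℂ) (κ (u, v)).1 = (κ (u, v)).1 ∧
      (starRingEnd ℂ) (κ (u, v)).2 = (κ (u, v)).2) ?_ ?_ ν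
    · intro ν
      fin_cases ν <;> simp [H142.kap]
    · simp [H142.kapX]
  exact ⟨Complex.conj_eq_iff_im.1 key.1, Complex.conj_eq_iff_im.1 key.2⟩

theorem ch_unique {C C' : Ch} {z : ℂ × ℂ} (h1 : z.1.im = 0) (h2 : z.2.im = 0) (h : z ∈ C.A)
    (h' : z ∈ C'.A) : C = C' := by
  obtain ⟨L, X, s, _, _⟩ := C
  obtain ⟨L', X', s', _, _⟩ := C'
  have e1 : X = X' := pc_unique (h.1 h1) (h'.1 h1)
  have e2 : L = L' := pc_unique (h.2.1 h2) (h'.2.1 h2)
  have e3 : s = s' := sd_unique (h.2.2 (h1.trans h2.symm)) (h'.2.2 (h1.trans h2.symm))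
  subst e1 e2 e3
  rfl

/-- **Same chamber, same sheet.** -/
theorem L_base {G : Type*} [Group G] (r : Arr G) {S : Type*} [MulAction G S] [TopologicalSpace S]
    [DiscreteTopology S] (ν ν' : Fin 16) (s : S) {u v u' v' : ℝ} (hu : 0 < u) (hu1 : u < 1)
    (hv : 0 < v) (hv1 : v < 1) (hu' : 0 < u') (hu1' : u' < 1) (hv' : 0 < v') (hv1' : v' < 1)
    (h : kap ν (u, v) = kap ν' (u', v')) :
    L r ν ((Real.log u : ℂ), (Real.log v : ℂ)) s =
      L r ν' ((Real.log u' : ℂ), (Real.log v' : ℂ)) s := by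
  have k := L_real r ν s (Real.log_neg hu hu1) (Real.log_neg hv hv1)
  have k' := L_real r ν' s (Real.log_neg hu' hu1') (Real.log_neg hv' hv1')
  have e : ∀ {t : ℝ}, 0 < t → Complex.exp (Real.log t : ℂ) = (t : ℂ) := fun {t} ht => by
    rw [← Complex.ofReal_exp, Real.exp_log ht]
  have m := neg_mem_RT (Real.log_neg hu hu1) (Real.log_neg hv hv1)
  have m' := neg_mem_RT (Real.log_neg hu' hu1') (Real.log_neg hv' hv1')
  have hp : r.pr (L r ν ((Real.log u : ℂ), (Real.log v : ℂ)) s) =
      r.pr (L r ν' ((Real.log u' : ℂ), (Real.log v' : ℂ)) s) := by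
    apply Subtype.ext
    rw [L_pr r ν _ m, L_pr r ν' _ m']
    simp only [e hu, e hv, e hu', e hv']
    exact h
  have hC : cham ν = cham ν' := by
    have h1 := k.1
    have h2 := k'.1
    rw [e hu, e hv] at h1
    rw [e hu', e hv', ← h] at h2
    exact ch_unique (kap_im ν u v).1 (kap_im ν u v).2 h1 h2
  refine r.ext_crd (C := cham ν) hp ?_ ?_
  · rw [L_pr r ν _ m]
    exact k.1
  · rw [k.2, hC, k'.2]

variable {G : Type} [Group G] (A : Tor.Arr G)

/-- the total space of the covering of a `G`-set -/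
abbrev TotF (F : Type) [MulAction G F] : Type := (ofA A).Tot (Dsc F)

/-- the underlying function -/
def rmap {F F' : Type} [MulAction G F] [MulAction G F'] (f : F →[G] F') (s : Dsc F) : Dsc F' :=
  f s

theorem rmap_smul {F F' : Type} [MulAction G F] [MulAction G F'] (f : F →[G] F') :
    ∀ (g : G) (s : Dsc F), rmap f (g • s) = g • rmap f s :=
  fun g s => f.map_smul g s

/-- **NODE.**  For every group with the five elements of `TorSpec`, the coverings of `U` of all the
`G`-sets with the lifts of the sixteen node charts. -/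
noncomputable def torData : TorData A where
  Tot F _ := TotF A F
  top F _ := inferInstanceAs (TopologicalSpace (TotF A F))
  pr F _ := ((ofA A).pr : TotF A F → Arr.UT)
  cov F _ := (ofA A).isCoveringMap_pr
  surj F _ hF := by
    obtain ⟨s⟩ := hF
    intro z
    obtain ⟨C, hC⟩ := exists_ch z.2
    exact ⟨(ofA A).pt (S := Dsc F) C z s, (ofA A).pr_pt hC _⟩
  t2 F _ := inferInstanceAs (T2Space (TotF A F))
  lpc F _ := inferInstanceAs (LocallyPathConnectedSpace (TotF A F))
  sc F _ hF := by
    haveI : Countable (Dsc F) := hF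
    exact inferInstanceAs (SecondCountableTopology (TotF A F))
  map f := (ofA A).map (rmap f)
  map_cont f := (ofA A).continuous_map (rmap_smul f)
  map_cov f := (ofA A).isCoveringMap_map (rmap_smul f)
  map_pr f y := rfl
  map_id F _ y := rfl
  map_comp f g y := rfl
  L ν F _ z s := L (S := Dsc F) (ofA A) ν z s
  L_cont ν F _ s := by
    rw [Rt_eq]
    exact L_cont (S := Dsc F) (ofA A) ν s
  L_pr ν F _ s z hz := L_pr (S := Dsc F) (ofA A) ν s (by rwa [← Rt_eq])
  L_inj ν F _ s s' z hz h := L_inj (ofA A) ν (S := Dsc F) (by rwa [← Rt_eq]) h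
  L_surj ν F _ z hz y hy := L_surj (ofA A) ν (S := Dsc F) (by rwa [← Rt_eq]) hy
  L_u ν F _ s z hz := by
    have := L_u (S := Dsc F) (ofA A) ν s (z := z) (by rwa [← Rt_eq])
    rw [lpU_word] at this
    exact this
  L_v ν F _ s z hz := by
    have := L_v (S := Dsc F) (ofA A) ν s (z := z) (by rwa [← Rt_eq])
    rw [lpV_word] at this
    exact this
  L_map ν F F' _ _ f s z hz := L_map (ofA A) (rmap_smul f) ν s (by rwa [← Rt_eq])
  base ν ν' F _ s u v u' v' hu hu1 hv hv1 hu' hu1' hv' hv1' h :=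
    L_base (S := Dsc F) (ofA A) ν ν' s hu hu1 hv hv1 hu' hu1' hv' hv1' h
  conn hgen F _ htr hne := by
    haveI : Nonempty (Dsc F) := hne
    have : PathConnectedSpace (TotF A F) := (ofA A).pathConnectedSpace_tot fun s t => by
      obtain ⟨g, hg⟩ := htr.exists_smul_eq (s : F) (t : F)
      refine ⟨g, ?_, hg⟩
      have : (ofA A).gens = {A.c1, A.c2, A.c3, A.T0, A.T1} := rfl
      rw [this, hgen]
      trivial
    exact inferInstanceAs (ConnectedSpace (TotF A F))

end Vale.Agent.P300.NODE
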