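import Vale.Agent.P300.TOR.Tables

/-!
P300, block NODE: the monodromy words of the thirty-two loops are the words `wa`, `wb` of
`H251/Conj.lean`.
-/

set_option linter.all false

namespace Vale.Agent.P300.NODE

open Vale.Agent.P300.TOR

/-- the same five elements, in the form of `H148/TorSpec.lean` -/
def toA {G : Type} [Group G] (r : TOR.Arr G) : Tor.Arr G where
  c1 := r.c1
  c2 := r.c2
  c3 := r.c3
  T0 := r.T0
  T1 := r.T1
  r01 := r.h01
  r02 := r.h02
  r03 := by rw [r.h03, mul_inv_cancel_right]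
  r11 := by rw [r.h11, mul_inv_cancel_right]
  r12 := r.h12
  r13 := r.h13

/-- the same five elements, in the conventions of `TOR/Core.lean` -/
def ofA {G : Type} [Group G] (A : Tor.Arr G) : TOR.Arr G where
  c1 := A.c1
  c2 := A.c2
  c3 := A.c3
  T0 := A.T0
  T1 := A.T1
  h01 := A.r01
  h02 := A.r02
  h03 := A.pT0c3
  h11 := A.pT1c1
  h12 := A.r12
  h13 := A.r13

theorem toA_ofA {G : Type} [Group G] (A : Tor.Arr G) : toA (ofA A) = A := rfl

variable {G : Type} [Group G] (A : Tor.Arr G)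

theorem lU0_word : lU0.word (ofA A) = A.wa 0 := by
  show _ = A.T0
  simp only [Loop.word, lU0, TOR.Arr.k, TOR.Arr.e03, TOR.Arr.e01, TOR.Arr.e12, TOR.Arr.e34,
    TOR.Arr.e45, ofA, ↓reduceIte, Bool.false_eq_true, if_true, if_false]
  group

theorem lU1_word : lU1.word (ofA A) = A.wa 1 := by
  show _ = A.T0
  simp only [Loop.word, lU1, TOR.Arr.k, TOR.Arr.e03, TOR.Arr.e01, TOR.Arr.e12, TOR.Arr.e34,
    TOR.Arr.e45, ofA, ↓reduceIte, Bool.false_eq_true, if_true, if_false]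
  group

theorem lU2_word : lU2.word (ofA A) = A.wa 2 := by
  show _ = A.T1
  simp only [Loop.word, lU2, TOR.Arr.k, TOR.Arr.e03, TOR.Arr.e01, TOR.Arr.e12, TOR.Arr.e34,
    TOR.Arr.e45, ofA, ↓reduceIte, Bool.false_eq_true, if_true, if_false]
  group

theorem lU3_word : lU3.word (ofA A) = A.wa 3 := by
  show _ = A.T1
  simp only [Loop.word, lU3, TOR.Arr.k, TOR.Arr.e03, TOR.Arr.e01, TOR.Arr.e12, TOR.Arr.e34,
    TOR.Arr.e45, ofA, ↓reduceIte, Bool.false_eq_true, if_true, if_false]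
  group

theorem lU4_word : lU4.word (ofA A) = A.wa 4 := by
  show _ = A.c3⁻¹
  simp only [Loop.word, lU4, TOR.Arr.k, TOR.Arr.e03, TOR.Arr.e01, TOR.Arr.e12, TOR.Arr.e34,
    TOR.Arr.e45, ofA, ↓reduceIte, Bool.false_eq_true, if_true, if_false]
  group

theorem lU5_word : lU5.word (ofA A) = A.wa 5 := by
  show _ = A.T0
  simp only [Loop.word, lU5, TOR.Arr.k, TOR.Arr.e03, TOR.Arr.e01, TOR.Arr.e12, TOR.Arr.e34,
    TOR.Arr.e45, ofA, ↓reduceIte, Bool.false_eq_true, if_true, if_false]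
  group

theorem lU6_word : lU6.word (ofA A) = A.wa 6 := by
  show _ = A.c2⁻¹
  simp only [Loop.word, lU6, TOR.Arr.k, TOR.Arr.e03, TOR.Arr.e01, TOR.Arr.e12, TOR.Arr.e34,
    TOR.Arr.e45, ofA, ↓reduceIte, Bool.false_eq_true, if_true, if_false]
  group

theorem lU7_word : lU7.word (ofA A) = A.wa 7 := by
  show _ = A.c2⁻¹
  simp only [Loop.word, lU7, TOR.Arr.k, TOR.Arr.e03, TOR.Arr.e01, TOR.Arr.e12, TOR.Arr.e34,
    TOR.Arr.e45, ofA, ↓reduceIte, Bool.false_eq_true, if_true, if_false]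
  group

theorem lU8_word : lU8.word (ofA A) = A.wa 8 := by
  show _ = A.c1⁻¹
  simp only [Loop.word, lU8, TOR.Arr.k, TOR.Arr.e03, TOR.Arr.e01, TOR.Arr.e12, TOR.Arr.e34,
    TOR.Arr.e45, ofA, ↓reduceIte, Bool.false_eq_true, if_true, if_false]
  group

theorem lU9_word : lU9.word (ofA A) = A.wa 9 := by
  show _ = A.c1⁻¹
  simp only [Loop.word, lU9, TOR.Arr.k, TOR.Arr.e03, TOR.Arr.e01, TOR.Arr.e12, TOR.Arr.e34,
    TOR.Arr.e45, ofA, ↓reduceIte, Bool.false_eq_true, if_true, if_false]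
  group

theorem lU10_word : lU10.word (ofA A) = A.wa 10 := by
  show _ = A.c2⁻¹
  simp only [Loop.word, lU10, TOR.Arr.k, TOR.Arr.e03, TOR.Arr.e01, TOR.Arr.e12, TOR.Arr.e34,
    TOR.Arr.e45, ofA, ↓reduceIte, Bool.false_eq_true, if_true, if_false]
  group

theorem lU11_word : lU11.word (ofA A) = A.wa 11 := by
  show _ = A.c1 * A.c2 * A.c3
  simp only [Loop.word, lU11, TOR.Arr.k, TOR.Arr.e03, TOR.Arr.e01, TOR.Arr.e12, TOR.Arr.e34,
    TOR.Arr.e45, ofA, ↓reduceIte, Bool.false_eq_true, if_true, if_false]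
  group

theorem lU12_word : lU12.word (ofA A) = A.wa 12 := by
  show _ = A.c2 * A.T0⁻¹ * A.T1⁻¹
  simp only [Loop.word, lU12, TOR.Arr.k, TOR.Arr.e03, TOR.Arr.e01, TOR.Arr.e12, TOR.Arr.e34,
    TOR.Arr.e45, ofA, ↓reduceIte, Bool.false_eq_true, if_true, if_false]
  group

theorem lU13_word : lU13.word (ofA A) = A.wa 13 := by
  show _ = A.c2 * A.c3⁻¹ * A.c2⁻¹
  simp only [Loop.word, lU13, TOR.Arr.k, TOR.Arr.e03, TOR.Arr.e01, TOR.Arr.e12, TOR.Arr.e34,
    TOR.Arr.e45, ofA, ↓reduceIte, Bool.false_eq_true, if_true, if_false]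
  open Tor.Arr in
  simp only [pT0c1 A, pT0c2 A, pT0c3 A, pT1c1 A, pT1c2 A, pT1c3 A,
    nT0c1 A, nT0c2 A, nT0c3 A, nT1c1 A, nT1c2 A, nT1c3 A,
    push_inv (pT0c1 A), push_inv (pT0c2 A), push_inv (pT0c3 A), push_inv (pT1c1 A),
    push_inv (pT1c2 A), push_inv (pT1c3 A), push_inv (nT0c1 A), push_inv (nT0c2 A),
    push_inv (nT0c3 A), push_inv (nT1c1 A), push_inv (nT1c2 A), push_inv (nT1c3 A),
    push_assoc (pT0c1 A), push_assoc (pT0c2 A), push_assoc (pT0c3 A), push_assoc (pT1c1 A),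
    push_assoc (pT1c2 A), push_assoc (pT1c3 A), push_assoc (nT0c1 A), push_assoc (nT0c2 A),
    push_assoc (nT0c3 A), push_assoc (nT1c1 A), push_assoc (nT1c2 A), push_assoc (nT1c3 A),
    push_assoc (push_inv (pT0c1 A)), push_assoc (push_inv (pT0c2 A)),
    push_assoc (push_inv (pT0c3 A)), push_assoc (push_inv (pT1c1 A)),
    push_assoc (push_inv (pT1c2 A)), push_assoc (push_inv (pT1c3 A)),
    push_assoc (push_inv (nT0c1 A)), push_assoc (push_inv (nT0c2 A)),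
    push_assoc (push_inv (nT0c3 A)), push_assoc (push_inv (nT1c1 A)),
    push_assoc (push_inv (nT1c2 A)), push_assoc (push_inv (nT1c3 A)),
    mul_assoc, mul_inv_rev, inv_inv, mul_inv_cancel_left, inv_mul_cancel_left, mul_inv_cancel,
    inv_mul_cancel, mul_one, one_mul, inv_one]

theorem lU14_word : lU14.word (ofA A) = A.wa 14 := by
  show _ = A.c1⁻¹
  simp only [Loop.word, lU14, TOR.Arr.k, TOR.Arr.e03, TOR.Arr.e01, TOR.Arr.e12, TOR.Arr.e34,
    TOR.Arr.e45, ofA, ↓reduceIte, Bool.false_eq_true, if_true, if_false]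
  group

theorem lU15_word : lU15.word (ofA A) = A.wa 15 := by
  show _ = A.T0
  simp only [Loop.word, lU15, TOR.Arr.k, TOR.Arr.e03, TOR.Arr.e01, TOR.Arr.e12, TOR.Arr.e34,
    TOR.Arr.e45, ofA, ↓reduceIte, Bool.false_eq_true, if_true, if_false]
  group

theorem lV0_word : lV0.word (ofA A) = A.wb 0 := by
  show _ = A.c3⁻¹
  simp only [Loop.word, lV0, TOR.Arr.k, TOR.Arr.e03, TOR.Arr.e01, TOR.Arr.e12, TOR.Arr.e34,
    TOR.Arr.e45, ofA, ↓reduceIte, Bool.false_eq_true, if_true, if_false]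
  group

theorem lV1_word : lV1.word (ofA A) = A.wb 1 := by
  show _ = A.c1 * A.c2 * A.c3
  simp only [Loop.word, lV1, TOR.Arr.k, TOR.Arr.e03, TOR.Arr.e01, TOR.Arr.e12, TOR.Arr.e34,
    TOR.Arr.e45, ofA, ↓reduceIte, Bool.false_eq_true, if_true, if_false]
  group

theorem lV2_word : lV2.word (ofA A) = A.wb 2 := by
  show _ = A.c1 * A.c2 * A.c3
  simp only [Loop.word, lV2, TOR.Arr.k, TOR.Arr.e03, TOR.Arr.e01, TOR.Arr.e12, TOR.Arr.e34,
    TOR.Arr.e45, ofA, ↓reduceIte, Bool.false_eq_true, if_true, if_false]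
  group

theorem lV3_word : lV3.word (ofA A) = A.wb 3 := by
  show _ = A.c3⁻¹ * A.c2⁻¹ * A.T1
  simp only [Loop.word, lV3, TOR.Arr.k, TOR.Arr.e03, TOR.Arr.e01, TOR.Arr.e12, TOR.Arr.e34,
    TOR.Arr.e45, ofA, ↓reduceIte, Bool.false_eq_true, if_true, if_false]
  group

theorem lV4_word : lV4.word (ofA A) = A.wb 4 := by
  show _ = A.c3⁻¹ * A.c2⁻¹ * A.T1
  simp only [Loop.word, lV4, TOR.Arr.k, TOR.Arr.e03, TOR.Arr.e01, TOR.Arr.e12, TOR.Arr.e34,
    TOR.Arr.e45, ofA, ↓reduceIte, Bool.false_eq_true, if_true, if_false]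
  group

theorem lV5_word : lV5.word (ofA A) = A.wb 5 := by
  show _ = A.c2⁻¹ * A.c1⁻¹ * A.T0
  simp only [Loop.word, lV5, TOR.Arr.k, TOR.Arr.e03, TOR.Arr.e01, TOR.Arr.e12, TOR.Arr.e34,
    TOR.Arr.e45, ofA, ↓reduceIte, Bool.false_eq_true, if_true, if_false]
  group

theorem lV6_word : lV6.word (ofA A) = A.wb 6 := by
  show _ = A.c2⁻¹ * A.c1⁻¹ * A.T0
  simp only [Loop.word, lV6, TOR.Arr.k, TOR.Arr.e03, TOR.Arr.e01, TOR.Arr.e12, TOR.Arr.e34,
    TOR.Arr.e45, ofA, ↓reduceIte, Bool.false_eq_true, if_true, if_false]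
  group

theorem lV7_word : lV7.word (ofA A) = A.wb 7 := by
  show _ = A.c3⁻¹ * A.c2⁻¹ * A.T1
  simp only [Loop.word, lV7, TOR.Arr.k, TOR.Arr.e03, TOR.Arr.e01, TOR.Arr.e12, TOR.Arr.e34,
    TOR.Arr.e45, ofA, ↓reduceIte, Bool.false_eq_true, if_true, if_false]
  open Tor.Arr in
  simp only [pT0c1 A, pT0c2 A, pT0c3 A, pT1c1 A, pT1c2 A, pT1c3 A,
    nT0c1 A, nT0c2 A, nT0c3 A, nT1c1 A, nT1c2 A, nT1c3 A,
    push_inv (pT0c1 A), push_inv (pT0c2 A), push_inv (pT0c3 A), push_inv (pT1c1 A),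
    push_inv (pT1c2 A), push_inv (pT1c3 A), push_inv (nT0c1 A), push_inv (nT0c2 A),
    push_inv (nT0c3 A), push_inv (nT1c1 A), push_inv (nT1c2 A), push_inv (nT1c3 A),
    push_assoc (pT0c1 A), push_assoc (pT0c2 A), push_assoc (pT0c3 A), push_assoc (pT1c1 A),
    push_assoc (pT1c2 A), push_assoc (pT1c3 A), push_assoc (nT0c1 A), push_assoc (nT0c2 A),
    push_assoc (nT0c3 A), push_assoc (nT1c1 A), push_assoc (nT1c2 A), push_assoc (nT1c3 A),
    push_assoc (push_inv (pT0c1 A)), push_assoc (push_inv (pT0c2 A)),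
    push_assoc (push_inv (pT0c3 A)), push_assoc (push_inv (pT1c1 A)),
    push_assoc (push_inv (pT1c2 A)), push_assoc (push_inv (pT1c3 A)),
    push_assoc (push_inv (nT0c1 A)), push_assoc (push_inv (nT0c2 A)),
    push_assoc (push_inv (nT0c3 A)), push_assoc (push_inv (nT1c1 A)),
    push_assoc (push_inv (nT1c2 A)), push_assoc (push_inv (nT1c3 A)),
    mul_assoc, mul_inv_rev, inv_inv, mul_inv_cancel_left, inv_mul_cancel_left, mul_inv_cancel,
    inv_mul_cancel, mul_one, one_mul, inv_one]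

theorem lV8_word : lV8.word (ofA A) = A.wb 8 := by
  show _ = A.T1
  simp only [Loop.word, lV8, TOR.Arr.k, TOR.Arr.e03, TOR.Arr.e01, TOR.Arr.e12, TOR.Arr.e34,
    TOR.Arr.e45, ofA, ↓reduceIte, Bool.false_eq_true, if_true, if_false]
  group

theorem lV9_word : lV9.word (ofA A) = A.wb 9 := by
  show _ = A.c2⁻¹ * A.c1⁻¹ * A.T0
  simp only [Loop.word, lV9, TOR.Arr.k, TOR.Arr.e03, TOR.Arr.e01, TOR.Arr.e12, TOR.Arr.e34,
    TOR.Arr.e45, ofA, ↓reduceIte, Bool.false_eq_true, if_true, if_false]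
  open Tor.Arr in
  simp only [pT0c1 A, pT0c2 A, pT0c3 A, pT1c1 A, pT1c2 A, pT1c3 A,
    nT0c1 A, nT0c2 A, nT0c3 A, nT1c1 A, nT1c2 A, nT1c3 A,
    push_inv (pT0c1 A), push_inv (pT0c2 A), push_inv (pT0c3 A), push_inv (pT1c1 A),
    push_inv (pT1c2 A), push_inv (pT1c3 A), push_inv (nT0c1 A), push_inv (nT0c2 A),
    push_inv (nT0c3 A), push_inv (nT1c1 A), push_inv (nT1c2 A), push_inv (nT1c3 A),
    push_assoc (pT0c1 A), push_assoc (pT0c2 A), push_assoc (pT0c3 A), push_assoc (pT1c1 A),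
    push_assoc (pT1c2 A), push_assoc (pT1c3 A), push_assoc (nT0c1 A), push_assoc (nT0c2 A),
    push_assoc (nT0c3 A), push_assoc (nT1c1 A), push_assoc (nT1c2 A), push_assoc (nT1c3 A),
    push_assoc (push_inv (pT0c1 A)), push_assoc (push_inv (pT0c2 A)),
    push_assoc (push_inv (pT0c3 A)), push_assoc (push_inv (pT1c1 A)),
    push_assoc (push_inv (pT1c2 A)), push_assoc (push_inv (pT1c3 A)),
    push_assoc (push_inv (nT0c1 A)), push_assoc (push_inv (nT0c2 A)),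
    push_assoc (push_inv (nT0c3 A)), push_assoc (push_inv (nT1c1 A)),
    push_assoc (push_inv (nT1c2 A)), push_assoc (push_inv (nT1c3 A)),
    mul_assoc, mul_inv_rev, inv_inv, mul_inv_cancel_left, inv_mul_cancel_left, mul_inv_cancel,
    inv_mul_cancel, mul_one, one_mul, inv_one]

theorem lV10_word : lV10.word (ofA A) = A.wb 10 := by
  show _ = A.c1 * A.c2 * A.c3 * A.T0⁻¹ * A.T1⁻¹
  simp only [Loop.word, lV10, TOR.Arr.k, TOR.Arr.e03, TOR.Arr.e01, TOR.Arr.e12, TOR.Arr.e34,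
    TOR.Arr.e45, ofA, ↓reduceIte, Bool.false_eq_true, if_true, if_false]
  open Tor.Arr in
  simp only [pT0c1 A, pT0c2 A, pT0c3 A, pT1c1 A, pT1c2 A, pT1c3 A,
    nT0c1 A, nT0c2 A, nT0c3 A, nT1c1 A, nT1c2 A, nT1c3 A,
    push_inv (pT0c1 A), push_inv (pT0c2 A), push_inv (pT0c3 A), push_inv (pT1c1 A),
    push_inv (pT1c2 A), push_inv (pT1c3 A), push_inv (nT0c1 A), push_inv (nT0c2 A),
    push_inv (nT0c3 A), push_inv (nT1c1 A), push_inv (nT1c2 A), push_inv (nT1c3 A),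
    push_assoc (pT0c1 A), push_assoc (pT0c2 A), push_assoc (pT0c3 A), push_assoc (pT1c1 A),
    push_assoc (pT1c2 A), push_assoc (pT1c3 A), push_assoc (nT0c1 A), push_assoc (nT0c2 A),
    push_assoc (nT0c3 A), push_assoc (nT1c1 A), push_assoc (nT1c2 A), push_assoc (nT1c3 A),
    push_assoc (push_inv (pT0c1 A)), push_assoc (push_inv (pT0c2 A)),
    push_assoc (push_inv (pT0c3 A)), push_assoc (push_inv (pT1c1 A)),
    push_assoc (push_inv (pT1c2 A)), push_assoc (push_inv (pT1c3 A)),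
    push_assoc (push_inv (nT0c1 A)), push_assoc (push_inv (nT0c2 A)),
    push_assoc (push_inv (nT0c3 A)), push_assoc (push_inv (nT1c1 A)),
    push_assoc (push_inv (nT1c2 A)), push_assoc (push_inv (nT1c3 A)),
    mul_assoc, mul_inv_rev, inv_inv, mul_inv_cancel_left, inv_mul_cancel_left, mul_inv_cancel,
    inv_mul_cancel, mul_one, one_mul, inv_one]

theorem lV11_word : lV11.word (ofA A) = A.wb 11 := by
  show _ = A.c1 * A.c2 * A.c3 * A.T0⁻¹ * A.T1⁻¹
  simp only [Loop.word, lV11, TOR.Arr.k, TOR.Arr.e03, TOR.Arr.e01, TOR.Arr.e12, TOR.Arr.e34,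
    TOR.Arr.e45, ofA, ↓reduceIte, Bool.false_eq_true, if_true, if_false]
  open Tor.Arr in
  simp only [pT0c1 A, pT0c2 A, pT0c3 A, pT1c1 A, pT1c2 A, pT1c3 A,
    nT0c1 A, nT0c2 A, nT0c3 A, nT1c1 A, nT1c2 A, nT1c3 A,
    push_inv (pT0c1 A), push_inv (pT0c2 A), push_inv (pT0c3 A), push_inv (pT1c1 A),
    push_inv (pT1c2 A), push_inv (pT1c3 A), push_inv (nT0c1 A), push_inv (nT0c2 A),
    push_inv (nT0c3 A), push_inv (nT1c1 A), push_inv (nT1c2 A), push_inv (nT1c3 A),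
    push_assoc (pT0c1 A), push_assoc (pT0c2 A), push_assoc (pT0c3 A), push_assoc (pT1c1 A),
    push_assoc (pT1c2 A), push_assoc (pT1c3 A), push_assoc (nT0c1 A), push_assoc (nT0c2 A),
    push_assoc (nT0c3 A), push_assoc (nT1c1 A), push_assoc (nT1c2 A), push_assoc (nT1c3 A),
    push_assoc (push_inv (pT0c1 A)), push_assoc (push_inv (pT0c2 A)),
    push_assoc (push_inv (pT0c3 A)), push_assoc (push_inv (pT1c1 A)),
    push_assoc (push_inv (pT1c2 A)), push_assoc (push_inv (pT1c3 A)),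
    push_assoc (push_inv (nT0c1 A)), push_assoc (push_inv (nT0c2 A)),
    push_assoc (push_inv (nT0c3 A)), push_assoc (push_inv (nT1c1 A)),
    push_assoc (push_inv (nT1c2 A)), push_assoc (push_inv (nT1c3 A)),
    mul_assoc, mul_inv_rev, inv_inv, mul_inv_cancel_left, inv_mul_cancel_left, mul_inv_cancel,
    inv_mul_cancel, mul_one, one_mul, inv_one]

theorem lV12_word : lV12.word (ofA A) = A.wb 12 := by
  show _ = A.c1 * A.c2 * A.c3 * A.T0⁻¹ * A.T1⁻¹
  simp only [Loop.word, lV12, TOR.Arr.k, TOR.Arr.e03, TOR.Arr.e01, TOR.Arr.e12, TOR.Arr.e34,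
    TOR.Arr.e45, ofA, ↓reduceIte, Bool.false_eq_true, if_true, if_false]
  open Tor.Arr in
  simp only [pT0c1 A, pT0c2 A, pT0c3 A, pT1c1 A, pT1c2 A, pT1c3 A,
    nT0c1 A, nT0c2 A, nT0c3 A, nT1c1 A, nT1c2 A, nT1c3 A,
    push_inv (pT0c1 A), push_inv (pT0c2 A), push_inv (pT0c3 A), push_inv (pT1c1 A),
    push_inv (pT1c2 A), push_inv (pT1c3 A), push_inv (nT0c1 A), push_inv (nT0c2 A),
    push_inv (nT0c3 A), push_inv (nT1c1 A), push_inv (nT1c2 A), push_inv (nT1c3 A),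
    push_assoc (pT0c1 A), push_assoc (pT0c2 A), push_assoc (pT0c3 A), push_assoc (pT1c1 A),
    push_assoc (pT1c2 A), push_assoc (pT1c3 A), push_assoc (nT0c1 A), push_assoc (nT0c2 A),
    push_assoc (nT0c3 A), push_assoc (nT1c1 A), push_assoc (nT1c2 A), push_assoc (nT1c3 A),
    push_assoc (push_inv (pT0c1 A)), push_assoc (push_inv (pT0c2 A)),
    push_assoc (push_inv (pT0c3 A)), push_assoc (push_inv (pT1c1 A)),
    push_assoc (push_inv (pT1c2 A)), push_assoc (push_inv (pT1c3 A)),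
    push_assoc (push_inv (nT0c1 A)), push_assoc (push_inv (nT0c2 A)),
    push_assoc (push_inv (nT0c3 A)), push_assoc (push_inv (nT1c1 A)),
    push_assoc (push_inv (nT1c2 A)), push_assoc (push_inv (nT1c3 A)),
    mul_assoc, mul_inv_rev, inv_inv, mul_inv_cancel_left, inv_mul_cancel_left, mul_inv_cancel,
    inv_mul_cancel, mul_one, one_mul, inv_one]

theorem lV13_word : lV13.word (ofA A) = A.wb 13 := by
  show _ = A.c2 * A.T0⁻¹ * A.T1⁻¹
  simp only [Loop.word, lV13, TOR.Arr.k, TOR.Arr.e03, TOR.Arr.e01, TOR.Arr.e12, TOR.Arr.e34,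
    TOR.Arr.e45, ofA, ↓reduceIte, Bool.false_eq_true, if_true, if_false]
  group

theorem lV14_word : lV14.word (ofA A) = A.wb 14 := by
  show _ = A.c2 * A.T0⁻¹ * A.T1⁻¹
  simp only [Loop.word, lV14, TOR.Arr.k, TOR.Arr.e03, TOR.Arr.e01, TOR.Arr.e12, TOR.Arr.e34,
    TOR.Arr.e45, ofA, ↓reduceIte, Bool.false_eq_true, if_true, if_false]
  group

theorem lV15_word : lV15.word (ofA A) = A.wb 15 := by
  show _ = A.c3⁻¹
  simp only [Loop.word, lV15, TOR.Arr.k, TOR.Arr.e03, TOR.Arr.e01, TOR.Arr.e12, TOR.Arr.e34,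
    TOR.Arr.e45, ofA, ↓reduceIte, Bool.false_eq_true, if_true, if_false]
  group

/-- the words of the `u`-loops -/
theorem lpU_word (ν : Fin 16) : (lpU ν).word (ofA A) = A.wa ν := by
  fin_cases ν
  · exact lU0_word A
  · exact lU1_word A
  · exact lU2_word A
  · exact lU3_word A
  · exact lU4_word A
  · exact lU5_word A
  · exact lU6_word A
  · exact lU7_word A
  · exact lU8_word A
  · exact lU9_word A
  · exact lU10_word A
  · exact lU11_word A
  · exact lU12_word A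
  · exact lU13_word A
  · exact lU14_word A
  · exact lU15_word A

/-- the words of the `v`-loops -/
theorem lpV_word (ν : Fin 16) : (lpV ν).word (ofA A) = A.wb ν := by
  fin_cases ν
  · exact lV0_word A
  · exact lV1_word A
  · exact lV2_word A
  · exact lV3_word A
  · exact lV4_word A
  · exact lV5_word A
  · exact lV6_word A
  · exact lV7_word A
  · exact lV8_word A
  · exact lV9_word A
  · exact lV10_word A
  · exact lV11_word A
  · exact lV12_word A
  · exact lV13_word A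
  · exact lV14_word A
  · exact lV15_word A

end Vale.Agent.P300.NODE
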